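import Vale.Agent.P197.Colour.Layout
import Vale.Agent.P197.Criterion.Main
import Vale.Agent.P197.Covering.Mod2

/-!
# A good constituent gives a positive Kronecker coefficient

With layout data for the staircase and a good vector of a constituent `c` of the twisted
2-quotient, the layout gives a functional on colourings with nonzero column sum.
-/

open Finset Equiv Matrix
open scoped Kronecker

namespace Vale.Agent.P197.Colour

open SymChar Littlewood Criterion Covering

/-- The equivariant function on labellings taking the value `w` at `lab`. -/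
noncomputable def orbitFun {X ω ι : Type*} [Fintype X] [DecidableEq X] [Fintype ι] [DecidableEq ι]
    (M : Perm X →* Matrix ι ι (ZMod 2)) (lab : X → ω) (w : ι → ZMod 2) (g : X → ω) :
    ι → ZMod 2 :=
  open Classical in if h : ∃ σ : Perm X, g = lab ∘ σ then M h.choose⁻¹ *ᵥ w else 0

variable {X ω ι : Type*} [Fintype X] [DecidableEq X] [Fintype ι] [DecidableEq ι]
  {M : Perm X →* Matrix ι ι (ZMod 2)} {lab : X → ω} {w : ι → ZMod 2}

lemma orbitFun_apply (hstab : ∀ σ : Perm X, lab ∘ σ = lab → M σ *ᵥ w = w) (σ : Perm X) :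
    orbitFun M lab w (lab ∘ σ) = M σ⁻¹ *ᵥ w := by
  have h : ∃ τ : Perm X, lab ∘ σ = lab ∘ τ := ⟨σ, rfl⟩
  rw [orbitFun, dif_pos h]
  have h1 : lab ∘ ⇑(σ * h.choose⁻¹) = lab := by
    rw [Perm.coe_mul, ← Function.comp_assoc]
    refine (congrArg (· ∘ ⇑h.choose⁻¹) h.choose_spec).trans ?_
    simp only [Function.comp_assoc, ← Perm.coe_mul, mul_inv_cancel, Perm.coe_one, Function.comp_id]
  conv_rhs => rw [← hstab _ h1]
  rw [mulVec_mulVec, ← map_mul, inv_mul_cancel_left]

lemma orbitFun_comp (hstab : ∀ σ : Perm X, lab ∘ σ = lab → M σ *ᵥ w = w) (g : X → ω)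
    (σ : Perm X) : orbitFun M lab w (g ∘ σ) = M σ⁻¹ *ᵥ orbitFun M lab w g := by
  by_cases h : ∃ τ : Perm X, g = lab ∘ τ
  · obtain ⟨τ, rfl⟩ := h
    rw [Function.comp_assoc, ← Perm.coe_mul, orbitFun_apply hstab, orbitFun_apply hstab,
      mulVec_mulVec, ← map_mul, _root_.mul_inv_rev]
  · have h' : ¬ ∃ τ : Perm X, g ∘ σ = lab ∘ τ := by
      rintro ⟨τ, hτ⟩
      refine h ⟨τ * σ⁻¹, ?_⟩
      rw [Perm.coe_mul, ← Function.comp_assoc, ← hτ, Function.comp_assoc, ← Perm.coe_mul,
        mul_inv_cancel, Perm.coe_one, Function.comp_id]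
    simp [orbitFun, dif_neg h, dif_neg h']

variable {n : ℕ}

/-- The label of a pair type: the block of its least row, and the merged type there. -/
def typeLabel {B : ℕ} (blk : Fin n → Fin B) (merge : Fin B → Sym2 (Fin n) → Fin 3)
    (t : Sym2 (Fin n)) : Fin B × Fin 3 :=
  (blk t.inf, merge (blk t.inf) t)

/-- **A constituent with a good vector modulo 2 gives positivity.** -/
theorem kronecker_pos_of_vec {m d ka kb n₀ n₁ n₀' n₁' : ℕ} {r v : n.Partition}
    (hr : ∀ i, row r i = m - i) (hm : m ≤ n) {ps : List Piece}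
    (L : LayoutData (tableau r) d ps)
    (e' : Fin n₀ ⊕ Fin n₁ ≃ Fin n) {A : Fin n₀ → ℤ} {B : Fin n₁ → ℤ}
    (hjoin : Littlewood.join e' A B = beta v) (hA : IsBeta ka A) (hB : IsBeta kb B)
    (hk : ka + kb = total ps) (hdn : d ≤ n) (wc : Perm (Fin n))
    (hwc : Littlewood.join e' (delta n₀) (delta n₁) = stairBeta n d ∘ wc)
    {A₁ : Fin n₀' → ℤ} {B₁ : Fin n₁' → ℤ} (hA₁ : IsBeta ka A₁)
    (hA₁A : (∀ g : Perm (Fin ka), chi A₁ g = chi A g) ∨
      ∀ g : Perm (Fin ka), chi A₁ g = (Perm.sign g : ℤ) * chi A g)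
    (hB₁B : (∀ g : Perm (Fin kb), chi B₁ g = chi B g) ∨
      ∀ g : Perm (Fin kb), chi B₁ g = (Perm.sign g : ℤ) * chi B g)
    (c : (total ps).Partition)
    (hc : ∑ σ : Perm (Fin (total ps)), chi (beta c) σ * splitSum A₁ B₁ σ ≠ 0)
    {dc : ℕ} (Sc : Perm (Fin (total ps)) →* Matrix (Fin dc) (Fin dc) ℤ)
    (hSc : (∀ g, (Sc g).trace = chi (beta c) g) ∨
      ∀ g, (Sc g).trace = (Perm.sign g : ℤ) * chi (beta c) g)
    (w : Fin dc → ZMod 2) (hw0 : w ≠ 0)
    (hwy : ∀ y : Perm (Fin (total ps)), layCls ps ∘ y = layCls ps → red Sc y *ᵥ w = w)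
    (hwg : ∀ g ∈ layGs ps, w + red Sc g *ᵥ w + red Sc (g * g) *ᵥ w = 0) :
    0 < kronecker r r v := by
  classical
  obtain ⟨dg, SC, u, hSC, hu, hub⟩ := exists_core_vector (row_staircase d) (le_tri d)
  set T := tableau r
  set Td := tableau (staircase d)
  have hSC' : ∀ g, (SC g).trace =
      (Perm.sign wc : ℤ) * chi (Littlewood.join e' (delta n₀) (delta n₁)) g := by
    intro g
    rw [hwc, chi_perm, chi_stairBeta d g n hdn, ← chi_stairBeta d g (tri d) (le_tri d),
      stairBeta_eq_beta, ← hSC, ← mul_assoc]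
    rcases Int.units_eq_one_or (Perm.sign wc) with h | h <;> rw [h] <;> simp
  let e := L.e
  let C : Subgroup (Perm (Fin n)) := Subgroup.centralizer {pairInv e}
  have hCmem : ∀ g, g ∈ C ↔ pairInv e * g = g * pairInv e := fun g => by
    simp [C, Subgroup.mem_centralizer_iff]
  have hC : ∀ g ∈ C, pairInv e * g = g * pairInv e := fun g hg => (hCmem g).mp hg
  -- the standard labelling and its vector
  set M := red Sc with hM
  let lab : Fin (total ps) → Fin L.B × Fin 3 := fun x => (L.sb x, L.E x)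
  set w' := M L.ψ⁻¹ *ᵥ w
  have hcls : ∀ σ : Perm (Fin (total ps)), lab ∘ σ = lab → M σ *ᵥ w' = w' := by
    intro σ hσ
    have h1 : layCls ps ∘ ⇑(L.ψ * σ * L.ψ⁻¹) = layCls ps := by
      funext y
      obtain ⟨x, rfl⟩ := L.ψ.surjective y
      simp only [Function.comp_apply, Perm.mul_apply, Perm.inv_def, Equiv.symm_apply_apply, L.hψ]
      exact congrArg L.κ (congrFun hσ x)
    have h2 := congrArg (M L.ψ⁻¹ *ᵥ ·) (hwy _ h1)
    simp only [mulVec_mulVec, ← map_mul] at h2
    simp only [w', mulVec_mulVec, ← map_mul]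
    rwa [← mul_assoc, ← mul_assoc, inv_mul_cancel, one_mul] at h2
  -- labellings of the block slots
  let φ : (Σ b, {x // L.sb x = b}) ≃ Fin (total ps) := Equiv.sigmaFiberEquiv L.sb
  let Φ₀ : ((Σ b, {x // L.sb x = b}) → Fin L.B × Fin 3) → Fin dc → ZMod 2 :=
    fun l => orbitFun M lab w' (l ∘ φ.symm)
  let Aop : Perm (Σ b, {x // L.sb x = b}) → (Fin dc → ZMod 2) →ₗ[ZMod 2] (Fin dc → ZMod 2) :=
    fun τ => (M (φ.permCongr τ)⁻¹).mulVecLin
  have hΦ₀ : IsCyclic L.G Aop Φ₀ := by
    refine ⟨fun τ g => ?_, fun b hb g => ?_⟩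
    · show orbitFun M lab w' ((g ∘ τ) ∘ φ.symm) = M _ *ᵥ orbitFun M lab w' (g ∘ φ.symm)
      rw [← orbitFun_comp hcls]
      congr 1
      funext x
      simp [Equiv.permCongr_apply]
    · obtain ⟨g₀, hg₀, hg₀cls⟩ := L.hG b hb
      let h := L.ψ⁻¹ * g₀ * L.ψ
      have hlab : lab ∘ h = onBlock b (· + 1) ∘ lab := by
        funext x
        refine L.hκ ?_
        show L.κ (L.sb _, L.E _) = _
        rw [← L.hψ]
        simpa [h, lab] using hg₀cls x
      have hlab2 : lab ∘ ⇑(h * h) = onBlock b (· + 2) ∘ lab := by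
        rw [Perm.coe_mul, ← Function.comp_assoc, hlab, Function.comp_assoc, hlab,
          ← Function.comp_assoc, onBlock_comp]
        congr 2
        funext y
        revert y; decide
      set g' := g ∘ φ.symm
      show orbitFun M lab w' g' + orbitFun M lab w' (onBlock b (· + 1) ∘ g') +
        orbitFun M lab w' (onBlock b (· + 2) ∘ g') = 0
      by_cases hg : ∃ τ : Perm (Fin (total ps)), g' = lab ∘ τ
      · obtain ⟨τ, hτ⟩ := hg
        rw [hτ, ← Function.comp_assoc, ← Function.comp_assoc, ← hlab, ← hlab2,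
          Function.comp_assoc, Function.comp_assoc, ← Perm.coe_mul, ← Perm.coe_mul,
          orbitFun_apply hcls, orbitFun_apply hcls, orbitFun_apply hcls]
        simp only [w', mulVec_mulVec, ← map_mul]
        have h2 := congrArg (fun z => M (τ⁻¹ * L.ψ⁻¹ * (g₀ * g₀)⁻¹) *ᵥ z) (hwg g₀ hg₀)
        simp only [mulVec_add, mulVec_mulVec, ← map_mul, mulVec_zero] at h2
        refine Eq.trans ?_ h2
        simp only [h, M, _root_.mul_inv_rev, inv_inv, mul_assoc, mul_inv_cancel_left,
          inv_mul_cancel_left, mul_inv_cancel, inv_mul_cancel, mul_one]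
        abel
      · have hshift : ∀ (p q : Fin 3 → Fin 3) (k : Perm (Fin (total ps))), q ∘ p = id →
            lab ∘ k = onBlock b q ∘ lab →
            orbitFun M lab w' (onBlock b p ∘ g') = 0 := by
          intro p q k hqp hk
          refine dif_neg ?_
          rintro ⟨τ, hτ⟩
          refine hg ⟨k * τ, ?_⟩
          rw [Perm.coe_mul, ← Function.comp_assoc, hk, Function.comp_assoc, ← hτ,
            ← Function.comp_assoc, onBlock_comp, hqp, onBlock_id, Function.id_comp]
        have h0 : orbitFun M lab w' g' = 0 := dif_neg hg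
        rw [h0, hshift (· + 1) (· + 2) (h * h) (by decide) hlab2,
          hshift (· + 2) (· + 1) h (by decide) hlab, add_zero, add_zero]
  let E₀ : ∀ b, {x // L.sb x = b} → Fin 3 := fun b x => L.E x.1
  have hne₀ : Φ₀ (join E₀) ≠ 0 := by
    have h1 : join E₀ ∘ φ.symm = lab := by
      funext x
      simp [join, E₀, φ, lab]
    show orbitFun M lab w' (join E₀ ∘ φ.symm) ≠ 0
    have h2 : orbitFun M lab w' lab = w' := by
      have h3 := orbitFun_apply hcls 1
      rwa [inv_one, map_one, one_mulVec] at h3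
    rw [h1, h2]
    intro h0
    refine hw0 ?_
    have := congrArg (M L.ψ *ᵥ ·) h0
    simpa [w', mulVec_mulVec, ← map_mul] using this
  obtain ⟨Φ, hΦ, hΦne⟩ := exists_ne_zero (fun b => blockVec T e L.sb L.merge b) E₀ L.Q L.hQ L.hgen
    hΦ₀ hne₀
  -- the functional on colourings
  let U : (Fin (tri d) → Fin n) → Fin dg → ZMod 2 := fun h =>
    orbitFun (red SC) (fun y => (Td y : ℕ)) u (fun y => (h y : ℕ))
  have hustab : ∀ s : Perm (Fin (tri d)),
      (fun y => (Td y : ℕ)) ∘ s = (fun y => (Td y : ℕ)) → red SC s *ᵥ u = u := fun s hs =>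
    hu s (funext fun y => Fin.ext (congrFun hs y))
  let V : (Fin (total ps) → Sym2 (Fin n)) → Fin dc → ZMod 2 := fun ty =>
    Φ fun x => typeLabel L.blk L.merge (ty (φ x))
  let mu : (Fin dc → ZMod 2) →ₗ[ZMod 2] (Fin dg → ZMod 2) →ₗ[ZMod 2]
      (Fin dc × Fin dg → ZMod 2) :=
    LinearMap.mk₂ (ZMod 2) vecMul2 (fun a b c => funext fun i => add_mul _ _ _)
      (fun a b c => funext fun i => mul_assoc _ _ _) (fun a b c => funext fun i => mul_add _ _ _)
      (fun a b c => funext fun i => mul_left_comm _ _ _)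
  let ok : (Fin n → Fin n) → Prop := fun g =>
    (∀ t, #{x | colType (fun p => g (e (.inl p))) x = t} = #{x | pairType T e 1 x = t}) ∧
      cnt (fun y => g (e (.inr y))) = cnt (fun y => T (e (.inr y)))
  let F : (Fin n → Fin n) → Fin dc × Fin dg → ZMod 2 := fun g =>
    if ok g then mu (V (colType fun p => g (e (.inl p)))) (U fun y => g (e (.inr y))) else 0
  refine kronecker_pos_of_constituent_colouring hr hm e e' hjoin hA hB hk hA₁ hA₁A hB₁B c hc Sc
    hSc SC _ hSC' C hCmem F ?_ ?_
  · intro x g _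
    set σp := (centraliserHom C hC x⁻¹).1
    set σs := (centraliserHom C hC x⁻¹).2
    have hci : pairInv e * ((x⁻¹ : C) : Perm (Fin n)) = (x⁻¹ : C) * pairInv e := hC _ (x⁻¹).2
    have hty : (colType fun p => (g ∘ ⇑((x : Perm (Fin n))⁻¹)) (e (.inl p))) =
        (colType fun p => g (e (.inl p))) ∘ σp := by
      funext z
      have h := pairType_comp hci g 1 z
      simp only [pairType, one_mul, Perm.one_apply, Subgroup.coe_inv] at h
      exact h
    have hsing : (fun y => (g ∘ ⇑((x : Perm (Fin n))⁻¹)) (e (.inr y))) =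
        (fun y => g (e (.inr y))) ∘ σs := by
      funext y
      exact congrArg g (by rw [← Subgroup.coe_inv]; exact (centraliser_apply hci).2 y)
    have hok : ok (g ∘ ⇑((x : Perm (Fin n))⁻¹)) ↔ ok g := by
      have hcard : ∀ t, #{z | ((colType fun p => g (e (.inl p))) ∘ σp) z = t} =
          #{z | colType (fun p => g (e (.inl p))) z = t} := fun t => card_equiv σp (by simp)
      simp only [ok, hty, hsing, hcard, cnt_comp_equiv]
    show F _ = red (inflate C hC Sc SC) x *ᵥ F g
    by_cases hg : ok g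
    · simp only [F, if_pos hg, if_pos (hok.mpr hg), hty, hsing]
      show vecMul2 _ _ = _ *ᵥ vecMul2 _ _
      rw [red_inflate, kronecker_mulVec_vecMul2]
      have hσ : σp = ((centraliserHom C hC x).1)⁻¹ ∧ σs = ((centraliserHom C hC x).2)⁻¹ := by
        simp only [σp, σs, map_inv, Prod.fst_inv, Prod.snd_inv, and_self]
      congr 1
      · let τ : Perm (Σ b, {z // L.sb z = b}) := φ.symm.permCongr σp
        have h := hΦ.1 τ fun z => typeLabel L.blk L.merge (colType (fun p => g (e (.inl p))) (φ z))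
        have hAop : φ.permCongr τ = σp := by ext z; simp [τ, Equiv.permCongr_apply]
        simp only [Aop, Matrix.mulVecLin_apply, hAop, hσ.1, inv_inv] at h
        refine Eq.trans (congrArg Φ (funext fun z => ?_)) h
        simp [τ, Equiv.permCongr_apply, hσ.1]
      · have h := orbitFun_comp hustab (fun y => (g (e (.inr y)) : ℕ)) σs
        rw [hσ.2, inv_inv] at h
        simp only [U, hσ.2]
        exact h
    · simp only [F, if_neg hg, if_neg fun h => hg (hok.mp h), mulVec_zero]
  · have hgood' : goodPerms T e = (colStab T).filter fun π : Perm (Fin n) => ok (T ∘ ⇑π) := rfl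
    rw [show ∑ π ∈ colStab T, F (T ∘ π) = ∑ π ∈ goodPerms T e,
        mu.flip (U fun y => T (π (e (.inr y)))) (V (pairType T e π)) by
      rw [hgood', sum_filter]; exact sum_congr rfl fun π _ => rfl]
    rw [sum_goodPerms T Td e L.blk L.sb L.hcorner L.hcol L.hblk L.hS mu.flip U V]
    -- the single cells
    have hU : ∑ s ∈ colStab Td, U (fun y => T (e (.inr (s y)))) =
        ∑ s ∈ colStab Td, red SC s *ᵥ u := by
      refine Finset.sum_equiv (Equiv.inv _) (fun s => ?_) fun s _ => ?_
      · simp only [colStab, mem_filter, mem_univ, true_and, Equiv.inv_apply]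
        constructor <;> intro h <;> funext y
        · simpa using (congrFun h (s⁻¹ y)).symm
        · simpa using (congrFun h (s y)).symm
      · have h1 : (fun y => (T (e (.inr (s y))) : ℕ)) = (fun y => (Td y : ℕ)) ∘ s :=
          funext fun y => L.hrow (s y)
        simp only [U, h1, orbitFun_apply hustab, Equiv.inv_apply]
    -- the pairs
    have hV : ∑ c ∈ Fintype.piFinset (blockSols T e L.sb), V (colType (glueBlocks L.sb c)) =
        Finsupp.linearCombination (ZMod 2) Φ (piVec fun b => blockVec T e L.sb L.merge b) := by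
      let lc : ∀ b, (BCell L.sb b → Fin n) → ({x // L.sb x = b} → Fin 3) := fun b c x =>
        L.merge b s(c ⟨(x.1, false), x.2⟩, c ⟨(x.1, true), x.2⟩)
      have hpi : piVec (fun b => blockVec T e L.sb L.merge b) =
          ∑ c ∈ Fintype.piFinset (blockSols T e L.sb),
            Finsupp.single (join fun b => lc b (c b)) 1 := by
        have hprod : ∀ f : ∀ b, {x // L.sb x = b} → Fin 3,
            ∏ b, blockVec T e L.sb L.merge b (f b) =
              ∑ c ∈ Fintype.piFinset (blockSols T e L.sb),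
                if (fun b => lc b (c b)) = f then (1 : ZMod 2) else 0 := by
          intro f
          simp only [blockVec, Finsupp.finsetSum_apply, Finsupp.single_apply]
          rw [Finset.prod_univ_sum]
          refine sum_congr rfl fun c _ => ?_
          rcases eq_or_ne (fun b => lc b (c b)) f with h | h
          · rw [if_pos h]
            exact prod_eq_one fun b _ => if_pos (congrFun h b)
          · rw [if_neg h]
            obtain ⟨b, hb⟩ := Function.ne_iff.mp h
            exact prod_eq_zero (mem_univ b) (if_neg hb)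
        simp only [piVec, hprod, Finsupp.single_finsetSum]
        rw [Finset.sum_comm]
        refine sum_congr rfl fun c _ => ?_
        rw [Finset.sum_eq_single (fun b => lc b (c b))]
        · rw [if_pos rfl]
        · intro f _ hf; rw [if_neg (Ne.symm hf), Finsupp.single_zero]
        · simp
      rw [hpi, map_sum]
      refine sum_congr rfl fun c hc => ?_
      rw [Finsupp.linearCombination_single, one_smul]
      refine congrArg Φ (funext fun z => ?_)
      obtain ⟨b, x, hx⟩ := z
      have hblkc : ∀ p : BCell L.sb b, L.blk (c b p) = b := by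
        intro p
        obtain ⟨q, -, hq⟩ := (mem_filter.mp (Fintype.mem_piFinset.mp hc b)).2.2.1 p
        rw [← hq, L.hblk, q.2]
      have hg1 : glueBlocks L.sb c (x, false) = c b ⟨(x, false), hx⟩ := glueBlocks_apply c ⟨(x, false), hx⟩
      have hg2 : glueBlocks L.sb c (x, true) = c b ⟨(x, true), hx⟩ := glueBlocks_apply c ⟨(x, true), hx⟩
      show typeLabel L.blk L.merge (colType (glueBlocks L.sb c) x) = (b, lc b (c b) ⟨x, hx⟩)
      simp only [typeLabel, colType, hg1, hg2, Sym2.inf_mk, lc]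
      have hb : L.blk (c b ⟨(x, false), hx⟩ ⊓ c b ⟨(x, true), hx⟩) = b := by
        rcases le_total (c b ⟨(x, false), hx⟩) (c b ⟨(x, true), hx⟩) with h | h
        · rw [inf_eq_left.mpr h, hblkc]
        · rw [inf_eq_right.mpr h, hblkc]
      rw [hb]
    rw [hU, hV]
    intro h0
    obtain ⟨i, hi⟩ := Function.ne_iff.mp hΦne
    obtain ⟨j, hj⟩ := Function.ne_iff.mp hub
    refine hj ?_
    have h1 := congrFun h0 (i, j)
    simp only [mu, LinearMap.flip_apply, LinearMap.mk₂_apply, vecMul2, Pi.zero_apply] at h1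
    rcases mul_eq_zero.mp h1 with h2 | h2
    · exact absurd h2 hi
    · exact h2

/-- **A good constituent gives positivity.** -/
theorem kronecker_pos_of_good {m d ka kb n₀ n₁ n₀' n₁' : ℕ} {r v : n.Partition}
    (hr : ∀ i, row r i = m - i) (hm : m ≤ n) {ps : List Piece}
    (L : LayoutData (tableau r) d ps)
    (e' : Fin n₀ ⊕ Fin n₁ ≃ Fin n) {A : Fin n₀ → ℤ} {B : Fin n₁ → ℤ}
    (hjoin : Littlewood.join e' A B = beta v) (hA : IsBeta ka A) (hB : IsBeta kb B)
    (hk : ka + kb = total ps) (hdn : d ≤ n) (wc : Perm (Fin n))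
    (hwc : Littlewood.join e' (delta n₀) (delta n₁) = stairBeta n d ∘ wc)
    {A₁ : Fin n₀' → ℤ} {B₁ : Fin n₁' → ℤ} (hA₁ : IsBeta ka A₁)
    (hA₁A : (∀ g : Perm (Fin ka), chi A₁ g = chi A g) ∨
      ∀ g : Perm (Fin ka), chi A₁ g = (Perm.sign g : ℤ) * chi A g)
    (hB₁B : (∀ g : Perm (Fin kb), chi B₁ g = chi B g) ∨
      ∀ g : Perm (Fin kb), chi B₁ g = (Perm.sign g : ℤ) * chi B g)
    (c : (total ps).Partition)
    (hc : ∑ σ : Perm (Fin (total ps)), chi (beta c) σ * splitSum A₁ B₁ σ ≠ 0)
    (hgood : Good ps c) : 0 < kronecker r r v := by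
  obtain ⟨dc, Sc, hSc⟩ := exists_intForm c
  obtain ⟨w, hw0, hwy, hwg⟩ := exists_mod_two_vec hgood Sc hSc
  exact kronecker_pos_of_vec hr hm L e' hjoin hA hB hk hdn wc hwc hA₁ hA₁A hB₁B c hc Sc
    (Or.inl hSc) w hw0 hwy hwg

end Vale.Agent.P197.Colour
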