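import Vale.Agent.P197.Staircase.Partition

/-!
# The top pieces of the layout

Row `u` of the staircase outside the corner of side `d` is the window of columns
`max 0 (d - u) ≤ j < m - u`.  With `l = m - d` odd the rows `2 i, 2 i + 1` (`i < (d + 1) / 2`) are
paired, the upper one taking the mixed pair.  The rows from `topRows m d` on form the tail.
-/

open Finset

namespace Vale.Agent.P197.Colour

/-- The number of gadgets. -/
def layK (m d : ℕ) : ℕ := (m - d + 1) / 4

/-- The rows above the tail. -/
def topRows (m d : ℕ) : ℕ := if layK m d = 0 then m else m + 1 - 4 * layK m d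

/-- The rows paired two by two. -/
def eqRows (m d : ℕ) : ℕ := if (m - d) % 2 = 1 then 2 * ((d + 1) / 2) else 0

/-- The number of columns of row `u` outside the corner. -/
def winLen (m d u : ℕ) : ℕ := m - max u d

/-- The number of pairs which belong to row `u`. -/
def rowPairs (m d u : ℕ) : ℕ :=
  if u < eqRows m d ∧ u % 2 = 0 then (winLen m d u + 1) / 2 else winLen m d u / 2

/-- The sizes of the top pieces. -/
def topList (m d : ℕ) : List ℕ := (List.range (topRows m d)).map (rowPairs m d)

/-- The parity condition leaves three cases. -/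
lemma parity_cases {m d : ℕ} (hd : d ≤ m) (h : Even (tri m - tri d)) :
    (m - d) % 4 = 0 ∨ (m - d) % 4 = 3 ∧ d % 2 = 0 ∨ (m - d) % 4 = 1 ∧ d % 2 = 1 := by
  obtain ⟨t, ht⟩ := h
  have h1 := two_mul_tri m
  have h2 := two_mul_tri d
  have hle : tri d ≤ tri m := Nat.div_le_div_right (Nat.mul_le_mul hd (by omega))
  obtain ⟨l, rfl⟩ := Nat.exists_eq_add_of_le hd
  have h3 : l * (2 * d + l + 1) = 4 * t := by
    have hm : (d + l) * (d + l + 1) = d * (d + 1) + l * (2 * d + l + 1) := by ring
    omega
  have h4 : l % 4 * ((2 * d + l + 1) % 4) % 4 = 0 := by rw [← Nat.mul_mod, h3]; omega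
  rw [show d + l - d = l by omega]
  have hl : l % 4 = 0 ∨ l % 4 = 1 ∨ l % 4 = 2 ∨ l % 4 = 3 := by omega
  have hc : (2 * d + l + 1) % 4 = 0 ∨ (2 * d + l + 1) % 4 = 1 ∨ (2 * d + l + 1) % 4 = 2 ∨
      (2 * d + l + 1) % 4 = 3 := by omega
  rcases hl with hl | hl | hl | hl <;> rcases hc with hc | hc | hc | hc <;>
    rw [hl, hc] at h4 <;> omega

variable {m d : ℕ}

lemma length_topList : (topList m d).length = topRows m d := by simp [topList]

/-- With gadgets, the top pieces have sizes `2 K - 1`, `2 K` or `2 K + 1`. -/
lemma topList_bounds (hd : d ≤ m) (h : Even (tri m - tri d)) (hK : 1 ≤ layK m d) :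
    ∀ q ∈ topList m d, 2 * layK m d ≤ q + 1 ∧ q ≤ 2 * layK m d + 1 := by
  intro q hq
  simp only [topList, List.mem_map, List.mem_range] at hq
  obtain ⟨u, hu, rfl⟩ := hq
  have := parity_cases hd h
  rw [topRows, if_neg (show ¬layK m d = 0 by omega)] at hu
  simp only [layK, rowPairs, eqRows, winLen] at *
  rcases lt_or_ge u d with hud | hud
  · rw [max_eq_right hud.le]
    split_ifs <;> omega
  · rw [max_eq_left hud]
    split_ifs <;> omega

/-- The last top piece has size at most `2 K`. -/
lemma topList_last (hd : d ≤ m) (h : Even (tri m - tri d)) (hK : 1 ≤ layK m d)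
    (hne : topList m d ≠ []) : (topList m d).getLast hne ≤ 2 * layK m d := by
  have hlen : 0 < topRows m d := by
    rw [← length_topList (m := m) (d := d)]; exact List.length_pos_iff.mpr hne
  rw [List.getLast_eq_getElem]
  simp only [topList, List.getElem_map, List.getElem_range, List.length_map, List.length_range]
  have := parity_cases hd h
  rw [topRows, if_neg (show ¬layK m d = 0 by omega)] at hlen ⊢
  simp only [layK, rowPairs, eqRows, winLen] at *
  rcases lt_or_ge (m + 1 - 4 * ((m - d + 1) / 4) - 1) d with hud | hud
  · rw [max_eq_right hud.le]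
    split_ifs <;> omega
  · rw [max_eq_left hud]
    split_ifs <;> omega

/-- Without gadgets every top piece has size at most one. -/
lemma topList_le_one (hd : d ≤ m) (h : Even (tri m - tri d)) (hK : layK m d = 0) :
    ∀ q ∈ topList m d, q ≤ 1 := by
  intro q hq
  simp only [topList, List.mem_map, List.mem_range] at hq
  obtain ⟨u, hu, rfl⟩ := hq
  have := parity_cases hd h
  rw [topRows, if_pos hK] at hu
  simp only [layK, rowPairs, eqRows, winLen] at *
  rcases lt_or_ge u d with hud | hud
  · rw [max_eq_right hud.le]
    split_ifs <;> omega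
  · rw [max_eq_left hud]
    split_ifs <;> omega

/-- The exceptional layout: no top pieces and two gadgets. -/
lemma topList_eq_nil_iff (hd : d ≤ m) (h : Even (tri m - tri d)) (hK : layK m d = 2) :
    topList m d = [] ↔ m = 7 ∧ d = 0 := by
  rw [← List.length_eq_zero_iff, length_topList]
  have := parity_cases hd h
  rw [topRows, if_neg (show ¬layK m d = 0 by omega)]
  simp only [layK] at *
  omega

end Vale.Agent.P197.Colour
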