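import Vale.Agent.P197.Colour.Gadget

/-!
# The two block shapes

A block is a set of cells `(row, column)`, paired into slots.  Colourings that are injective on
columns, use in each column only rows present there, and have the type counts of the identity
colouring give a formal sum of labellings of the slots.
-/

open Finset

namespace Vale.Agent.P197.Colour

/-- Rows `0, 1, 2` of lengths `2p + 1, 2p, 2p - 1` (left aligned). -/
abbrev GCell (p : ℕ) := {z : Fin 3 × Fin (2 * p + 1) // (z.2 : ℕ) + z.1 < 2 * p + 1}

/-- Top, middle and bottom slots; the top slot `p` is the mixed one. -/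
abbrev GSlot (p : ℕ) := Fin (p + 1) ⊕ Fin p ⊕ Fin (p - 1)

/-- The two cells of a slot. -/
def gEnd (p : ℕ) : GSlot p → Bool → GCell p
  | .inl i, false => ⟨(0, ⟨i, by omega⟩), by have := i.2; simp only [Fin.val_zero]; omega⟩
  | .inl i, true =>
      if h : (i : ℕ) < p then
        ⟨(0, ⟨2 * p - i, by omega⟩), by simp only [Fin.val_zero]; omega⟩
      else if h' : 0 < p then ⟨(2, ⟨p - 1, by omega⟩), by simp only [Fin.val_two]; omega⟩
      else ⟨(0, ⟨0, by omega⟩), by simp⟩
  | .inr (.inl i), false => ⟨(1, ⟨i, by omega⟩), by have := i.2; simp only [Fin.val_one]; omega⟩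
  | .inr (.inl i), true =>
      ⟨(1, ⟨2 * p - 1 - i, by omega⟩), by have := i.2; simp only [Fin.val_one]; omega⟩
  | .inr (.inr i), false => ⟨(2, ⟨i, by omega⟩), by have := i.2; simp only [Fin.val_two]; omega⟩
  | .inr (.inr i), true =>
      ⟨(2, ⟨2 * p - 2 - i, by omega⟩), by have := i.2; simp only [Fin.val_two]; omega⟩

/-- The mixed type is merged with the bottom one. -/
def gMerge (t : Sym2 (Fin 3)) : Fin 3 :=
  if t = s((0 : Fin 3), 0) then 0 else if t = s((1 : Fin 3), 1) then 1 else 2

/-- Injective on columns and every column only uses rows present in it. -/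
def GValid (p : ℕ) (c : GCell p → Fin 3) : Prop :=
  (∀ z z', z.1.2 = z'.1.2 → c z = c z' → z = z') ∧ ∀ z, (z.1.2 : ℕ) + c z < 2 * p + 1

instance (p : ℕ) (c : GCell p → Fin 3) : Decidable (GValid p c) := by
  unfold GValid; infer_instance

/-- The type of a slot. -/
def gType (p : ℕ) (c : GCell p → Fin 3) (x : GSlot p) : Sym2 (Fin 3) :=
  s(c (gEnd p x false), c (gEnd p x true))

/-- Colourings with the type counts of the row colouring. -/
def gSols (p : ℕ) : Finset (GCell p → Fin 3) :=
  {c | GValid p c ∧ ∀ t, #{x | gType p c x = t} = #{x | gType p (fun z => z.1.1) x = t}}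

/-- The vector of a gadget. -/
noncomputable def gadVec (p : ℕ) : Vec (GSlot p) (Fin 3) :=
  ∑ c ∈ gSols p, Finsupp.single (fun x => gMerge (gType p c x)) 1

/-- Two rows of length `2p + 1`, the upper one shifted right by one column. -/
abbrev ECell (p : ℕ) := Fin 2 × Fin (2 * p + 1)

/-- The column of a cell. -/
def eCol (p : ℕ) (z : ECell p) : ℕ := if z.1 = 0 then (z.2 : ℕ) + 1 else z.2

/-- Upper slots (the last one mixed) and lower slots. -/
abbrev ESlot (p : ℕ) := Fin (p + 1) ⊕ Fin p

/-- The two cells of a slot. -/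
def eEnd (p : ℕ) : ESlot p → Bool → ECell p
  | .inl i, false => (0, ⟨i, by omega⟩)
  | .inl i, true =>
      if (i : ℕ) < p then (0, ⟨2 * p - i, by omega⟩) else (1, ⟨p, by omega⟩)
  | .inr i, false => (1, ⟨i, by omega⟩)
  | .inr i, true => (1, ⟨2 * p - i, by omega⟩)

/-- The mixed type is merged with the upper one. -/
def eMerge (t : Sym2 (Fin 2)) : Fin 2 := if t = s((1 : Fin 2), 1) then 1 else 0

/-- Injective on columns and every column only uses rows present in it. -/
def EValid (p : ℕ) (c : ECell p → Fin 2) : Prop :=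
  (∀ z z', eCol p z = eCol p z' → c z = c z' → z = z') ∧
    ∀ z, (c z = 0 → 1 ≤ eCol p z) ∧ (c z = 1 → eCol p z ≤ 2 * p)

instance (p : ℕ) (c : ECell p → Fin 2) : Decidable (EValid p c) := by
  unfold EValid; infer_instance

/-- The type of a slot. -/
def eType (p : ℕ) (c : ECell p → Fin 2) (x : ESlot p) : Sym2 (Fin 2) :=
  s(c (eEnd p x false), c (eEnd p x true))

/-- Colourings with the type counts of the row colouring. -/
def eSols (p : ℕ) : Finset (ECell p → Fin 2) :=
  {c | EValid p c ∧ ∀ t, #{x | eType p c x = t} = #{x | eType p (fun z => z.1) x = t}}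

/-- The vector of a pair of rows. -/
noncomputable def eqVec (p : ℕ) : Vec (ESlot p) (Fin 2) :=
  ∑ c ∈ eSols p, Finsupp.single (fun x => eMerge (eType p c x)) 1

end Vale.Agent.P197.Colour
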