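import Vale.Agent.P197.Colour.Blocks

/-!
# The vectors of the two blocks

Both slots of a level are read as a pair (colour in the high column, colour in the low column).
Going inwards level by level only the two colours handed to the next level matter.
-/

open Finset

namespace Vale.Agent.P197.Colour.Chain

/-- The two colours of a slot: high column, low column. -/
abbrev Sides := Fin 3 × Fin 3

/-- Three different colours. -/
def Dst (a b c : Fin 3) : Prop := a ≠ b ∧ a ≠ c ∧ b ≠ c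

instance (a b c : Fin 3) : Decidable (Dst a b c) := by unfold Dst; infer_instance

/-- Monochromatic, or of the mixed type. -/
def Good (x : Sides) : Prop := x.1 = x.2 ∨ s(x.1, x.2) = s((0 : Fin 3), 2)

instance (x : Sides) : Decidable (Good x) := by unfold Good; infer_instance

/-- Number of mixed slots. -/
def nm (x : Sides) : ℕ := if x.1 = x.2 then 0 else 1

/-- Merged label. -/
def mg (x : Sides) : Fin 3 := gMerge s(x.1, x.2)

/-- Top, middle and bottom slots after the outermost one. -/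
abbrev RS (k : ℕ) := Fin (k + 1) ⊕ Fin (k + 1) ⊕ Fin k

/-- Colours of those slots. -/
abbrev Asg (k : ℕ) := (Fin (k + 1) → Sides) × (Fin (k + 1) → Sides) × (Fin k → Sides)

/-- Colour seen in a high column coming from outside. -/
def hiU {k : ℕ} (u : Fin 3) (a : Asg k) : Fin (k + 1) → Fin 3 := Fin.cons u fun i => (a.2.2 i).1

/-- Colour seen in a low column coming from outside. -/
def loV {k : ℕ} (v : Fin 3) (a : Asg k) : Fin (k + 1) → Fin 3 :=
  Fin.cons v fun i => (a.1 i.castSucc).2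

/-- Colour of the bottom cell of a low column. -/
def loB {k : ℕ} (a : Asg k) : Fin (k + 1) → Fin 3 :=
  Fin.snoc (fun i => (a.2.2 i).2) (a.1 (Fin.last k)).2

/-- Number of mixed slots. -/
def nmc {k : ℕ} (a : Asg k) : ℕ := ∑ i, nm (a.1 i) + ∑ i, nm (a.2.1 i) + ∑ i, nm (a.2.2 i)

/-- Admissible colours given the two incoming colours and the number of mixed slots. -/
def Valid (k : ℕ) (u v : Fin 3) (d : ℕ) (a : Asg k) : Prop :=
  (∀ j, Dst (a.1 j).1 (a.2.1 j).1 (hiU u a j)) ∧ (∀ j, Dst (loV v a j) (a.2.1 j).2 (loB a j)) ∧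
    ((∀ j, Good (a.1 j)) ∧ (∀ j, Good (a.2.1 j)) ∧ ∀ j, Good (a.2.2 j)) ∧ nmc a = d

instance (k : ℕ) (u v : Fin 3) (d : ℕ) (a : Asg k) : Decidable (Valid k u v d a) := by
  unfold Valid; infer_instance

/-- The order of the slots of a tail. -/
def ord : (k : ℕ) → Tail k → RS k
  | 0, x => ![.inr (.inl 0), .inl 0] x
  | k + 1, .inl x => ![.inr (.inl 0), .inl 0, .inr (.inr 0)] x
  | k + 1, .inr y => Sum.map Fin.succ (Sum.map Fin.succ Fin.succ) (ord k y)

lemma ord_injective : ∀ k, Function.Injective (ord k)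
  | 0 => fun x y h => by
    fin_cases x <;> fin_cases y <;> first | rfl | simp [ord] at h
  | k + 1 => by
    have hi : Function.Injective (Sum.map (Fin.succ : Fin (k + 1) → Fin (k + 2))
        (Sum.map (Fin.succ : Fin (k + 1) → Fin (k + 2)) (Fin.succ : Fin k → Fin (k + 1)))) :=
      (Fin.succ_injective _).sumMap ((Fin.succ_injective _).sumMap (Fin.succ_injective _))
    rintro (x | x) (y | y) h
    · congr 1
      fin_cases x <;> fin_cases y <;> first | rfl | simp [ord] at h
    · rcases hy : ord k y with z | z | z <;> fin_cases x <;> simp [ord, hy, eq_comm] at h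
    · rcases hx : ord k x with z | z | z <;> fin_cases y <;> simp [ord, hx] at h
    · exact congrArg _ (ord_injective k (hi h))

lemma card_tail : ∀ k, Fintype.card (Tail k) = 3 * k + 2
  | 0 => rfl
  | k + 1 => by
    show Fintype.card (Fin 3 ⊕ Tail k) = _
    rw [Fintype.card_sum, card_tail k, Fintype.card_fin]; omega

lemma ord_bijective (k : ℕ) : Function.Bijective (ord k) :=
  (Fintype.bijective_iff_injective_and_card _).mpr ⟨ord_injective k, by
    rw [card_tail]; simp only [Fintype.card_sum, Fintype.card_fin]; omega⟩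

/-- Colours as a function of the slot. -/
def slotFun {k : ℕ} (a : Asg k) : RS k → Sides := Sum.elim a.1 (Sum.elim a.2.1 a.2.2)

/-- Labels in tail order. -/
def lab (k : ℕ) (a : Asg k) : Tail k → Fin 3 := fun x => mg (slotFun a (ord k x))

/-- Prepend a level (middle, top, bottom). -/
def cons {k : ℕ} (h : Sides × Sides × Sides) (a : Asg k) : Asg (k + 1) :=
  (Fin.cons h.2.1 a.1, Fin.cons h.1 a.2.1, Fin.cons h.2.2 a.2.2)

/-- Admissible levels. -/
def Local (u v : Fin 3) (d : ℕ) (h : Sides × Sides × Sides) : Prop :=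
  Dst h.2.1.1 h.1.1 u ∧ Dst v h.1.2 h.2.2.2 ∧ (Good h.1 ∧ Good h.2.1 ∧ Good h.2.2) ∧
    nm h.1 + nm h.2.1 + nm h.2.2 ≤ d

instance (u v : Fin 3) (d : ℕ) (h : Sides × Sides × Sides) : Decidable (Local u v d h) := by
  unfold Local; infer_instance

lemma lab_cons (k : ℕ) (h : Sides × Sides × Sides) (a : Asg k) :
    lab (k + 1) (cons h a) = Sum.elim ![mg h.1, mg h.2.1, mg h.2.2] (lab k a) := by
  funext x
  rcases x with x | y
  · fin_cases x <;> simp [lab, ord, slotFun, cons]
  · show mg (slotFun (cons h a) (Sum.map Fin.succ (Sum.map Fin.succ Fin.succ) (ord k y))) = _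
    simp only [Sum.elim_inr, lab]
    rcases ord k y with z | z | z <;> simp [slotFun, cons]

lemma allGood {n : ℕ} (x : Sides) (f : Fin n → Sides) :
    (∀ j, Good ((Fin.cons x f : Fin (n + 1) → Sides) j)) ↔ Good x ∧ ∀ j, Good (f j) := by
  simp [Fin.forall_fin_succ]

lemma valid_cons (k : ℕ) (u v : Fin 3) (d : ℕ) (h : Sides × Sides × Sides) (a : Asg k) :
    Valid (k + 1) u v d (cons h a) ↔ Local u v d h ∧
      Valid k h.2.2.1 h.2.1.2 (d - (nm h.1 + nm h.2.1 + nm h.2.2)) a := by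
  obtain ⟨m, t, b⟩ := h
  obtain ⟨T, M, B⟩ := a
  have e1 : hiU u (cons (m, t, b) (T, M, B)) = Fin.cons u (hiU b.1 (T, M, B)) := by
    unfold hiU cons
    congr 1
    funext i
    cases i using Fin.cases <;> simp
  have e2 : loV v (cons (m, t, b) (T, M, B)) = Fin.cons v (loV t.2 (T, M, B)) := by
    unfold loV cons
    congr 1
    funext i
    cases i using Fin.cases <;> simp
  have e3 : loB (cons (m, t, b) (T, M, B)) = Fin.cons b.2 (loB (T, M, B)) := by
    unfold loB cons
    rw [Fin.cons_snoc_eq_snoc_cons]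
    congr 1
    funext i
    cases i using Fin.cases <;> simp
  have e4 : nmc (cons (m, t, b) (T, M, B)) = nm m + nm t + nm b + nmc (T, M, B) := by
    simp only [nmc, cons, Fin.sum_univ_succ, Fin.cons_zero, Fin.cons_succ]
    ring
  unfold Valid Local
  rw [e1, e2, e3, e4]
  simp only [cons, allGood, Fin.forall_fin_succ (n := k + 1), Fin.cons_zero, Fin.cons_succ]
  constructor
  · rintro ⟨⟨h1, h2⟩, ⟨h3, h4⟩, ⟨⟨h5, h6⟩, ⟨h7, h8⟩, h9, h10⟩, h11⟩
    exact ⟨⟨h1, h3, ⟨h7, h5, h9⟩, by omega⟩, h2, h4, ⟨h6, h8, h10⟩, by omega⟩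
  · rintro ⟨⟨h1, h3, ⟨h7, h5, h9⟩, h12⟩, h2, h4, ⟨h6, h8, h10⟩, h11⟩
    exact ⟨⟨h1, h2⟩, ⟨h3, h4⟩, ⟨⟨h5, h6⟩, ⟨h7, h8⟩, h9, h10⟩, by omega⟩

/-- The vector of the admissible colours of a tail. -/
noncomputable def vec (k : ℕ) (u v : Fin 3) (d : ℕ) : Vec (Tail k) (Fin 3) :=
  ∑ a : Asg k with Valid k u v d a, Finsupp.single (lab k a) 1

lemma vec_succ (k : ℕ) (u v : Fin 3) (d : ℕ) : vec (k + 1) u v d =
    ∑ h : Sides × Sides × Sides with Local u v d h, glue ![mg h.1, mg h.2.1, mg h.2.2]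
      (vec k h.2.2.1 h.2.1.2 (d - (nm h.1 + nm h.2.1 + nm h.2.2))) := by
  simp only [vec, map_sum, glue_single]
  rw [sum_sigma']
  symm
  refine sum_bij (fun p _ => cons p.1 p.2) (fun p hp => ?_) (fun p _ q _ h => ?_) (fun a ha => ?_)
    fun p _ => ?_
  · simp only [mem_sigma, mem_filter, mem_univ, true_and] at hp ⊢
    exact (valid_cons ..).mpr hp
  · obtain ⟨⟨m, t, b⟩, T, M, B⟩ := p
    obtain ⟨⟨m', t', b'⟩, T', M', B'⟩ := q
    simp only [cons, Prod.mk.injEq, Fin.cons_inj] at h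
    obtain ⟨⟨rfl, rfl⟩, ⟨rfl, rfl⟩, rfl, rfl⟩ := h
    rfl
  · obtain ⟨T, M, B⟩ := a
    have e : cons (M 0, T 0, B 0) (Fin.tail T, Fin.tail M, Fin.tail B) = (T, M, B) := by
      simp [cons, Fin.cons_self_tail]
    refine ⟨⟨(M 0, T 0, B 0), (Fin.tail T, Fin.tail M, Fin.tail B)⟩, ?_, e⟩
    simp only [mem_sigma, mem_filter, mem_univ, true_and] at ha ⊢
    rw [← valid_cons, e]
    exact ha
  · rw [lab_cons]

lemma vec_zero (u v : Fin 3) (d : ℕ) : vec 0 u v d =
    ∑ h : Sides × Sides with Dst h.2.1 h.1.1 u ∧ Dst v h.1.2 h.2.2 ∧ (Good h.1 ∧ Good h.2) ∧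
      nm h.1 + nm h.2 = d, Finsupp.single (![mg h.1, mg h.2] : Tail 0 → Fin 3) 1 := by
  unfold vec
  refine sum_bij' (fun a _ => (a.2.1 0, a.1 0))
    (fun h _ => ((fun _ => h.2, fun _ => h.1, Fin.elim0) : Asg 0)) (fun a ha => ?_) (fun h hh => ?_)
    (fun a _ => ?_) (fun h _ => rfl) fun a _ => ?_
  · rw [mem_filter] at ha ⊢
    obtain ⟨-, h1, h2, ⟨h3, h4, -⟩, h5⟩ := ha
    refine ⟨mem_univ _, ?_⟩
    refine ⟨h1 0, h2 0, ⟨h4 0, h3 0⟩, ?_⟩
    simp [nmc] at h5 ⊢
    omega
  · rw [mem_filter] at hh ⊢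
    obtain ⟨-, h1, h2, ⟨h3, h4⟩, h5⟩ := hh
    refine ⟨mem_univ _, ?_⟩
    refine ⟨fun j => ?_, fun j => ?_, ⟨fun _ => h4, fun _ => h3, fun j => j.elim0⟩, ?_⟩
    · rw [Fin.eq_zero j]; exact h1
    · rw [Fin.eq_zero j]; exact h2
    · simp [nmc]; omega
  · refine Prod.ext (funext fun j => by rw [Fin.eq_zero j]) (Prod.ext (funext fun j => by
      rw [Fin.eq_zero j]) (funext fun j => j.elim0))
  · congr 1
    funext x
    fin_cases x <;> simp [lab, ord, slotFun]

lemma zero_equal : ∀ s mh : Fin 3, mh ≠ s → ∀ th, Dst th mh s → ∀ ml tl, Dst s ml tl →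
    nm (mh, ml) + nm (th, tl) = 0 →
      ((mh, ml), (th, tl)) = ((s + 1, s + 1), (s + 2, s + 2)) ∨
      ((mh, ml), (th, tl)) = ((s + 2, s + 2), (s + 1, s + 1)) := by decide

lemma zero_equal_mem : ∀ s : Fin 3,
    ∀ h ∈ [(((s + 1, s + 1), (s + 2, s + 2)) : Sides × Sides), ((s + 2, s + 2), (s + 1, s + 1))],
      Dst h.2.1 h.1.1 s ∧ Dst s h.1.2 h.2.2 ∧ (Good h.1 ∧ Good h.2) ∧ nm h.1 + nm h.2 = 0 := by
  decide

lemma zero_frozen : ∀ mh th : Fin 3, Dst th mh 2 → ∀ ml tl, Dst 0 ml tl →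
    Good (mh, ml) → Good (th, tl) → nm (mh, ml) + nm (th, tl) = 1 →
      ((mh, ml), (th, tl)) = ((1, 1), (0, 2)) ∨ ((mh, ml), (th, tl)) = ((0, 2), (1, 1)) := by decide

lemma succ_equal : ∀ s mh : Fin 3, ∀ th, Dst th mh s → ∀ ml bl, Dst s ml bl → ∀ tl bh,
    nm (mh, ml) + nm (th, tl) + nm (bh, bl) ≤ 0 →
      ((mh, ml), (th, tl), (bh, bl)) = ((s + 1, s + 1), (s + 2, s + 2), (s + 2, s + 2)) ∨
      ((mh, ml), (th, tl), (bh, bl)) = ((s + 2, s + 2), (s + 1, s + 1), (s + 1, s + 1)) := by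
  decide

lemma succ_frozen : ∀ mh th : Fin 3, Dst th mh 2 → ∀ ml bl, Dst 0 ml bl → ∀ tl bh,
    Good (mh, ml) → Good (th, tl) → Good (bh, bl) →
    nm (mh, ml) + nm (th, tl) + nm (bh, bl) ≤ 1 →
      ((mh, ml), (th, tl), (bh, bl)) = ((1, 1), (0, 0), (2, 2)) ∨
      ((mh, ml), (th, tl), (bh, bl)) = ((0, 2), (1, 1), (1, 1)) ∨
      ((mh, ml), (th, tl), (bh, bl)) = ((1, 1), (0, 2), (2, 2)) ∨
      ((mh, ml), (th, tl), (bh, bl)) = ((1, 1), (0, 0), (0, 2)) := by decide

lemma mg_diag : ∀ x : Fin 3, mg (x, x) = x := by decide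

/-- Once the mixed slot is used the tail is a walk. -/
theorem vec_equal : ∀ (k : ℕ) (s : Fin 3), vec k s s 0 = walk k s
  | 0, s => by
    obtain ⟨h12, -⟩ := flip3_facts s
    have hne : (((s + 1, s + 1), (s + 2, s + 2)) : Sides × Sides) ≠
        ((s + 2, s + 2), (s + 1, s + 1)) := fun h => h12 (congrArg (fun h => h.1.1) h)
    rw [vec_zero, show ({h : Sides × Sides | Dst h.2.1 h.1.1 s ∧ Dst s h.1.2 h.2.2 ∧
      (Good h.1 ∧ Good h.2) ∧ nm h.1 + nm h.2 = 0} : Finset _) =
        {((s + 1, s + 1), (s + 2, s + 2)), ((s + 2, s + 2), (s + 1, s + 1))} from ?_]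
    · rw [sum_pair hne]
      simp only [mg_diag]
      rfl
    ext h
    simp only [mem_filter, mem_univ, true_and, mem_insert, mem_singleton]
    refine ⟨fun hh => ?_, fun hh => zero_equal_mem s h (by simpa using hh)⟩
    obtain ⟨⟨mh, ml⟩, th, tl⟩ := h
    obtain ⟨h1, h2, -, h4⟩ := hh
    exact zero_equal s mh h1.2.2 th h1 ml tl h2 h4
  | k + 1, s => by
    obtain ⟨h12, -⟩ := flip3_facts s
    have hne : (((s + 1, s + 1), (s + 2, s + 2), (s + 2, s + 2)) : Sides × Sides × Sides) ≠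
        ((s + 2, s + 2), (s + 1, s + 1), (s + 1, s + 1)) :=
      fun h => h12 (congrArg (fun h => h.1.1) h)
    rw [vec_succ, show ({h : Sides × Sides × Sides | Local s s 0 h} : Finset _) =
      {((s + 1, s + 1), (s + 2, s + 2), (s + 2, s + 2)),
        ((s + 2, s + 2), (s + 1, s + 1), (s + 1, s + 1))} from ?_]
    · rw [sum_pair hne]
      simp only [mg_diag, Nat.zero_sub, vec_equal k]
      rfl
    ext h
    simp only [mem_filter, mem_univ, true_and, mem_insert, mem_singleton]
    refine ⟨fun hh => ?_, fun hh => ?_⟩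
    · obtain ⟨⟨mh, ml⟩, ⟨th, tl⟩, bh, bl⟩ := h
      obtain ⟨h1, h2, -, h4⟩ := hh
      exact succ_equal s mh th h1 ml bl h2 tl bh h4
    · rcases hh with rfl | rfl <;> revert s <;> decide

/-- Before the mixed slot is used the tail is a walk from `0`. -/
theorem vec_frozen : ∀ k : ℕ, vec k 2 0 1 = walk k 0
  | 0 => by
    rw [vec_zero, show ({h : Sides × Sides | Dst h.2.1 h.1.1 2 ∧ Dst 0 h.1.2 h.2.2 ∧
      (Good h.1 ∧ Good h.2) ∧ nm h.1 + nm h.2 = 1} : Finset _) =
        {((1, 1), (0, 2)), ((0, 2), (1, 1))} from ?_]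
    · rw [sum_pair (by decide)]
      rfl
    ext h
    simp only [mem_filter, mem_univ, true_and, mem_insert, mem_singleton]
    refine ⟨fun hh => ?_, fun hh => by rcases hh with rfl | rfl <;> decide⟩
    obtain ⟨⟨mh, ml⟩, th, tl⟩ := h
    obtain ⟨h1, h2, ⟨h3, h3'⟩, h4⟩ := hh
    exact zero_frozen mh th h1 ml tl h2 h3 h3' h4
  | k + 1 => by
    rw [vec_succ, show ({h : Sides × Sides × Sides | Local 2 0 1 h} : Finset _) =
      {((1, 1), (0, 0), (2, 2)), ((1, 1), (0, 0), (0, 2)), ((0, 2), (1, 1), (1, 1)),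
        ((1, 1), (0, 2), (2, 2))} from ?_]
    · rw [sum_insert (by decide), sum_insert (by decide), sum_pair (by decide)]
      show glue ![(1 : Fin 3), 0, 2] (vec k 2 0 1) + (glue ![(1 : Fin 3), 0, 2] (vec k 0 0 0) +
        (glue ![(2 : Fin 3), 1, 1] (vec k 1 1 0) + glue ![(1 : Fin 3), 2, 2] (vec k 2 2 0))) =
          glue ![(1 : Fin 3), 2, 2] (walk k 2) + glue ![(2 : Fin 3), 1, 1] (walk k 1)
      rw [vec_frozen k, vec_equal, vec_equal, vec_equal, ← add_assoc, ZModModule.add_self,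
        zero_add, add_comm]
    ext h
    simp only [mem_filter, mem_univ, true_and, mem_insert, mem_singleton]
    refine ⟨fun hh => ?_, fun hh => by rcases hh with rfl | rfl | rfl | rfl <;> decide⟩
    obtain ⟨⟨mh, ml⟩, ⟨th, tl⟩, bh, bl⟩ := h
    obtain ⟨h1, h2, ⟨h3, h3', h3''⟩, h4⟩ := hh
    rcases succ_frozen mh th h1 ml bl h2 tl bh h3 h3' h3'' h4 with h | h | h | h <;> simp [h]

/-! ## Colourings of the gadget -/

/-- Which end of a slot is in the high column. -/
def gOr (p : ℕ) : GSlot p → Bool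
  | .inl i => decide ((i : ℕ) < p)
  | .inr _ => true

lemma gEnd_bijective (k : ℕ) :
    Function.Bijective fun q : GSlot (k + 1) × Bool => gEnd (k + 1) q.1 q.2 := by
  constructor
  · rintro ⟨x, b⟩ ⟨y, b'⟩ h
    have h1 := congrArg (fun z : GCell (k + 1) => ((z.1.1 : ℕ), (z.1.2 : ℕ))) h
    rcases x with i | i | i <;> rcases y with j | j | j <;> cases b <;> cases b' <;>
      simp only [gEnd] at h1 <;> (try split_ifs at h1) <;>
      simp only [Fin.val_zero, Fin.val_one, Fin.val_two, Prod.mk.injEq] at h1 <;>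
      simp only [Prod.mk.injEq, Sum.inl.injEq, Sum.inr.injEq, reduceCtorEq, and_self, and_true,
        and_false, Bool.false_eq_true, Bool.true_eq_false, Fin.ext_iff] <;> omega
  · rintro ⟨⟨r, j, hj⟩, hz⟩
    fin_cases r
    · rcases lt_or_ge (k + 1) j with h | h
      · refine ⟨(.inl ⟨2 * (k + 1) - j, by omega⟩, true), ?_⟩
        simp only [gEnd]
        rw [dif_pos (show 2 * (k + 1) - j < k + 1 by omega)]
        exact Subtype.ext (Prod.ext rfl (Fin.ext (by simp [gEnd]; omega)))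
      · exact ⟨(.inl ⟨j, by omega⟩, false), rfl⟩
    · simp at hz
      rcases lt_or_ge j (k + 1) with h | h
      · exact ⟨(.inr (.inl ⟨j, h⟩), false), rfl⟩
      · refine ⟨(.inr (.inl ⟨2 * (k + 1) - 1 - j, by omega⟩), true), ?_⟩
        exact Subtype.ext (Prod.ext rfl (Fin.ext (by simp [gEnd]; omega)))
    · simp at hz
      rcases lt_trichotomy j k with h | h | h
      · exact ⟨(.inr (.inr ⟨j, h⟩), false), rfl⟩
      · refine ⟨(.inl ⟨k + 1, by omega⟩, true), ?_⟩
        simp only [gEnd]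
        rw [dif_neg (lt_irrefl _), dif_pos (Nat.succ_pos k)]
        exact Subtype.ext (Prod.ext rfl (Fin.ext (by simp [gEnd]; omega)))
      · refine ⟨(.inr (.inr ⟨2 * (k + 1) - 2 - j, by omega⟩), true), ?_⟩
        exact Subtype.ext (Prod.ext rfl (Fin.ext (by simp [gEnd]; omega)))

/-- The colours of the slots of a colouring. -/
def toSides (k : ℕ) (c : GCell (k + 1) → Fin 3) (x : GSlot (k + 1)) : Sides :=
  (c (gEnd _ x (gOr _ x)), c (gEnd _ x (!gOr _ x)))

lemma toSides_bijective (k : ℕ) : Function.Bijective (toSides k) := by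
  obtain ⟨hinj, hsurj⟩ := gEnd_bijective k
  constructor
  · intro c c' h
    funext z
    obtain ⟨⟨x, b⟩, rfl⟩ := hsurj z
    have h1 := congrFun h x
    simp only [toSides, Prod.mk.injEq] at h1
    cases b <;> cases hb : gOr _ x <;> simp only [hb, Bool.not_true, Bool.not_false] at h1
    exacts [h1.1, h1.2, h1.2, h1.1]
  · intro a
    let E := Equiv.ofBijective _ (gEnd_bijective k)
    refine ⟨fun z => if (E.symm z).2 = gOr _ (E.symm z).1 then (a (E.symm z).1).1
      else (a (E.symm z).1).2, funext fun x => ?_⟩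
    have hE : ∀ b, E.symm (gEnd _ x b) = (x, b) := fun b => E.symm_apply_eq.mpr rfl
    simp [toSides, hE]

lemma sym_sides (k : ℕ) (c : GCell (k + 1) → Fin 3) (x : GSlot (k + 1)) :
    s((toSides k c x).1, (toSides k c x).2) = gType (k + 1) c x := by
  unfold toSides gType
  cases gOr _ x
  · rfl
  · exact Sym2.eq_swap

/-- Colours column by column; missing cells get their own row. -/
def D (k : ℕ) (c : GCell (k + 1) → Fin 3) (r : Fin 3) (j : Fin (2 * (k + 1) + 1)) : Fin 3 :=
  if h : (j : ℕ) + r < 2 * (k + 1) + 1 then c ⟨(r, j), h⟩ else r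

lemma gValid_iff (k : ℕ) (c : GCell (k + 1) → Fin 3) :
    GValid (k + 1) c ↔ ∀ j, Dst (D k c 0 j) (D k c 1 j) (D k c 2 j) := by
  have hd : ∀ j, Dst (D k c 0 j) (D k c 1 j) (D k c 2 j) ↔
      Function.Injective fun r => D k c r j := by
    intro j
    constructor
    · intro h r r' he
      fin_cases r <;> fin_cases r' <;>
        first
        | rfl
        | exact absurd he h.1
        | exact absurd he h.2.1
        | exact absurd he h.2.2
        | exact absurd he.symm h.1
        | exact absurd he.symm h.2.1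
        | exact absurd he.symm h.2.2
    · intro h
      exact ⟨fun e => absurd (h e) (by decide), fun e => absurd (h e) (by decide),
        fun e => absurd (h e) (by decide)⟩
  simp only [hd]
  constructor
  · rintro ⟨h1, h2⟩ j r r' he
    simp only [D] at he
    split_ifs at he with hr hr' hr'
    · exact congrArg (fun z : GCell (k + 1) => z.1.1) (h1 ⟨(r, j), hr⟩ ⟨(r', j), hr'⟩ rfl he)
    · have := h2 ⟨(r, j), hr⟩
      rw [he] at this
      exact absurd this hr'
    · have := h2 ⟨(r', j), hr'⟩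
      rw [← he] at this
      exact absurd this hr
    · exact he
  · intro h
    refine ⟨?_, ?_⟩
    · rintro ⟨⟨r, j⟩, hr⟩ ⟨⟨r', j'⟩, hr'⟩ (rfl : j = j') he
      have hr1 : (j : ℕ) + r < 2 * (k + 1) + 1 := hr
      have hr2 : (j : ℕ) + r' < 2 * (k + 1) + 1 := hr'
      have : D k c r j = D k c r' j := by simp only [D, dif_pos hr1, dif_pos hr2]; exact he
      exact Subtype.ext (Prod.ext (h j this) rfl)
    · rintro ⟨⟨r, j⟩, hr⟩
      have hr1 : (j : ℕ) + r < 2 * (k + 1) + 1 := hr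
      by_contra hb
      have : D k c r j = D k c (c ⟨(r, j), hr⟩) j := by
        simp only [D, dif_pos hr1, dif_neg hb]
      have := h j this
      apply hb
      show (j : ℕ) + (c ⟨(r, j), hr⟩ : ℕ) < _
      rw [← this]
      exact hr1

/-- Colours of a colouring, split by level. -/
def toAsg (k : ℕ) (c : GCell (k + 1) → Fin 3) : Asg k :=
  (fun i => toSides k c (.inl i.succ), fun i => toSides k c (.inr (.inl i)),
    fun i => toSides k c (.inr (.inr i)))

lemma D_low (k : ℕ) (c : GCell (k + 1) → Fin 3) (j : Fin (k + 1)) :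
    D k c 0 ⟨j, by omega⟩ = loV (toSides k c (.inl 0)).2 (toAsg k c) j ∧
    D k c 1 ⟨j, by omega⟩ = ((toAsg k c).2.1 j).2 ∧
    D k c 2 ⟨j, by omega⟩ = loB (toAsg k c) j := by
  refine ⟨?_, ?_, ?_⟩
  · simp only [D]
    rw [dif_pos (by simp; omega)]
    cases j using Fin.cases with
    | zero => simp [loV, toSides, gOr, gEnd]
    | succ i =>
      have hi := i.2
      simp [loV, toAsg, toSides, gOr, gEnd, hi]
  · simp only [D]
    rw [dif_pos (by simp; omega)]
    simp [toAsg, toSides, gOr, gEnd]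
  · simp only [D]
    rw [dif_pos (by simp; omega)]
    cases j using Fin.lastCases with
    | last => simp [loB, toAsg, toSides, gOr, gEnd]
    | cast i => simp [loB, toAsg, toSides, gOr, gEnd]

lemma D_high (k : ℕ) (c : GCell (k + 1) → Fin 3) (j : Fin (k + 1)) :
    D k c 0 ⟨2 * (k + 1) - 1 - j, by omega⟩ = ((toAsg k c).1 j).1 ∧
    D k c 1 ⟨2 * (k + 1) - 1 - j, by omega⟩ = ((toAsg k c).2.1 j).1 ∧
    D k c 2 ⟨2 * (k + 1) - 1 - j, by omega⟩ = hiU 2 (toAsg k c) j := by
  have hj := j.2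
  refine ⟨?_, ?_, ?_⟩
  · simp only [D]
    rw [dif_pos (by simp; omega)]
    rcases lt_or_eq_of_le (show (j : ℕ) ≤ k by omega) with h | h
    · simp only [toAsg, toSides, gOr, Fin.val_succ, show (j : ℕ) + 1 < k + 1 by omega, decide_true,
        gEnd, dif_pos]
      exact congrArg c (Subtype.ext (Prod.ext rfl (Fin.ext (by simp [gEnd]; omega))))
    · simp only [toAsg, toSides, gOr, Fin.val_succ, show ¬(j : ℕ) + 1 < k + 1 by omega,
        decide_false, gEnd]
      exact congrArg c (Subtype.ext (Prod.ext rfl (Fin.ext (by simp [gEnd]; omega))))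
  · simp only [D]
    rw [dif_pos (by simp; omega)]
    simp only [toAsg, toSides, gOr, gEnd]
  · cases j using Fin.cases with
    | zero =>
      simp only [D]
      rw [dif_neg (by simp; omega)]
      simp [hiU]
    | succ i =>
      simp only [D]
      rw [dif_pos (by simp; omega)]
      simp only [hiU, Fin.cons_succ, toAsg, toSides, gOr, gEnd]
      exact congrArg c (Subtype.ext (Prod.ext rfl (Fin.ext (by simp [gEnd]; omega))))

lemma D_last (k : ℕ) (c : GCell (k + 1) → Fin 3) :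
    D k c 0 ⟨2 * (k + 1), by omega⟩ = (toSides k c (.inl 0)).1 ∧
    D k c 1 ⟨2 * (k + 1), by omega⟩ = 1 ∧ D k c 2 ⟨2 * (k + 1), by omega⟩ = 2 := by
  refine ⟨?_, ?_, ?_⟩
  · simp only [D]
    rw [dif_pos (by simp)]
    simp [toSides, gOr, gEnd]
  · simp only [D]; rw [dif_neg (by simp)]
  · simp only [D]; rw [dif_neg (by simp)]

lemma cols_iff (k : ℕ) (c : GCell (k + 1) → Fin 3) :
    GValid (k + 1) c ↔ (toSides k c (.inl 0)).1 = 0 ∧
      (∀ j, Dst ((toAsg k c).1 j).1 ((toAsg k c).2.1 j).1 (hiU 2 (toAsg k c) j)) ∧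
      ∀ j, Dst (loV (toSides k c (.inl 0)).2 (toAsg k c) j) ((toAsg k c).2.1 j).2
        (loB (toAsg k c) j) := by
  rw [gValid_iff]
  have hz : ∀ x : Fin 3, Dst x 1 2 ↔ x = 0 := by decide
  constructor
  · intro h
    refine ⟨?_, fun j => ?_, fun j => ?_⟩
    · obtain ⟨h0, h1, h2⟩ := D_last k c
      exact (hz _).mp (h1 ▸ h2 ▸ h0 ▸ h ⟨2 * (k + 1), by omega⟩)
    · obtain ⟨h0, h1, h2⟩ := D_high k c j
      rw [← h0, ← h1, ← h2]; exact h _
    · obtain ⟨h0, h1, h2⟩ := D_low k c j
      rw [← h0, ← h1, ← h2]; exact h _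
  · rintro ⟨ht, hh, hl⟩ ⟨j, hj⟩
    rcases lt_or_ge j (k + 1) with h1 | h1
    · obtain ⟨e0, e1, e2⟩ := D_low k c ⟨j, h1⟩
      rw [e0, e1, e2]; exact hl _
    · rcases lt_or_ge j (2 * (k + 1)) with h2 | h2
      · obtain ⟨e0, e1, e2⟩ := D_high k c ⟨2 * (k + 1) - 1 - j, by omega⟩
        have hje : (⟨j, hj⟩ : Fin (2 * (k + 1) + 1)) =
            ⟨2 * (k + 1) - 1 - (2 * (k + 1) - 1 - j), by omega⟩ := Fin.ext (by simp; omega)
        rw [hje, e0, e1, e2]; exact hh _
      · obtain ⟨e0, e1, e2⟩ := D_last k c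
        have hje : (⟨j, hj⟩ : Fin (2 * (k + 1) + 1)) = ⟨2 * (k + 1), by omega⟩ :=
          Fin.ext (by simp; omega)
        rw [hje, e0, e1, e2]; exact (hz _).mpr ht

/-- All slots monochromatic except one of the mixed type. -/
def OneMixed {ι : Type} [Fintype ι] (a : ι → Sides) : Prop :=
  (∀ x, Good (a x)) ∧ ∑ x, nm (a x) = 1

/-- In a valid colouring each colour occurs equally often. -/
lemma card_colour (k : ℕ) (c : GCell (k + 1) → Fin 3) (hc : GValid (k + 1) c) (a : Fin 3) :
    #{z | c z = a} + #{q : Fin 3 × Fin (2 * (k + 1) + 1) |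
      ¬(q.2 : ℕ) + q.1 < 2 * (k + 1) + 1 ∧ q.1 = a} = 2 * (k + 1) + 1 := by
  have hcol : ∀ j, #{r | D k c r j = a} = 1 := by
    intro j
    obtain ⟨h1, h2, h3⟩ := (gValid_iff k c).mp hc j
    have : ∀ x y z a : Fin 3, Dst x y z → #{r : Fin 3 | ![x, y, z] r = a} = 1 := by decide
    rw [← this _ _ _ a ⟨h1, h2, h3⟩]
    refine congrArg card (filter_congr fun r _ => ?_)
    fin_cases r <;> rfl
  have htot : #{q : Fin 3 × Fin (2 * (k + 1) + 1) | D k c q.1 q.2 = a} = 2 * (k + 1) + 1 := by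
    rw [card_filter, Fintype.sum_prod_type, sum_comm]
    simp only [← card_filter, hcol, sum_const, card_univ, Fintype.card_fin, smul_eq_mul, mul_one]
  refine Eq.trans ?_ htot
  rw [← card_filter_add_card_filter_not (s := ({q | D k c q.1 q.2 = a} : Finset _))
    (fun q : Fin 3 × Fin (2 * (k + 1) + 1) => (q.2 : ℕ) + q.1 < 2 * (k + 1) + 1),
    filter_filter, filter_filter]
  congr 1
  · refine card_bij (fun z _ => z.1) (fun z hz => ?_) (fun _ _ _ _ h => Subtype.ext h) ?_
    · simp only [mem_filter, mem_univ, true_and] at hz ⊢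
      refine ⟨?_, z.2⟩
      rw [D, dif_pos z.2]; exact hz
    · intro q hq
      simp only [mem_filter, mem_univ, true_and] at hq
      refine ⟨⟨q, hq.2⟩, ?_, rfl⟩
      simp only [mem_filter, mem_univ, true_and]
      exact (dif_pos hq.2).symm.trans hq.1
  · refine congrArg card (filter_congr fun q _ => ?_)
    constructor
    · exact fun h => ⟨by rw [D, dif_neg h.1]; exact h.2, h.1⟩
    · exact fun h => ⟨h.2, by rw [← h.1, D, dif_neg h.2]⟩

/-- Valid colourings with one mixed slot share all type counts. -/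
lemma counts_eq (k : ℕ) {c c' : GCell (k + 1) → Fin 3} (hc : GValid (k + 1) c)
    (ho : OneMixed (toSides k c)) (hc' : GValid (k + 1) c') (ho' : OneMixed (toSides k c'))
    (t : Sym2 (Fin 3)) :
    #{x | gType (k + 1) c x = t} = #{x | gType (k + 1) c' x = t} := by
  have hmixed : ∀ c : GCell (k + 1) → Fin 3, OneMixed (toSides k c) → ∀ t : Sym2 (Fin 3),
      ¬t.IsDiag → #{x | gType (k + 1) c x = t} = if t = s((0 : Fin 3), 2) then 1 else 0 := by
    intro c ho t ht
    have key : ∀ (y : Sides) (t : Sym2 (Fin 3)), Good y → ¬t.IsDiag →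
        (if s(y.1, y.2) = t then 1 else 0 : ℕ) = if t = s((0 : Fin 3), 2) then nm y else 0 := by
      decide
    rw [card_filter]
    simp only [← sym_sides]
    rw [sum_congr rfl fun x _ => key _ t (ho.1 x) ht]
    split_ifs
    · exact ho.2
    · simp
  by_cases ht : t.IsDiag
  · obtain ⟨a, rfl⟩ : ∃ a, t = s(a, a) := by
      revert ht t; decide
    have hcount : ∀ c : GCell (k + 1) → Fin 3, OneMixed (toSides k c) →
        #{z | c z = a} = 2 * #{x | gType (k + 1) c x = s(a, a)} + if a = 1 then 0 else 1 := by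
      intro c ho
      have key : ∀ (y : Sides) (a : Fin 3), Good y →
          ((if y.1 = a then 1 else 0) + if y.2 = a then 1 else 0 : ℕ) =
            2 * (if s(y.1, y.2) = s(a, a) then 1 else 0) + if a = 1 then 0 else nm y := by decide
      have h1 : #{z | c z = a} = ∑ x, ((if (toSides k c x).1 = a then 1 else 0) +
          if (toSides k c x).2 = a then 1 else 0) := by
        rw [card_filter, ← (gEnd_bijective k).sum_comp, Fintype.sum_prod_type]
        refine sum_congr rfl fun x _ => ?_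
        rw [Fintype.sum_bool]
        simp only [toSides]
        rcases Bool.eq_false_or_eq_true (gOr _ x) with hb | hb <;>
          simp only [hb, Bool.not_true, Bool.not_false] <;> omega
      rw [h1, sum_congr rfl fun x _ => key _ a (ho.1 x), sum_add_distrib, ← mul_sum, card_filter]
      simp only [sym_sides]
      split_ifs
      · simp
      · rw [ho.2]
    have e := card_colour k c hc a
    have e' := card_colour k c' hc' a
    rw [hcount c ho] at e
    rw [hcount c' ho'] at e'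
    omega
  · rw [hmixed c ho t ht, hmixed c' ho' t ht]

lemma id_valid (k : ℕ) : GValid (k + 1) (fun z => z.1.1) := by
  refine ⟨fun z z' h h' => Subtype.ext (Prod.ext h' h), fun z => z.2⟩

lemma id_oneMixed (k : ℕ) : OneMixed (toSides k fun z => z.1.1) := by
  have hv : ∀ x, toSides k (fun z => z.1.1) x = match x with
      | .inl i => if (i : ℕ) < k + 1 then (0, 0) else (0, 2)
      | .inr (.inl _) => (1, 1)
      | .inr (.inr _) => (2, 2) := by
    rintro (i | i | i)
    · by_cases h : (i : ℕ) < k + 1 <;> simp [toSides, gOr, gEnd, h]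
    · simp [toSides, gOr, gEnd]
    · simp [toSides, gOr, gEnd]
  refine ⟨fun x => ?_, ?_⟩
  · rw [hv]
    rcases x with i | i | i
    · by_cases h : (i : ℕ) < k + 1 <;> simp only [h, if_true, if_false] <;> decide
    · show Good (1, 1); decide
    · show Good (2, 2); decide
  · simp only [hv, Fintype.sum_sum_type, Fin.sum_univ_castSucc, Fin.val_castSucc, Fin.val_last,
      Fin.is_lt, lt_irrefl, if_true, if_false]
    simp [nm]

lemma mem_gSols_iff (k : ℕ) (c : GCell (k + 1) → Fin 3) :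
    c ∈ gSols (k + 1) ↔ GValid (k + 1) c ∧ OneMixed (toSides k c) := by
  simp only [gSols, mem_filter, mem_univ, true_and]
  refine ⟨fun ⟨hv, hcnt⟩ => ⟨hv, ?_⟩,
    fun ⟨hv, ho⟩ => ⟨hv, counts_eq k hv ho (id_valid k) (id_oneMixed k)⟩⟩
  obtain ⟨hg, hn⟩ := id_oneMixed k
  have hsum : ∀ F : Sym2 (Fin 3) → ℕ, ∀ c : GCell (k + 1) → Fin 3,
      ∑ x, F (gType (k + 1) c x) = ∑ t, #{x | gType (k + 1) c x = t} * F t := by
    intro F c
    rw [← sum_fiberwise univ (gType (k + 1) c)]
    refine sum_congr rfl fun t _ => ?_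
    rw [sum_congr rfl fun x hx => by rw [(mem_filter.mp hx).2], sum_const, smul_eq_mul]
  have hF : ∀ F : Sym2 (Fin 3) → ℕ,
      ∑ x, F (gType (k + 1) c x) = ∑ x, F (gType (k + 1) (fun z => z.1.1) x) := by
    intro F
    rw [hsum, hsum]
    simp only [hcnt]
  have hgood : ∀ y : Sides, (if s(y.1, y.2).IsDiag ∨ s(y.1, y.2) = s((0 : Fin 3), 2) then 0 else 1 : ℕ)
      = 0 ↔ Good y := by decide
  have hnm : ∀ y : Sides, nm y = if s(y.1, y.2).IsDiag then 0 else 1 := by decide
  refine ⟨fun x => ?_, ?_⟩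
  · have h1 := hF fun t => if t.IsDiag ∨ t = s((0 : Fin 3), 2) then 0 else 1
    simp only [← sym_sides] at h1
    rw [sum_eq_zero fun x _ => (hgood _).mpr (hg x), sum_eq_zero_iff] at h1
    exact (hgood _).mp (h1 x (mem_univ x))
  · have h1 := hF fun t => if t.IsDiag then 0 else 1
    simp only [← sym_sides, ← hnm] at h1
    rw [h1, hn]

lemma oneMixed_iff (k : ℕ) (a : GSlot (k + 1) → Sides) : OneMixed a ↔
    (Good (a (.inl 0)) ∧ (∀ j : Fin (k + 1), Good (a (.inl j.succ))) ∧
      (∀ j : Fin (k + 1), Good (a (.inr (.inl j)))) ∧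
      ∀ j : Fin k, Good (a (.inr (.inr j)))) ∧
    nm (a (.inl 0)) + nmc ((fun j => a (.inl j.succ), fun j => a (.inr (.inl j)),
      fun j => a (.inr (.inr j))) : Asg k) = 1 := by
  simp only [OneMixed, Sum.forall, Fintype.sum_sum_type, Fin.forall_fin_succ (n := k + 1),
    Fin.sum_univ_succ (n := k + 1), nmc, Nat.add_sub_cancel]
  have he : (∑ x : Fin (k + 1 - 1), nm (a (.inr (.inr x)))) =
    ∑ x : Fin k, nm (a (.inr (.inr x))) := rfl
  constructor
  · rintro ⟨⟨⟨h1, h2⟩, h3, h4⟩, h5⟩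
    exact ⟨⟨h1, h2, h3, h4⟩, by omega⟩
  · rintro ⟨⟨h1, h2, h3, h4⟩, h5⟩
    exact ⟨⟨⟨h1, h2⟩, h3, h4⟩, by omega⟩

/-- The slots as the outermost one and a tail. -/
def slotsMap (k : ℕ) : Fin 1 ⊕ Tail k → GSlot (k + 1) :=
  Sum.elim (fun _ => .inl 0) (fun y => Sum.map Fin.succ id (ord k y))

lemma slotsMap_bijective (k : ℕ) : Function.Bijective (slotsMap k) := by
  refine (Fintype.bijective_iff_injective_and_card _).mpr ⟨?_, ?_⟩
  · rintro (x | x) (y | y) h
    · exact congrArg _ (Subsingleton.elim x y)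
    · rcases hy : ord k y with z | z <;> simp [slotsMap, hy, eq_comm] at h
    · rcases hx : ord k x with z | z <;> simp [slotsMap, hx] at h
    · exact congrArg _ (ord_injective k ((Fin.succ_injective _).sumMap Function.injective_id h))
  · simp only [Fintype.card_sum, Fintype.card_fin, card_tail]
    omega

end Chain

open Chain in
/-- **The gadget vector.** -/
theorem gadVec_eq (k : ℕ) : ∃ ε : GSlot (k + 1) ≃ (Fin 1 ⊕ Tail k),
    gadVec (k + 1) = reindex ε (glue (![0] : Fin 1 → Fin 3) (walk k 0) +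
      relabel (flip3 1) (glue (![0] : Fin 1 → Fin 3) (walk k 0))) := by
  let ε := (Equiv.ofBijective _ (slotsMap_bijective k)).symm
  refine ⟨ε, ?_⟩
  have hfix : relabel (flip3 1) (glue (![0] : Fin 1 → Fin 3) (walk k 0)) =
      glue (![2] : Fin 1 → Fin 3) (walk k 2) := by
    rw [relabel_glue, relabel_walk]
    congr 2
    funext i; fin_cases i; rfl
  have htop : ({t : Sides | t.1 = 0 ∧ Good t} : Finset Sides) = {(0, 0), (0, 2)} := by decide
  have hstep : glue (![0] : Fin 1 → Fin 3) (walk k 0) + glue (![2] : Fin 1 → Fin 3) (walk k 2) =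
      ∑ t : Sides with t.1 = 0 ∧ Good t, glue (![mg t] : Fin 1 → Fin 3)
        (vec k 2 t.2 (1 - nm t)) := by
    rw [htop, sum_pair (by decide)]
    show _ = glue (![0] : Fin 1 → Fin 3) (vec k 2 0 1) + glue (![2] : Fin 1 → Fin 3) (vec k 2 2 0)
    rw [vec_frozen, vec_equal]
  rw [hfix, hstep]
  simp only [vec, map_sum, glue_single, reindex_single, gadVec]
  rw [sum_sigma']
  refine sum_bij (fun c _ => ⟨toSides k c (.inl 0), toAsg k c⟩) (fun c hc => ?_)
    (fun c _ c' _ h => ?_) (fun q hq => ?_) fun c _ => ?_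
  · obtain ⟨hv, ho⟩ := (mem_gSols_iff k c).mp hc
    obtain ⟨h0, hh, hl⟩ := (cols_iff k c).mp hv
    obtain ⟨⟨g0, g1, g2, g3⟩, hn⟩ := (oneMixed_iff k _).mp ho
    simp only [mem_sigma, mem_filter, mem_univ, true_and]
    exact ⟨⟨h0, g0⟩, hh, hl, ⟨g1, g2, g3⟩, by
      show nmc (toAsg k c) = _
      change nm (toSides k c (.inl 0)) + nmc (toAsg k c) = 1 at hn
      omega⟩
  · refine (toSides_bijective k).1 (funext fun x => ?_)
    simp only [Sigma.mk.injEq, heq_eq_eq, toAsg, Prod.mk.injEq] at h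
    obtain ⟨h1, h2, h3, h4⟩ := h
    rcases x with i | i | i
    · cases i using Fin.cases with
      | zero => exact h1
      | succ i => exact congrFun h2 i
    · exact congrFun h3 i
    · exact congrFun h4 i
  · obtain ⟨t, T, M, B⟩ := q
    simp only [mem_sigma, mem_filter, mem_univ, true_and] at hq
    obtain ⟨⟨h0, hg⟩, hh, hl, ⟨g1, g2, g3⟩, hn⟩ := hq
    obtain ⟨c, hc⟩ := (toSides_bijective k).2 (Sum.elim (Fin.cons t T) (Sum.elim M B))
    have e1 : toSides k c (.inl 0) = t := by rw [hc]; rfl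
    have e2 : toAsg k c = (T, M, B) := by
      simp only [toAsg, hc]
      rfl
    refine ⟨c, (mem_gSols_iff k c).mpr ⟨(cols_iff k c).mpr ?_, (oneMixed_iff k _).mpr ⟨?_, ?_⟩⟩, ?_⟩
    · rw [e1, e2]; exact ⟨h0, hh, hl⟩
    · rw [hc]; exact ⟨hg, g1, g2, g3⟩
    · rw [e1]
      show nm t + nmc (toAsg k c) = 1
      rw [e2]
      have : nm t ≤ 1 := by unfold nm; split_ifs <;> omega
      omega
    · rw [e1, e2]
  · congr 1
    funext x
    obtain ⟨y, rfl⟩ := ε.symm.surjective x
    simp only [Function.comp_apply, Equiv.apply_symm_apply]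
    show gMerge (gType (k + 1) c (slotsMap k y)) = _
    rw [← sym_sides]
    rcases y with i | y
    · fin_cases i; rfl
    · simp only [Sum.elim_inr, lab, slotsMap]
      rcases ord k y with z | z | z <;> rfl

namespace Chain

/-! ## The pair of rows -/

/-- The two colours of a slot: high column, low column. -/
abbrev Sides₂ := Fin 2 × Fin 2

/-- Number of mixed slots. -/
def nm₂ (x : Sides₂) : ℕ := if x.1 = x.2 then 0 else 1

/-- Merged label. -/
def mg₂ (x : Sides₂) : Fin 2 := eMerge s(x.1, x.2)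

/-- Admissible colours of both rows, given the two incoming colours. -/
def Valid₂ (n : ℕ) (u v : Fin 2) (d : ℕ) (a : ESlot n → Sides₂) : Prop :=
  (∀ j, (a (.inl j)).1 ≠ (Fin.cons u fun i => (a (.inr i)).1 : Fin (n + 1) → Fin 2) j) ∧
  (∀ j, (Fin.cons v fun i => (a (.inl i.castSucc)).2 : Fin (n + 1) → Fin 2) j ≠
    (Fin.snoc (fun i => (a (.inr i)).2) (a (.inl (Fin.last n))).2 : Fin (n + 1) → Fin 2) j) ∧
  ∑ x, nm₂ (a x) = d

instance (n : ℕ) (u v : Fin 2) (d : ℕ) (a : ESlot n → Sides₂) : Decidable (Valid₂ n u v d a) := by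
  unfold Valid₂; infer_instance

/-- Prepend a level. -/
def cons₂ {α : Type} {n : ℕ} (x y : α) (f : ESlot n → α) : ESlot (n + 1) → α :=
  Sum.elim (Fin.cons x fun i => f (.inl i)) (Fin.cons y fun i => f (.inr i))

/-- Prepend two labels. -/
noncomputable def push₂ {n : ℕ} (x y : Fin 2) :
    Vec (ESlot n) (Fin 2) →ₗ[ZMod 2] Vec (ESlot (n + 1)) (Fin 2) :=
  Finsupp.lmapDomain (ZMod 2) (ZMod 2) (cons₂ x y)

lemma push₂_single {n : ℕ} (x y : Fin 2) (f : ESlot n → Fin 2) (a : ZMod 2) :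
    push₂ x y (Finsupp.single f a) = Finsupp.single (cons₂ x y f) a :=
  Finsupp.mapDomain_single

/-- The vector of admissible colours. -/
noncomputable def vec₂ (n : ℕ) (u v : Fin 2) (d : ℕ) : Vec (ESlot n) (Fin 2) :=
  ∑ a : ESlot n → Sides₂ with Valid₂ n u v d a, Finsupp.single (fun x => mg₂ (a x)) 1

lemma valid₂_cons (n : ℕ) (u v : Fin 2) (d : ℕ) (x y : Sides₂) (a : ESlot n → Sides₂) :
    Valid₂ (n + 1) u v d (cons₂ x y a) ↔
      (x.1 ≠ u ∧ v ≠ y.2 ∧ nm₂ x + nm₂ y ≤ d) ∧ Valid₂ n y.1 x.2 (d - (nm₂ x + nm₂ y)) a := by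
  have e1 : (fun i => (cons₂ x y a (.inr i)).1) = Fin.cons y.1 fun i => (a (.inr i)).1 := by
    funext i; cases i using Fin.cases <;> simp [cons₂]
  have e2 : (fun i : Fin (n + 1) => (cons₂ x y a (.inl i.castSucc)).2) =
      Fin.cons x.2 fun i => (a (.inl i.castSucc)).2 := by
    funext i; cases i using Fin.cases <;> simp [cons₂]
  have e3 : (Fin.snoc (fun i => (cons₂ x y a (.inr i)).2) (cons₂ x y a (.inl (Fin.last (n + 1)))).2
      : Fin (n + 1 + 1) → Fin 2) =
      Fin.cons y.2 (Fin.snoc (fun i => (a (.inr i)).2) (a (.inl (Fin.last n))).2) := by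
    rw [Fin.cons_snoc_eq_snoc_cons, ← Fin.succ_last]
    congr 1
    funext i; cases i using Fin.cases <;> simp [cons₂]
  unfold Valid₂
  rw [e1, e2, e3]
  simp only [Fintype.sum_sum_type, Fin.sum_univ_succ (n := n + 1), Fin.sum_univ_succ (n := n),
    Fin.forall_fin_succ (n := n + 1), cons₂, Sum.elim_inl, Sum.elim_inr, Fin.cons_zero,
    Fin.cons_succ]
  constructor
  · rintro ⟨⟨h1, h2⟩, ⟨h3, h4⟩, h5⟩
    exact ⟨⟨h1, h3, by omega⟩, h2, h4, by omega⟩
  · rintro ⟨⟨h1, h3, h6⟩, h2, h4, h5⟩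
    exact ⟨⟨h1, h2⟩, ⟨h3, h4⟩, by omega⟩

lemma vec₂_succ (n : ℕ) (u v : Fin 2) (d : ℕ) : vec₂ (n + 1) u v d =
    ∑ h : Sides₂ × Sides₂ with h.1.1 ≠ u ∧ v ≠ h.2.2 ∧ nm₂ h.1 + nm₂ h.2 ≤ d,
      push₂ (mg₂ h.1) (mg₂ h.2) (vec₂ n h.2.1 h.1.2 (d - (nm₂ h.1 + nm₂ h.2))) := by
  simp only [vec₂, map_sum, push₂_single]
  rw [sum_sigma']
  symm
  refine sum_bij (fun p _ => cons₂ p.1.1 p.1.2 p.2) (fun p hp => ?_) (fun p _ q _ h => ?_)
    (fun a ha => ?_) fun p _ => ?_
  · simp only [mem_sigma, mem_filter, mem_univ, true_and] at hp ⊢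
    exact (valid₂_cons ..).mpr hp
  · obtain ⟨⟨x, y⟩, f⟩ := p
    obtain ⟨⟨x', y'⟩, f'⟩ := q
    have hx : x = x' := by simpa [cons₂] using congrFun h (.inl 0)
    have hy : y = y' := by simpa [cons₂] using congrFun h (.inr 0)
    have hf : f = f' := by
      funext z
      rcases z with i | i
      · simpa [cons₂] using congrFun h (.inl i.succ)
      · simpa [cons₂] using congrFun h (.inr i.succ)
    subst hx hy hf; rfl
  · have e : cons₂ (a (.inl 0)) (a (.inr 0))
        (Sum.elim (fun i => a (.inl i.succ)) (fun i => a (.inr i.succ))) = a := by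
      funext z
      rcases z with i | i <;> cases i using Fin.cases <;> simp [cons₂]
    refine ⟨⟨(a (.inl 0), a (.inr 0)), Sum.elim (fun i => a (.inl i.succ))
      (fun i => a (.inr i.succ))⟩, ?_, e⟩
    simp only [mem_sigma, mem_filter, mem_univ, true_and] at ha ⊢
    rw [← valid₂_cons, e]
    exact ha
  · congr 1
    funext z
    rcases z with i | i <;> cases i using Fin.cases <;> simp [cons₂]

/-- Alternating labels starting opposite to `s`. -/
def alt (n : ℕ) (s : Fin 2) : ESlot n → Fin 2 :=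
  Sum.elim (fun i => if (i : ℕ) % 2 = 0 then s + 1 else s)
    (fun i => if (i : ℕ) % 2 = 0 then s + 1 else s)

lemma cons₂_alt (n : ℕ) (s : Fin 2) : cons₂ (s + 1) (s + 1) (alt n (s + 1)) = alt (n + 1) s := by
  have hs : s + 1 + 1 = s := by revert s; decide
  funext z
  rcases z with i | i <;> cases i using Fin.cases with
  | zero => simp [cons₂, alt]
  | succ i =>
    simp only [cons₂, alt, Sum.elim_inl, Sum.elim_inr, Fin.cons_succ, Fin.val_succ, hs]
    split_ifs <;> first | rfl | omega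

theorem vec₂_equal : ∀ (n : ℕ) (s : Fin 2), vec₂ n s s 0 = Finsupp.single (alt n s) 1
  | 0, s => by
    unfold vec₂
    have : ({a : ESlot 0 → Sides₂ | Valid₂ 0 s s 0 a} : Finset _) = {fun _ => (s + 1, s + 1)} := by
      revert s; decide
    rw [this, sum_singleton]
    congr 1
    revert s; decide
  | n + 1, s => by
    rw [vec₂_succ, show ({h : Sides₂ × Sides₂ | h.1.1 ≠ s ∧ s ≠ h.2.2 ∧
      nm₂ h.1 + nm₂ h.2 ≤ 0} : Finset _) = {((s + 1, s + 1), (s + 1, s + 1))} by revert s; decide,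
      sum_singleton]
    simp only [Nat.zero_sub]
    show push₂ (mg₂ (s + 1, s + 1)) (mg₂ (s + 1, s + 1)) (vec₂ n (s + 1) (s + 1) 0) = _
    rw [vec₂_equal n, push₂_single, show mg₂ (s + 1, s + 1) = s + 1 by revert s; decide, cons₂_alt]

theorem vec₂_frozen : ∀ n : ℕ, vec₂ n 1 0 1 = Finsupp.single (alt n 1) 1
  | 0 => by
    unfold vec₂
    rw [show ({a : ESlot 0 → Sides₂ | Valid₂ 0 1 0 1 a} : Finset _) = {fun _ => (0, 1)} by decide,
      sum_singleton]
    congr 1
    decide
  | n + 1 => by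
    rw [vec₂_succ, show ({h : Sides₂ × Sides₂ | h.1.1 ≠ 1 ∧ 0 ≠ h.2.2 ∧
      nm₂ h.1 + nm₂ h.2 ≤ 1} : Finset _) =
        {((0, 0), (1, 1)), ((0, 1), (1, 1)), ((0, 0), (0, 1))} by decide,
      sum_insert (by decide), sum_pair (by decide)]
    show push₂ 0 1 (vec₂ n 1 0 1) + (push₂ 0 1 (vec₂ n 1 1 0) + push₂ 0 0 (vec₂ n 0 0 0)) = _
    rw [vec₂_frozen n, vec₂_equal, vec₂_equal, ← add_assoc, ZModModule.add_self, zero_add,
      push₂_single]
    congr 1
    exact cons₂_alt n 1

lemma eEnd_bijective (p : ℕ) : Function.Bijective fun q : ESlot p × Bool => eEnd p q.1 q.2 := by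
  constructor
  · rintro ⟨x, b⟩ ⟨y, b'⟩ h
    have h1 := congrArg (fun z : ECell p => ((z.1 : ℕ), (z.2 : ℕ))) h
    rcases x with i | i <;> rcases y with j | j <;> cases b <;> cases b' <;>
      simp only [eEnd] at h1 <;> (try split_ifs at h1) <;>
      simp only [Fin.val_zero, Fin.val_one, Prod.mk.injEq] at h1 <;>
      simp only [Prod.mk.injEq, Sum.inl.injEq, reduceCtorEq, and_true, and_false, Sum.inr.injEq,
        Fin.ext_iff, Bool.false_eq_true, Bool.true_eq_false] <;> omega
  · rintro ⟨r, j, hj⟩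
    fin_cases r
    · rcases le_or_gt j p with h | h
      · exact ⟨(.inl ⟨j, by omega⟩, false), rfl⟩
      · refine ⟨(.inl ⟨2 * p - j, by omega⟩, true), ?_⟩
        simp only [eEnd]
        rw [if_pos (show 2 * p - j < p by omega)]
        exact Prod.ext rfl (Fin.ext (by simp [eEnd]; omega))
    · rcases lt_trichotomy j p with h | h | h
      · exact ⟨(.inr ⟨j, h⟩, false), rfl⟩
      · refine ⟨(.inl ⟨p, by omega⟩, true), ?_⟩
        simp only [eEnd]
        rw [if_neg (lt_irrefl p)]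
        exact Prod.ext rfl (Fin.ext h.symm)
      · refine ⟨(.inr ⟨2 * p - j, by omega⟩, true), ?_⟩
        exact Prod.ext rfl (Fin.ext (by simp [eEnd]; omega))

/-- Which end of a slot is in the high column. -/
def eOr (p : ℕ) : ESlot p → Bool
  | .inl i => decide ((i : ℕ) < p)
  | .inr _ => true

/-- The colours of the slots of a colouring. -/
def toSides₂ (p : ℕ) (c : ECell p → Fin 2) (x : ESlot p) : Sides₂ :=
  (c (eEnd p x (eOr p x)), c (eEnd p x (!eOr p x)))

lemma toSides₂_bijective (p : ℕ) : Function.Bijective (toSides₂ p) := by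
  obtain ⟨hinj, hsurj⟩ := eEnd_bijective p
  constructor
  · intro c c' h
    funext z
    obtain ⟨⟨x, b⟩, rfl⟩ := hsurj z
    have h1 := congrFun h x
    simp only [toSides₂, Prod.mk.injEq] at h1
    cases b <;> cases hb : eOr p x <;> simp only [hb, Bool.not_true, Bool.not_false] at h1
    exacts [h1.1, h1.2, h1.2, h1.1]
  · intro a
    let E := Equiv.ofBijective _ (eEnd_bijective p)
    refine ⟨fun z => if (E.symm z).2 = eOr p (E.symm z).1 then (a (E.symm z).1).1
      else (a (E.symm z).1).2, funext fun x => ?_⟩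
    have hE : ∀ b, E.symm (eEnd p x b) = (x, b) := fun b => E.symm_apply_eq.mpr rfl
    simp [toSides₂, hE]

lemma sym_sides₂ (p : ℕ) (c : ECell p → Fin 2) (x : ESlot p) :
    s((toSides₂ p c x).1, (toSides₂ p c x).2) = eType p c x := by
  unfold toSides₂ eType
  cases eOr p x
  · rfl
  · exact Sym2.eq_swap

/-- Colours column by column; missing cells get their own row. -/
def D₂ (p : ℕ) (c : ECell p → Fin 2) (r : Fin 2) (j : ℕ) : Fin 2 :=
  if r = 0 then (if h : 1 ≤ j ∧ j ≤ 2 * p + 1 then c (0, ⟨j - 1, by omega⟩) else 0)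
  else if h : j ≤ 2 * p then c (1, ⟨j, by omega⟩) else 1

lemma D₂_cell (p : ℕ) (c : ECell p → Fin 2) (z : ECell p) : D₂ p c z.1 (eCol p z) = c z := by
  obtain ⟨r, j⟩ := z
  have := j.2
  fin_cases r
  · simp [D₂, eCol, show (j : ℕ) ≤ 2 * p by omega]
  · simp [D₂, eCol, show (j : ℕ) ≤ 2 * p by omega]

lemma eValid_iff (p : ℕ) (c : ECell p → Fin 2) :
    EValid p c ↔ ∀ j ≤ 2 * p + 1, D₂ p c 0 j ≠ D₂ p c 1 j := by
  constructor
  · rintro ⟨h1, h2⟩ j hj
    simp only [D₂, if_true, show ((1 : Fin 2) = 0) = False by simp, if_false]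
    split_ifs with ha hb hb
    · intro he
      have := h1 (0, ⟨j - 1, by omega⟩) (1, ⟨j, by omega⟩) (by simp [eCol]; omega) he
      simp at this
    · intro he
      have := (h2 (0, ⟨j - 1, by omega⟩)).2 he
      simp [eCol] at this
      omega
    · intro he
      have := (h2 (1, ⟨j, by omega⟩)).1 he.symm
      simp [eCol] at this
      omega
    · omega
  · intro h
    have hle : ∀ z : ECell p, eCol p z ≤ 2 * p + 1 := fun z => by
      have := z.2.2; unfold eCol; split_ifs <;> omega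
    refine ⟨fun z z' hc he => ?_, fun z => ⟨fun hz => ?_, fun hz => ?_⟩⟩
    · rw [← D₂_cell p c z, ← D₂_cell p c z', ← hc] at he
      have hr : z.1 = z'.1 := by
        have := h _ (hle z)
        generalize z.1 = r at he ⊢
        generalize z'.1 = r' at he ⊢
        fin_cases r <;> fin_cases r' <;> first | rfl | exact absurd he this |
          exact absurd he.symm this
      refine Prod.ext hr (Fin.ext ?_)
      simp only [eCol, ← hr] at hc
      split_ifs at hc <;> omega
    · by_contra hb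
      have h0 : eCol p z = 0 := by omega
      have hr : z.1 = 1 := by
        by_contra hr
        have : z.1 = 0 := by revert hr; generalize z.1 = r; revert r; decide
        simp [eCol, this] at h0
      have e := D₂_cell p c z
      rw [hr, h0, hz] at e
      exact h 0 (by omega) (by rw [e]; simp [D₂])
    · by_contra hb
      have h0 : eCol p z = 2 * p + 1 := by have := hle z; omega
      have hr : z.1 = 0 := by
        by_contra hr
        simp only [eCol, if_neg hr] at h0
        have := z.2.2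
        omega
      have e := D₂_cell p c z
      rw [hr, h0, hz] at e
      exact h (2 * p + 1) le_rfl (by rw [e]; simp [D₂])

lemma D₂_high (p : ℕ) (c : ECell p → Fin 2) (i : Fin (p + 1)) :
    D₂ p c 0 (2 * p + 1 - i) = (toSides₂ p c (.inl i)).1 ∧
    D₂ p c 1 (2 * p + 1 - i) =
      (Fin.cons 1 fun j => (toSides₂ p c (.inr j)).1 : Fin (p + 1) → Fin 2) i := by
  have hi := i.2
  constructor
  · simp only [D₂, if_true]
    rw [dif_pos (by omega)]
    rcases lt_or_eq_of_le (show (i : ℕ) ≤ p by omega) with h | h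
    · simp only [toSides₂, eOr, h, decide_true, eEnd, if_true]
      exact congrArg c (Prod.ext rfl (Fin.ext (by simp; omega)))
    · simp only [toSides₂, eOr, show ¬(i : ℕ) < p by omega, decide_false, eEnd]
      exact congrArg c (Prod.ext rfl (Fin.ext (by simp; omega)))
  · cases i using Fin.cases with
    | zero => simp [D₂]
    | succ j =>
      have := j.2
      simp only [D₂, Fin.cons_succ, show ¬((1 : Fin 2) = 0) by simp, if_false, Fin.val_succ]
      rw [dif_pos (by omega)]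
      simp only [toSides₂, eOr, eEnd]
      exact congrArg c (Prod.ext rfl (Fin.ext (by simp [eEnd]; try omega)))

lemma D₂_low (p : ℕ) (c : ECell p → Fin 2) (i : Fin (p + 1)) :
    D₂ p c 0 i =
      (Fin.cons 0 fun j => (toSides₂ p c (.inl j.castSucc)).2 : Fin (p + 1) → Fin 2) i ∧
    D₂ p c 1 i = (Fin.snoc (fun j => (toSides₂ p c (.inr j)).2)
      (toSides₂ p c (.inl (Fin.last p))).2 : Fin (p + 1) → Fin 2) i := by
  constructor
  · cases i using Fin.cases with
    | zero => simp [D₂]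
    | succ j =>
      have := j.2
      simp only [D₂, if_true, Fin.cons_succ, Fin.val_succ]
      rw [dif_pos (by omega)]
      simp [toSides₂, eOr, eEnd]
  · cases i using Fin.lastCases with
    | last =>
      simp only [D₂, show ¬((1 : Fin 2) = 0) by simp, if_false, Fin.snoc_last, Fin.val_last]
      rw [dif_pos (by omega)]
      simp [toSides₂, eOr, eEnd]
    | cast j =>
      have := j.2
      simp only [D₂, show ¬((1 : Fin 2) = 0) by simp, if_false, Fin.snoc_castSucc,
        Fin.val_castSucc]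
      rw [dif_pos (by omega)]
      simp [toSides₂, eOr, eEnd]

lemma cols₂_iff (p : ℕ) (c : ECell p → Fin 2) : EValid p c ↔
    (∀ j, (toSides₂ p c (.inl j)).1 ≠
      (Fin.cons 1 fun i => (toSides₂ p c (.inr i)).1 : Fin (p + 1) → Fin 2) j) ∧
    ∀ j, (Fin.cons 0 fun i => (toSides₂ p c (.inl i.castSucc)).2 : Fin (p + 1) → Fin 2) j ≠
      (Fin.snoc (fun i => (toSides₂ p c (.inr i)).2) (toSides₂ p c (.inl (Fin.last p))).2
        : Fin (p + 1) → Fin 2) j := by
  rw [eValid_iff]
  constructor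
  · intro h
    refine ⟨fun j => ?_, fun j => ?_⟩
    · rw [← (D₂_high p c j).1, ← (D₂_high p c j).2]; exact h _ (by omega)
    · rw [← (D₂_low p c j).1, ← (D₂_low p c j).2]; exact h _ (by omega)
  · rintro ⟨hh, hl⟩ j hj
    rcases le_or_gt j p with h1 | h1
    · obtain ⟨e0, e1⟩ := D₂_low p c ⟨j, by omega⟩
      simp only at e0 e1
      rw [e0, e1]; exact hl _
    · obtain ⟨e0, e1⟩ := D₂_high p c ⟨2 * p + 1 - j, by omega⟩
      simp only [show 2 * p + 1 - (2 * p + 1 - j) = j by omega] at e0 e1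
      rw [e0, e1]; exact hh _

lemma id_valid₂ (p : ℕ) : EValid p (fun z => z.1) := by
  refine ⟨fun z z' h (h' : z.1 = z'.1) => ?_, fun z => ⟨fun h => ?_, fun h => ?_⟩⟩
  · refine Prod.ext h' (Fin.ext ?_)
    simp only [eCol, h'] at h
    split_ifs at h <;> omega
  · simp [eCol, show z.1 = 0 from h]
  · simp [eCol, show z.1 = 1 from h]
    have := z.2.2
    omega

lemma id_mixed₂ (p : ℕ) : ∑ x, nm₂ (toSides₂ p (fun z => z.1) x) = 1 := by
  have h1 : ∀ i : Fin p, nm₂ (toSides₂ p (fun z => z.1) (.inl i.castSucc)) = 0 := fun i => by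
    simp [nm₂, toSides₂, eOr, eEnd]
  have h2 : ∀ i : Fin p, nm₂ (toSides₂ p (fun z => z.1) (.inr i)) = 0 := fun i => by
    simp [nm₂, toSides₂, eOr, eEnd]
  simp [Fintype.sum_sum_type, Fin.sum_univ_castSucc, h1, h2]
  simp [nm₂, toSides₂, eOr, eEnd]

lemma card_colour₂ (p : ℕ) (c : ECell p → Fin 2) (hc : EValid p c) (a : Fin 2) :
    #{z | c z = a} = 2 * p + 1 := by
  have hD := (eValid_iff p c).mp hc
  have hone : ∀ j ≤ 2 * p + 1,
      ((if D₂ p c 0 j = a then 1 else 0) + if D₂ p c 1 j = a then 1 else 0 : ℕ) = 1 := by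
    intro j hj
    have key : ∀ x y a : Fin 2, x ≠ y →
        ((if x = a then 1 else 0) + if y = a then 1 else 0 : ℕ) = 1 := by decide
    exact key _ _ _ (hD j hj)
  have h0 : ∑ j ∈ range (2 * p + 2),
      ((if D₂ p c 0 j = a then 1 else 0) + if D₂ p c 1 j = a then 1 else 0 : ℕ) = 2 * p + 2 := by
    rw [sum_congr rfl fun j hj => hone j (by rw [mem_range] at hj; omega)]
    simp
  rw [sum_add_distrib, sum_range_succ', sum_range_succ (fun j => if D₂ p c 1 j = a then 1 else 0),
    sum_range, sum_range (fun j => if D₂ p c 1 j = a then 1 else 0)] at h0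
  have r0 : ∀ j : Fin (2 * p + 1), D₂ p c 0 ((j : ℕ) + 1) = c (0, j) := fun j => by
    have := D₂_cell p c (0, j); simpa [eCol] using this
  have r1 : ∀ j : Fin (2 * p + 1), D₂ p c 1 j = c (1, j) := fun j => by
    have := D₂_cell p c (1, j); simpa [eCol] using this
  have v0 : D₂ p c 0 0 = 0 := by simp [D₂]
  have v1 : D₂ p c 1 (2 * p + 1) = 1 := by simp [D₂]
  simp only [r0, r1, v0, v1] at h0
  rw [card_filter, Fintype.sum_prod_type, Fin.sum_univ_two]
  fin_cases a <;> simp at h0 ⊢ <;> omega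

lemma mem_eSols_iff (p : ℕ) (c : ECell p → Fin 2) :
    c ∈ eSols p ↔ Valid₂ p 1 0 1 (toSides₂ p c) := by
  simp only [eSols, mem_filter, mem_univ, true_and]
  have hnm : ∀ c : ECell p → Fin 2,
      ∑ x, nm₂ (toSides₂ p c x) = #{x | eType p c x = s((0 : Fin 2), 1)} := by
    intro c
    have key : ∀ y : Sides₂, nm₂ y = if s(y.1, y.2) = s((0 : Fin 2), 1) then 1 else 0 := by decide
    rw [card_filter]
    simp only [← sym_sides₂, ← key]
  constructor
  · rintro ⟨hv, hcnt⟩
    obtain ⟨h1, h2⟩ := (cols₂_iff p c).mp hv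
    refine ⟨h1, h2, ?_⟩
    rw [hnm, hcnt, ← hnm, id_mixed₂]
  · rintro ⟨h1, h2, h3⟩
    have hv := (cols₂_iff p c).mpr ⟨h1, h2⟩
    refine ⟨hv, fun t => ?_⟩
    have hcount : ∀ (c : ECell p → Fin 2) (a : Fin 2),
        #{z | c z = a} = 2 * #{x | eType p c x = s(a, a)} + ∑ x, nm₂ (toSides₂ p c x) := by
      intro c a
      have key : ∀ (y : Sides₂) (a : Fin 2),
          ((if y.1 = a then 1 else 0) + if y.2 = a then 1 else 0 : ℕ) =
            2 * (if s(y.1, y.2) = s(a, a) then 1 else 0) + nm₂ y := by decide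
      rw [card_filter, ← (eEnd_bijective p).sum_comp, Fintype.sum_prod_type, card_filter, mul_sum,
        ← sum_add_distrib]
      refine sum_congr rfl fun x _ => ?_
      rw [Fintype.sum_bool, ← sym_sides₂, ← key]
      simp only [toSides₂]
      rcases Bool.eq_false_or_eq_true (eOr p x) with hb | hb <;>
        simp only [hb, Bool.not_true, Bool.not_false] <;> omega
    obtain ⟨a, b, rfl⟩ : ∃ a b, t = s(a, b) := ⟨t.out.1, t.out.2, (Quot.out_eq t).symm⟩
    by_cases hab : a = b
    · subst hab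
      have e := hcount c a
      have e' := hcount (fun z => z.1) a
      rw [card_colour₂ p c hv, h3] at e
      rw [card_colour₂ p _ (id_valid₂ p), id_mixed₂] at e'
      omega
    · have : s(a, b) = s((0 : Fin 2), 1) := by revert a b; decide
      rw [this, ← hnm, ← hnm, h3, id_mixed₂]

lemma alt_card : ∀ (n : ℕ) (s c : Fin 2),
    #{x | alt n s x = c} = if c = s + 1 then n + 1 else n
  | 0, s, c => by revert s c; decide
  | n + 1, s, c => by
    have ih := alt_card n (s + 1) c
    rw [card_filter, Fintype.sum_sum_type] at ih ⊢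
    rw [← cons₂_alt n s]
    simp only [cons₂, Sum.elim_inl, Sum.elim_inr, Fin.sum_univ_succ (n := n + 1),
      Fin.sum_univ_succ (n := n), Fin.cons_zero, Fin.cons_succ]
    simp only [Fin.sum_univ_succ (n := n)] at ih
    have hs : ∀ s c : Fin 2, (c = s + 1 + 1 ↔ ¬c = s + 1) := by decide
    by_cases h : c = s + 1
    · rw [if_pos h]
      rw [if_neg (fun e => (hs s c).mp e h)] at ih
      simp only [h, if_true] at ih ⊢
      omega
    · rw [if_neg h]
      rw [if_pos ((hs s c).mpr h)] at ih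
      simp only [show ¬(s + 1 = c) from fun e => h e.symm, if_false]
      omega

end Chain

open Chain in
/-- **The vector of two rows.** -/
theorem eqVec_eq (p : ℕ) (_hp : 0 < p) : ∃ E : ESlot p → Fin 2,
    eqVec p = Finsupp.single E 1 ∧ ∀ c, #{x | E x = c} = if c = 0 then p + 1 else p := by
  refine ⟨alt p 1, ?_, fun c => alt_card p 1 c⟩
  rw [← vec₂_frozen]
  refine sum_bij (fun c _ => toSides₂ p c) (fun c hc => ?_)
    (fun c _ c' _ h => (toSides₂_bijective p).1 h) (fun a ha => ?_) fun c _ => ?_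
  · simpa using (mem_eSols_iff p c).mp hc
  · obtain ⟨c, rfl⟩ := (toSides₂_bijective p).2 a
    exact ⟨c, (mem_eSols_iff p c).mpr (by simpa using ha), rfl⟩
  · simp only [mg₂, sym_sides₂]

end Vale.Agent.P197.Colour
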