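import Mathlib

/-!
# The stair gadget, abstract part

Labellings of the slots of a gadget by three labels, formal `ZMod 2`-combinations of them, and
the submodule generated by the rearrangements of such a combination.
-/

open Finset

namespace Vale.Agent.P197.Colour

variable {ι κ ω : Type}

/-- Formal combinations of labellings. -/
abbrev Vec (ι ω : Type) := (ι → ω) →₀ ZMod 2

/-- Rearranging the positions. -/
noncomputable def act (g : Equiv.Perm ι) : Vec ι ω →ₗ[ZMod 2] Vec ι ω :=
  Finsupp.lmapDomain (ZMod 2) (ZMod 2) (fun f => f ∘ g)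

/-- Renaming the labels. -/
noncomputable def relabel (π : ω → ω) : Vec ι ω →ₗ[ZMod 2] Vec ι ω :=
  Finsupp.lmapDomain (ZMod 2) (ZMod 2) (fun f => π ∘ f)

/-- The submodule generated by the rearrangements of `v`. -/
noncomputable def gen (v : Vec ι ω) : Submodule (ZMod 2) (Vec ι ω) :=
  Submodule.span (ZMod 2) (Set.range fun g => act g v)

@[simp] lemma act_single (g : Equiv.Perm ι) (f : ι → ω) (a : ZMod 2) :
    act g (Finsupp.single f a) = Finsupp.single (f ∘ g) a :=
  Finsupp.mapDomain_single

@[simp] lemma relabel_single (π : ω → ω) (f : ι → ω) (a : ZMod 2) :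
    relabel π (Finsupp.single f a) = Finsupp.single (π ∘ f) a :=
  Finsupp.mapDomain_single

lemma act_one (v : Vec ι ω) : act 1 v = v := by
  induction v using Finsupp.induction_linear with
  | zero => simp
  | add a b ha hb => rw [map_add, ha, hb]
  | single f a => simp

lemma act_mul (g h : Equiv.Perm ι) (v : Vec ι ω) : act (g * h) v = act h (act g v) := by
  induction v using Finsupp.induction_linear with
  | zero => simp
  | add a b ha hb => simp only [map_add, ha, hb]
  | single f a => simp [Function.comp_assoc]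

lemma mem_gen_self (v : Vec ι ω) : v ∈ gen v :=
  Submodule.subset_span ⟨1, act_one v⟩

lemma act_mem_gen {v w : Vec ι ω} (g : Equiv.Perm ι) (h : w ∈ gen v) : act g w ∈ gen v := by
  induction h using Submodule.span_induction with
  | mem x hx =>
    obtain ⟨h, rfl⟩ := hx
    rw [← act_mul]
    exact Submodule.subset_span ⟨_, rfl⟩
  | zero => simp
  | add x y _ _ hx hy => rw [map_add]; exact add_mem hx hy
  | smul a x _ hx => rw [map_smul]; exact Submodule.smul_mem _ a hx

lemma gen_le {v w : Vec ι ω} (h : w ∈ gen v) : gen w ≤ gen v :=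
  Submodule.span_le.mpr (by rintro _ ⟨g, rfl⟩; exact act_mem_gen g h)

/-- Linear maps commuting with rearrangements respect generation. -/
lemma map_mem_gen {v w : Vec ι ω} (F : Vec ι ω →ₗ[ZMod 2] Vec ι ω)
    (hF : ∀ g x, F (act g x) = act g (F x)) (h : w ∈ gen v) : F w ∈ gen (F v) := by
  induction h using Submodule.span_induction with
  | mem x hx =>
    obtain ⟨g, rfl⟩ := hx
    rw [hF]
    exact Submodule.subset_span ⟨g, rfl⟩
  | zero => simp
  | add x y _ _ hx hy => rw [map_add]; exact add_mem hx hy
  | smul a x _ hx => rw [map_smul]; exact Submodule.smul_mem _ a hx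

lemma relabel_act (π : ω → ω) (g : Equiv.Perm ι) (v : Vec ι ω) :
    relabel π (act g v) = act g (relabel π v) := by
  induction v using Finsupp.induction_linear with
  | zero => simp
  | add a b ha hb => simp only [map_add, ha, hb]
  | single f a => simp [Function.comp_assoc]

/-- The span of the pairs of simultaneous rearrangements. -/
noncomputable def gen₂ (u u' : ι → ω) : Submodule (ZMod 2) (Vec ι ω × Vec ι ω) :=
  Submodule.span (ZMod 2)
    (Set.range fun g : Equiv.Perm ι => (Finsupp.single (u ∘ g) 1, Finsupp.single (u' ∘ g) 1))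

lemma gen₂_le [DecidableEq ι] {u u' : ι → ω} {v v' : ι → ω}
    (h : ((Finsupp.single v 1 : Vec ι ω), (Finsupp.single v' 1 : Vec ι ω)) ∈ gen₂ u u') :
    gen₂ v v' ≤ gen₂ u u' := by
  refine Submodule.span_le.mpr ?_
  rintro _ ⟨g, rfl⟩
  have key : ∀ p ∈ gen₂ u u', (act g p.1, act g p.2) ∈ gen₂ u u' := by
    intro p hp
    induction hp using Submodule.span_induction with
    | mem x hx =>
      obtain ⟨h, rfl⟩ := hx
      simp only [act_single]
      exact Submodule.subset_span ⟨h * g, rfl⟩
    | zero => simp only [Prod.fst_zero, Prod.snd_zero, map_zero]; exact (gen₂ u u').zero_mem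
    | add x y _ _ hx hy => simpa using add_mem hx hy
    | smul a x _ hx => simpa using Submodule.smul_mem _ a hx
  simpa using key _ h

/-- Two labellings which agree at `T` and differ on as many `a`s as `b`s elsewhere can be
simultaneously rearranged into a single one. -/
lemma merge [Fintype ι] [DecidableEq ι] [DecidableEq ω] (T : ι) :
    ∀ (u u' : ι → ω) (a b : ω), a ≠ b → u T = a → u' T = a →
      (∀ x, u x ≠ u' x → (u x = a ∧ u' x = b) ∨ (u x = b ∧ u' x = a)) →
      #{x | u x = a ∧ u' x = b} = #{x | u x = b ∧ u' x = a} →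
      ∃ E : ι → ω, ((Finsupp.single E 1 : Vec ι ω), (Finsupp.single E 1 : Vec ι ω)) ∈ gen₂ u u' ∧
        ∀ c, #{x | E x = c} = #{x | u x = c} := by
  suffices H : ∀ (k : ℕ) (u u' : ι → ω) (a b : ω), #{x | u x = a ∧ u' x = b} = k → a ≠ b →
      u T = a → u' T = a →
      (∀ x, u x ≠ u' x → (u x = a ∧ u' x = b) ∨ (u x = b ∧ u' x = a)) →
      #{x | u x = b ∧ u' x = a} = k →
      ∃ E : ι → ω, ((Finsupp.single E 1 : Vec ι ω), (Finsupp.single E 1 : Vec ι ω)) ∈ gen₂ u u' ∧
        ∀ c, #{x | E x = c} = #{x | u x = c} from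
    fun u u' a b hab hu hu' hd hc => H _ u u' a b rfl hab hu hu' hd hc.symm
  intro k
  induction k with
  | zero =>
    intro u u' a b hA _ _ _ hd hB
    have he : u = u' := by
      funext x
      by_contra hx
      rw [card_eq_zero, filter_eq_empty_iff] at hA hB
      rcases hd x hx with h | h
      exacts [hA (mem_univ x) h, hB (mem_univ x) h]
    subst he
    exact ⟨u, Submodule.subset_span ⟨1, rfl⟩, fun c => rfl⟩
  | succ k ih =>
    intro u u' a b hA hab hu hu' hd hB
    obtain ⟨p, hp⟩ := card_pos.mp (by rw [hA]; omega : 0 < #{x | u x = a ∧ u' x = b})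
    obtain ⟨q, hq⟩ := card_pos.mp (by rw [hB]; omega : 0 < #{x | u x = b ∧ u' x = a})
    simp only [mem_filter, mem_univ, true_and] at hp hq
    have hpq : p ≠ q := fun h => hab (by rw [← hp.1, h, hq.1])
    have hpT : p ≠ T := fun h => hab (by rw [← hu', ← h, hp.2])
    have hqT : q ≠ T := fun h => hab (by rw [← hu, ← h, hq.1])
    set v := u ∘ Equiv.swap q T
    set v' := u' ∘ Equiv.swap p T
    -- the element `1 + (p T) + (q T)`
    have hmem : ((Finsupp.single v 1 : Vec ι ω), (Finsupp.single v' 1 : Vec ι ω)) ∈ gen₂ u u' := by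
      have h1 : u ∘ Equiv.swap p T = u := by
        funext x; rcases eq_or_ne x p with rfl | h1
        · simp [hu, hp.1]
        · rcases eq_or_ne x T with rfl | h2
          · simp [hu, hp.1]
          · simp [Equiv.swap_apply_of_ne_of_ne h1 h2]
      have h2 : u' ∘ Equiv.swap q T = u' := by
        funext x; rcases eq_or_ne x q with rfl | h1
        · simp [hu', hq.2]
        · rcases eq_or_ne x T with rfl | h2
          · simp [hu', hq.2]
          · simp [Equiv.swap_apply_of_ne_of_ne h1 h2]
      have e1 : (Finsupp.single v 1 : Vec ι ω) = Finsupp.single u 1 +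
          Finsupp.single (u ∘ Equiv.swap p T) 1 + Finsupp.single v 1 := by
        rw [h1, ZModModule.add_self, zero_add]
      have e2 : (Finsupp.single v' 1 : Vec ι ω) = Finsupp.single u' 1 +
          Finsupp.single v' 1 + Finsupp.single (u' ∘ Equiv.swap q T) 1 := by
        rw [h2, add_right_comm, ZModModule.add_self, zero_add]
      rw [e1, e2, ← Prod.mk_add_mk, ← Prod.mk_add_mk]
      exact add_mem (add_mem (Submodule.subset_span ⟨1, rfl⟩) (Submodule.subset_span ⟨_, rfl⟩))
        (Submodule.subset_span ⟨_, rfl⟩)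
    have hv : ∀ x, x ≠ p → x ≠ q → x ≠ T → v x = u x ∧ v' x = u' x := fun x h1 h2 h3 => by
      simp [v, v', Equiv.swap_apply_of_ne_of_ne, h1, h2, h3]
    have hvp : v p = a ∧ v' p = a := by
      simp [v, v', Equiv.swap_apply_of_ne_of_ne hpq hpT, hp.1, hu']
    have hvq : v q = a ∧ v' q = a := by
      simp [v, v', Equiv.swap_apply_of_ne_of_ne hpq.symm hqT, hq.2, hu]
    have hvT : v T = b ∧ v' T = b := by simp [v, v', hq.1, hp.2]
    have hset : ∀ x y, x ≠ y → (({z | v z = x ∧ v' z = y} : Finset ι) =
        (({z | u z = x ∧ u' z = y} : Finset ι).erase p).erase q) := by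
      intro x y hxy
      ext z
      simp only [mem_filter, mem_univ, true_and, mem_erase]
      rcases eq_or_ne z p with rfl | h1
      · simp only [hvp, ne_eq, not_true, false_and, and_false, iff_false, not_and]
        exact fun h => h ▸ hxy
      rcases eq_or_ne z q with rfl | h2
      · simp only [hvq, ne_eq, not_true, false_and, iff_false, not_and]
        exact fun h => h ▸ hxy
      rcases eq_or_ne z T with rfl | h3
      · simp only [hvT, hu, hu']
        constructor <;> intro h
        · exact absurd (h.1.symm.trans h.2) hxy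
        · exact absurd (h.2.2.1.symm.trans h.2.2.2) hxy
      simp [hv z h1 h2 h3, h1, h2]
    obtain ⟨E, hE, hcnt⟩ := ih v v' b a (by
      rw [hset b a hab.symm, erase_eq_of_notMem (a := p) (by simp [hp.1, hab]),
        card_erase_of_mem (by simp [hq]), hB]; rfl) hab.symm hvT.1 hvT.2 (fun x hx => by
        rcases eq_or_ne x p with rfl | h1
        · exact absurd (hvp.1.trans hvp.2.symm) hx
        rcases eq_or_ne x q with rfl | h2
        · exact absurd (hvq.1.trans hvq.2.symm) hx
        rcases eq_or_ne x T with rfl | h3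
        · exact absurd (hvT.1.trans hvT.2.symm) hx
        rw [(hv x h1 h2 h3).1, (hv x h1 h2 h3).2] at hx ⊢
        exact (hd x hx).symm) (by
      rw [hset a b hab, erase_eq_of_notMem (a := q) (by simp [hq.1, hab.symm]),
        card_erase_of_mem (by simp [hp]), hA]
      rfl)
    exact ⟨E, gen₂_le hmem hE, fun c => (hcnt c).trans (card_equiv (Equiv.swap q T) (by simp [v]))⟩

/-- The slots after `k + 1` steps of a walk. -/
abbrev Tail : ℕ → Type
  | 0 => Fin 2
  | k + 1 => Fin 3 ⊕ Tail k

instance instFintypeTail : ∀ k, Fintype (Tail k)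
  | 0 => inferInstanceAs (Fintype (Fin 2))
  | k + 1 => letI := instFintypeTail k; inferInstanceAs (Fintype (Fin 3 ⊕ Tail k))

instance instDecidableEqTail : ∀ k, DecidableEq (Tail k)
  | 0 => inferInstanceAs (DecidableEq (Fin 2))
  | k + 1 => letI := instDecidableEqTail k; inferInstanceAs (DecidableEq (Fin 3 ⊕ Tail k))

/-- Fix the values on the left part. -/
noncomputable def glue (P : ι → ω) : Vec κ ω →ₗ[ZMod 2] Vec (ι ⊕ κ) ω :=
  Finsupp.lmapDomain (ZMod 2) (ZMod 2) (Sum.elim P)

@[simp] lemma glue_single (P : ι → ω) (f : κ → ω) (a : ZMod 2) :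
    glue P (Finsupp.single f a) = Finsupp.single (Sum.elim P f) a :=
  Finsupp.mapDomain_single

/-- Transport along an equivalence of positions. -/
noncomputable def reindex (e : κ ≃ ι) : Vec ι ω →ₗ[ZMod 2] Vec κ ω :=
  Finsupp.lmapDomain (ZMod 2) (ZMod 2) (fun f => f ∘ e)

@[simp] lemma reindex_single (e : κ ≃ ι) (f : ι → ω) (a : ZMod 2) :
    reindex e (Finsupp.single f a) = Finsupp.single (f ∘ e) a :=
  Finsupp.mapDomain_single

lemma reindex_mem_gen (e : κ ≃ ι) {v w : Vec ι ω} (h : w ∈ gen v) :
    reindex e w ∈ gen (reindex e v) := by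
  induction h using Submodule.span_induction with
  | mem x hx =>
    obtain ⟨g, rfl⟩ := hx
    refine Submodule.subset_span ⟨(e.trans g).trans e.symm, ?_⟩
    induction v using Finsupp.induction_linear with
    | zero => simp
    | add a b ha hb => simp only [map_add, ha, hb]
    | single f a =>
      simp only [act_single, reindex_single]
      congr 1
      funext x; simp
  | zero => simp
  | add x y _ _ hx hy => rw [map_add]; exact add_mem hx hy
  | smul a x _ hx => rw [map_smul]; exact Submodule.smul_mem _ a hx

/-- The transposition of `Fin 3` fixing `c`. -/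
def flip3 (c : Fin 3) : Fin 3 → Fin 3 := Equiv.swap (c + 1) (c + 2)

/-- The walks starting at `s`. -/
noncomputable def walk : (k : ℕ) → Fin 3 → Vec (Tail k) (Fin 3)
  | 0, s => Finsupp.single (![s + 1, s + 2]) 1 + Finsupp.single (![s + 2, s + 1]) 1
  | k + 1, s => glue (![s + 1, s + 2, s + 2]) (walk k (s + 2)) +
      glue (![s + 2, s + 1, s + 1]) (walk k (s + 1))

lemma relabel_glue (π : ω → ω) (P : ι → ω) (v : Vec κ ω) :
    relabel π (glue P v) = glue (π ∘ P) (relabel π v) := by
  induction v using Finsupp.induction_linear with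
  | zero => simp
  | add a b ha hb => simp only [map_add, ha, hb]
  | single f a => simp [Sum.comp_elim]

lemma relabel_walk : ∀ (k : ℕ) (c s : Fin 3),
    relabel (flip3 c) (walk k s) = walk k (flip3 c s)
  | 0, c, s => by
    have h1 : flip3 c (s + 1) = flip3 c s + 2 ∧ flip3 c (s + 2) = flip3 c s + 1 := by
      revert c s; decide
    refine (map_add (relabel (flip3 c)) _ _).trans ((add_comm _ _).trans ?_)
    refine congrArg₂ (· + ·) ?_ ?_ <;>
    · refine (relabel_single _ _ _).trans (congrArg (fun f => Finsupp.single f 1) ?_)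
      funext i; fin_cases i
      · show flip3 c _ = _; first | exact h1.1 | exact h1.2
      · show flip3 c _ = _; first | exact h1.1 | exact h1.2
  | k + 1, c, s => by
    have h1 : flip3 c (s + 1) = flip3 c s + 2 ∧ flip3 c (s + 2) = flip3 c s + 1 := by
      revert c s; decide
    have hv : ∀ a b : Fin 3, flip3 c ∘ ![a, b, b] = ![flip3 c a, flip3 c b, flip3 c b] := by
      intro a b; funext i; fin_cases i <;> rfl
    refine (map_add (relabel (flip3 c)) _ _).trans ((add_comm _ _).trans ?_)
    refine congrArg₂ (· + ·) ?_ ?_ <;>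
    · refine (relabel_glue _ _ _).trans ?_
      rw [relabel_walk k c, hv, h1.1, h1.2]

/-- A chain of fixed colours, consecutive ones distinct. -/
inductive Starts : Fin 3 → List (Fin 3) → Prop
  | one (s) : Starts s [s]
  | cons {s s' Q} : s ≠ s' → Starts s' Q → Starts s (s :: Q)

/-- The product of the operators `1 + flip3 c`. -/
noncomputable def qop : List (Fin 3) → (ι → Fin 3) → Vec ι (Fin 3)
  | [], E => Finsupp.single E 1
  | c :: Q, E => qop Q E + relabel (flip3 c) (qop Q E)

lemma qop_reindex (e : κ ≃ ι) : ∀ (Q : List (Fin 3)) (E : ι → Fin 3),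
    reindex e (qop Q E) = qop Q (E ∘ e)
  | [], E => by simp [qop]
  | c :: Q, E => by
    have h : ∀ v : Vec ι (Fin 3), reindex e (relabel (flip3 c) v) =
        relabel (flip3 c) (reindex e v) := by
      intro v
      induction v using Finsupp.induction_linear with
      | zero => simp
      | add a b ha hb => simp only [map_add, ha, hb]
      | single f a => simp [Function.comp_assoc]
    simp only [qop, map_add, h, qop_reindex e Q E]

lemma flip3_facts (s : Fin 3) : s + 1 ≠ s + 2 ∧ s + 1 ≠ s ∧ s + 2 ≠ s ∧
    flip3 s (s + 1) = s + 2 ∧ flip3 s (s + 2) = s + 1 ∧ flip3 s s = s := by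
  revert s; decide

lemma flip3_flip3 : ∀ s y : Fin 3, flip3 s (flip3 s y) = y := by decide

lemma flip3_moves : ∀ s y : Fin 3, flip3 s y ≠ y →
    (y = s + 1 ∧ flip3 s y = s + 2) ∨ (y = s + 2 ∧ flip3 s y = s + 1) := by decide

lemma card_pair_eq : ∀ s c : Fin 3,
    #{x : Fin 2 | ![s + 1, s + 2] x = c} = if c = s then 0 else 1 := by decide

lemma card_triple_eq : ∀ s c : Fin 3, #{x : Fin 3 | ![s + 1, s + 2, s + 2] x = c} =
    if c = s then 0 else if c = s + 2 then 2 else 1 := by decide

lemma card_elim [Fintype ι] [Fintype κ] (f : ι → Fin 3) (t : κ → Fin 3) (c : Fin 3) :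
    #{x | Sum.elim f t x = c} = #{x | f x = c} + #{x | t x = c} := by
  rw [card_filter, card_filter, card_filter, Fintype.sum_sum_type]
  rfl

lemma relabel_flip3_flip3 (s : Fin 3) (v : Vec ι (Fin 3)) :
    relabel (flip3 s) (relabel (flip3 s) v) = v := by
  induction v using Finsupp.induction_linear with
  | zero => simp
  | add a b ha hb => simp only [map_add, ha, hb]
  | single f a =>
    simp only [relabel_single]
    congr 1
    funext x
    exact flip3_flip3 s (f x)

/-- Merging the two branches after a prefix. -/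
lemma branch [Fintype ι] [DecidableEq ι] [Fintype κ] [DecidableEq κ] {μ : Type} (s : Fin 3)
    (P : ι → Fin 3) (hP : #{x | P x = s + 1} = #{x | P x = s + 2}) (H : κ → Fin 3) (T : κ)
    (hT : H T = s + 1) (t : Vec μ (Fin 3)) :
    ∃ E : ι ⊕ κ → Fin 3, (∀ c, #{x | E x = c} = #{x | P x = c} + #{x | H x = c}) ∧
      glue E t + relabel (flip3 s) (glue E t) ∈ gen (glue (Sum.elim P H) t +
        relabel (flip3 s) (glue (Sum.elim (flip3 s ∘ P) H) t)) := by
  obtain ⟨h12, -, -, hf1, hf2, -⟩ := flip3_facts s
  set u := Sum.elim P H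
  set u' := Sum.elim (flip3 s ∘ P) H
  have hA : ∀ a b : Fin 3, a ≠ b → flip3 s a = b →
      #{x | u x = a ∧ u' x = b} = #{x | P x = a} := by
    intro a b hab hfab
    rw [card_filter, card_filter, Fintype.sum_sum_type]
    have h0 : ∀ x, (if u (Sum.inr x) = a ∧ u' (Sum.inr x) = b then 1 else 0 : ℕ) = 0 := by
      intro x
      exact if_neg fun h => hab (h.1.symm.trans h.2)
    rw [sum_congr rfl fun x _ => h0 x, sum_const_zero, add_zero]
    refine sum_congr rfl fun x _ => if_congr ⟨fun h => h.1, fun h => ⟨h, ?_⟩⟩ rfl rfl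
    show flip3 s (P x) = b
    rw [h, hfab]
  obtain ⟨E, hE, hcnt⟩ := merge (Sum.inr T : ι ⊕ κ) u u' (s + 1) (s + 2) h12 hT hT (fun x hx => by
    rcases x with x | x
    · exact flip3_moves s (P x) fun h => hx h.symm
    · exact absurd rfl hx) (by rw [hA _ _ h12 hf1, hA _ _ h12.symm hf2, hP])
  refine ⟨E, fun c => (hcnt c).trans (card_elim P H c), ?_⟩
  let A : Vec (ι ⊕ κ) (Fin 3) →ₗ[ZMod 2] Vec ((ι ⊕ κ) ⊕ μ) (Fin 3) :=
    Finsupp.linearCombination (ZMod 2) fun f => glue f t
  let F := A.comp (LinearMap.fst (ZMod 2) _ _) +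
    (relabel (flip3 s)).comp (A.comp (LinearMap.snd (ZMod 2) (Vec (ι ⊕ κ) (Fin 3)) _))
  have hF : ∀ f f' : ι ⊕ κ → Fin 3, F (Finsupp.single f 1, Finsupp.single f' 1) =
      glue f t + relabel (flip3 s) (glue f' t) := by
    intro f f'
    simp [F, A]
  have hg : ∀ p ∈ gen₂ u u', F p ∈ gen (glue u t + relabel (flip3 s) (glue u' t)) := by
    intro p hp
    induction hp using Submodule.span_induction with
    | mem x hx =>
      obtain ⟨g, rfl⟩ := hx
      rw [hF]
      refine Submodule.subset_span ⟨g.sumCongr (Equiv.refl μ), ?_⟩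
      have h : ∀ (f : ι ⊕ κ → Fin 3) (v : Vec μ (Fin 3)),
          act (g.sumCongr (Equiv.refl μ)) (glue f v) = glue (f ∘ g) v := by
        intro f v
        induction v using Finsupp.induction_linear with
        | zero => simp
        | add a b ha hb => simp only [map_add, ha, hb]
        | single w a =>
          simp only [glue_single, act_single]
          congr 1
          funext x
          rcases x with x | x <;> rfl
      simp only [map_add, ← relabel_act, h]
    | zero => rw [map_zero]; exact zero_mem _
    | add x y _ _ hx hy => rw [map_add]; exact add_mem hx hy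
    | smul a x _ hx => rw [map_smul]; exact Submodule.smul_mem _ a hx
  have h := hg _ hE
  rw [hF] at h
  exact h

lemma reindex_relabel (e : κ ≃ ι) (π : ω → ω) (v : Vec ι ω) :
    reindex e (relabel π v) = relabel π (reindex e v) := by
  induction v using Finsupp.induction_linear with
  | zero => simp
  | add a b ha hb => simp only [map_add, ha, hb]
  | single f a => simp [Function.comp_assoc]

/-- The sum of the walks after a balanced prefix generates a product of `1 + flip3 c`s. -/
theorem walk_reduce : ∀ (k : ℕ) (ι : Type) [Fintype ι] [DecidableEq ι] (P : ι → Fin 3) (s : Fin 3)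
    (n : ℕ), (∀ c, #{x | P x = c} = if c = s then n + 1 else n) →
    ∃ (E : ι ⊕ Tail k → Fin 3) (Q : List (Fin 3)), Starts s Q ∧
      (∀ c, #{x | E x = c} = n + k + 1) ∧ qop Q E ∈ gen (glue P (walk k s))
  | 0, ι, _, _, P, s, n, hP => by
    obtain ⟨h12, h10, h20, hf1, hf2, hf0⟩ := flip3_facts s
    obtain ⟨E, hE, hmem⟩ := branch (μ := Empty) s P (by rw [hP, hP, if_neg h10, if_neg h20])
      (![s + 1, s + 2] : Tail 0 → Fin 3) (0 : Fin 2) rfl (Finsupp.single Empty.elim 1)
    refine ⟨E, [s], .one s, fun c => ?_, ?_⟩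
    · rw [hE, hP, card_pair_eq]
      split_ifs <;> omega
    · have h := reindex_mem_gen (Equiv.sumEmpty (ι ⊕ Tail 0) Empty).symm hmem
      have hi : ∀ f : ι ⊕ Tail 0 → Fin 3, reindex (Equiv.sumEmpty (ι ⊕ Tail 0) Empty).symm
          (glue f (Finsupp.single Empty.elim 1)) = Finsupp.single f 1 := by
        intro f; simp [Function.comp_def]
      simp only [map_add, reindex_relabel, hi, relabel_single] at h
      have hgoal : glue P (walk 0 s) = Finsupp.single (Sum.elim P (![s + 1, s + 2] : Tail 0 → Fin 3)) 1 +
          Finsupp.single (flip3 s ∘ Sum.elim (flip3 s ∘ P) (![s + 1, s + 2] : Tail 0 → Fin 3)) 1 := by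
        refine (map_add (glue P) _ _).trans ?_
        refine congrArg₂ (· + ·) (glue_single _ _ _) ((glue_single _ _ _).trans ?_)
        congr 1
        funext x
        rcases x with x | x
        · exact (flip3_flip3 s (P x)).symm
        · fin_cases x
          · exact hf1.symm
          · exact hf2.symm
      rw [hgoal, qop, qop, relabel_single]
      exact h
  | k + 1, ι, _, _, P, s, n, hP => by
    obtain ⟨h12, h10, h20, hf1, hf2, hf0⟩ := flip3_facts s
    obtain ⟨E, hE, hmem⟩ := branch s P (by rw [hP, hP, if_neg h10, if_neg h20])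
      (![s + 1, s + 2, s + 2]) 0 rfl (walk k (s + 2))
    obtain ⟨E', Q, hQ, hE', hmem'⟩ := walk_reduce k (ι ⊕ Fin 3) E (s + 2) (n + 1) fun c => by
      rw [hE, hP, card_triple_eq]
      split_ifs <;> omega
    let e : ι ⊕ Tail (k + 1) ≃ (ι ⊕ Fin 3) ⊕ Tail k := (Equiv.sumAssoc ι (Fin 3) (Tail k)).symm
    refine ⟨E' ∘ e, s :: Q, .cons (Ne.symm h20) hQ, fun c => ?_, ?_⟩
    · rw [show n + (k + 1) + 1 = n + 1 + k + 1 by omega, ← hE' c]
      exact card_equiv e (by simp)
    · have h1 := map_mem_gen (LinearMap.id + relabel (flip3 s))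
        (fun g x => by simp [relabel_act]) hmem'
      simp only [LinearMap.add_apply, LinearMap.id_coe, id_eq] at h1
      have h2 := reindex_mem_gen e (gen_le hmem h1)
      have hgoal : glue P (walk (k + 1) s) = reindex e (glue (Sum.elim P ![s + 1, s + 2, s + 2])
          (walk k (s + 2)) + relabel (flip3 s) (glue (Sum.elim (flip3 s ∘ P) ![s + 1, s + 2, s + 2])
          (walk k (s + 2)))) := by
        have hg : ∀ (H : Fin 3 → Fin 3) (w : Vec (Tail k) (Fin 3)),
            glue P (glue H w : Vec (Tail (k + 1)) (Fin 3)) =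
              reindex e (glue (Sum.elim P H) w) := by
          intro H w
          induction w using Finsupp.induction_linear with
          | zero => simp
          | add a b ha hb => simp only [map_add] at ha hb ⊢; rw [← ha, ← hb]
          | single f a =>
            refine (congrArg (glue P) (glue_single _ _ _)).trans ?_
            refine (glue_single _ _ _).trans ?_
            rw [glue_single, reindex_single]
            congr 1
            funext x
            rcases x with x | x
            · rfl
            · rcases x with x | x <;> rfl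
        refine (map_add (glue P) _ _).trans ?_
        rw [map_add, relabel_glue, relabel_walk, hf2, hg, hg]
        congr 3
        congr 1
        funext x
        rcases x with x | x
        · exact (flip3_flip3 s (P x)).symm
        · fin_cases x
          · exact hf1.symm
          · exact hf2.symm
          · exact hf2.symm
      rw [hgoal, qop, ← qop_reindex e, ← reindex_relabel, ← map_add]
      exact h2

end Vale.Agent.P197.Colour
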