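import Vale.Agent.P197.Criterion.Forced

/-!
# Column rearrangements with the type counts of the identity split into blocks

The cells of a tableau are single cells in the corner `column + row < d` and pairs lying inside
blocks of rows, with column sums decreasing from one block to the next.  A column rearrangement
keeping the type counts of the pairs and the row counts of the singles maps singles to singles and
each block to itself, so sums over such rearrangements factor through the blocks.
-/

open Finset Equiv

namespace Vale.Agent.P197.Colour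

open SymChar Littlewood Criterion

variable {n k f : ℕ} {β : Type*} [DecidableEq β]

/-- The paired cells of a block. -/
abbrev BCell (sb : Fin k → β) (b : β) := {p : Fin k × Bool // sb p.1 = b}

/-- The colouring glued from colourings of the blocks. -/
def glueBlocks {X : Type*} (sb : Fin k → β) (c : ∀ b, BCell sb b → X) : Fin k × Bool → X :=
  fun p => c (sb p.1) ⟨p, rfl⟩

/-- The type of a slot in a colouring of the paired cells. -/
def colType (g : Fin k × Bool → Fin n) (x : Fin k) : Sym2 (Fin n) := s(g (x, false), g (x, true))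

/-- Column rearrangements with the type counts and single row counts of the identity. -/
def goodPerms (T : Fin n → Fin n) (e : (Fin k × Bool) ⊕ Fin f ≃ Fin n) : Finset (Perm (Fin n)) :=
  (colStab T).filter fun π =>
    (∀ t, #{x | pairType T e π x = t} = #{x | pairType T e 1 x = t}) ∧
      cnt (fun y => T (π (e (.inr y)))) = cnt (fun y => T (e (.inr y)))

/-- Colourings of one block: injective on columns, using in each column only rows of the block
present there, with the type counts of the identity. -/
def blockSols (T : Fin n → Fin n) (e : (Fin k × Bool) ⊕ Fin f ≃ Fin n) (sb : Fin k → β) (b : β) :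
    Finset (BCell sb b → Fin n) :=
  {c | (∀ p q : BCell sb b, colOf T (e (.inl p.1)) = colOf T (e (.inl q.1)) → c p = c q → p = q) ∧
    (∀ p : BCell sb b, ∃ q : BCell sb b,
      colOf T (e (.inl q.1)) = colOf T (e (.inl p.1)) ∧ T (e (.inl q.1)) = c p) ∧
    ∀ t, #{x : {x // sb x = b} | s(c ⟨(x.1, false), x.2⟩, c ⟨(x.1, true), x.2⟩) = t} =
      #{x : {x // sb x = b} | pairType T e 1 x.1 = t}}

variable {T : Fin n → Fin n} {e : (Fin k × Bool) ⊕ Fin f ≃ Fin n}

omit [DecidableEq β] in
lemma glueBlocks_apply {X : Type*} {sb : Fin k → β} (c : ∀ b, BCell sb b → X) {b : β}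
    (q : BCell sb b) : glueBlocks sb c q.1 = c b q := by
  obtain ⟨q, rfl⟩ := q
  rfl

lemma colOf_perm {π : Perm (Fin n)} (hπ : π ∈ colStab T) (z : Fin n) :
    colOf T (π z) = colOf T z := by
  simp only [colStab, mem_filter, mem_univ, true_and] at hπ
  exact congrFun hπ z

lemma card_corner {d : ℕ} (hcorner : ∀ z, (∃ y, e (.inr y) = z) ↔ colOf T z + (T z : ℕ) < d)
    (P : Fin n → Prop) [DecidablePred P] :
    #{y : Fin f | P (e (.inr y))} = #{z | colOf T z + (T z : ℕ) < d ∧ P z} := by
  refine card_bij (fun y _ => e (.inr y)) (fun y hy => ?_) (fun y _ y' _ h => ?_) fun z hz => ?_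
  · simp only [mem_filter, mem_univ, true_and] at hy ⊢
    exact ⟨(hcorner _).mp ⟨y, rfl⟩, hy⟩
  · exact Sum.inr_injective (e.injective h)
  · simp only [mem_filter, mem_univ, true_and] at hz
    obtain ⟨y, rfl⟩ := (hcorner z).mpr hz.1
    exact ⟨y, by simpa using hz.2, rfl⟩

/-- Single cells go to single cells. -/
theorem single_of_good {d : ℕ}
    (hcorner : ∀ z, (∃ y, e (.inr y) = z) ↔ colOf T z + (T z : ℕ) < d) {π : Perm (Fin n)}
    (hπ : π ∈ goodPerms T e) {z : Fin n} (hz : colOf T z + (T z : ℕ) < d) :
    colOf T (π z) + (T (π z) : ℕ) < d := by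
  obtain ⟨hcs, -, hcnt⟩ := mem_filter.mp hπ
  set A := fun j i : ℕ =>
    #{z | colOf T z = j ∧ colOf T z + (T z : ℕ) < d ∧ (T (π z) : ℕ) < i}
  set A₀ := fun j i : ℕ =>
    #{z | colOf T z = j ∧ colOf T z + (T z : ℕ) < d ∧ (T z : ℕ) < i}
  have hle : ∀ j i, A j i ≤ A₀ j i := by
    intro j i
    rcases le_or_gt (i + j) d with h | h
    · calc A j i ≤ #{z | colOf T z = j ∧ (T (π z) : ℕ) < i} := card_le_card fun z hz => by
            simp only [mem_filter, mem_univ, true_and] at hz ⊢; exact ⟨hz.1, hz.2.2⟩
        _ = #{z | colOf T z = j ∧ (T z : ℕ) < i} := card_equiv π fun z => by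
            simp [colOf_perm hcs]
        _ ≤ A₀ j i := card_le_card fun z hz => by
            simp only [mem_filter, mem_univ, true_and] at hz ⊢; exact ⟨hz.1, by omega, hz.2⟩
    · refine card_le_card fun z hz => ?_
      simp only [mem_filter, mem_univ, true_and] at hz ⊢
      exact ⟨hz.1, hz.2.1, by omega⟩
  have htot : ∀ i, ∑ j ∈ range d, A j i = ∑ j ∈ range d, A₀ j i := by
    intro i
    have hfib : ∀ g : Fin n → ℕ,
        ∑ j ∈ range d, #{z | colOf T z = j ∧ colOf T z + (T z : ℕ) < d ∧ g z < i} =
          #{z | colOf T z + (T z : ℕ) < d ∧ g z < i} := by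
      intro g
      rw [card_eq_sum_card_fiberwise (f := colOf T) (t := range d) fun z hz => by
        simp only [coe_filter, mem_univ, true_and, Set.mem_ofPred_eq] at hz
        simp only [coe_range, Set.mem_Iio]; omega]
      refine sum_congr rfl fun j _ => congrArg card (Finset.ext fun z => ?_)
      simp only [mem_filter, mem_univ, true_and]
      tauto
    rw [hfib, hfib, ← card_corner hcorner fun z => (T (π z) : ℕ) < i,
      ← card_corner hcorner fun z => (T z : ℕ) < i]
    have h := congrArg (fun c => pre i fun j => (c j : ℤ)) hcnt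
    simp only [pre_eq_card] at h
    exact_mod_cast h
  have hz0 : colOf T z < d := by omega
  have heq := (sum_eq_sum_iff_of_le fun j _ => hle j (d - colOf T z)).mp
    (htot (d - colOf T z)) (colOf T z) (mem_range.mpr hz0)
  have hsub : ({w | colOf T w = colOf T z ∧ colOf T w + (T w : ℕ) < d ∧
      (T (π w) : ℕ) < d - colOf T z} : Finset (Fin n)) =
      ({w | colOf T w = colOf T z ∧ colOf T w + (T w : ℕ) < d} : Finset (Fin n)) := by
    refine eq_of_subset_of_card_le (fun w hw => ?_) ?_
    · simp only [mem_filter, mem_univ, true_and] at hw ⊢; exact ⟨hw.1, hw.2.1⟩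
    · show _ ≤ A _ _
      rw [heq]
      refine card_le_card fun w hw => ?_
      simp only [mem_filter, mem_univ, true_and] at hw ⊢
      exact ⟨hw.1, hw.2, by omega⟩
  have hm : z ∈ ({w | colOf T w = colOf T z ∧ colOf T w + (T w : ℕ) < d} : Finset (Fin n)) := by
    simp [hz]
  rw [← hsub] at hm
  simp only [mem_filter, mem_univ, true_and] at hm
  rw [colOf_perm hcs]
  omega

/-- A good rearrangement acts separately on singles and on paired cells. -/
theorem exists_split {d : ℕ}
    (hcorner : ∀ z, (∃ y, e (.inr y) = z) ↔ colOf T z + (T z : ℕ) < d) {π : Perm (Fin n)}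
    (hπ : π ∈ goodPerms T e) :
    ∃ (s : Perm (Fin f)) (p : Perm (Fin k × Bool)), (∀ y, π (e (.inr y)) = e (.inr (s y))) ∧
      ∀ q, π (e (.inl q)) = e (.inl (p q)) := by
  have h1 : ∀ y, ∃ y', π (e (.inr y)) = e (.inr y') := fun y => by
    obtain ⟨y', hy'⟩ := (hcorner _).mpr (single_of_good hcorner hπ ((hcorner _).mp ⟨y, rfl⟩))
    exact ⟨y', hy'.symm⟩
  choose s hs using h1
  have hsinj : Function.Injective s := fun y y' h => by
    have := (hs y).trans (h ▸ (hs y').symm)
    simpa using this
  have hsb := Finite.injective_iff_bijective.mp hsinj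
  have h2 : ∀ q, ∃ q', π (e (.inl q)) = e (.inl q') := fun q => by
    obtain ⟨w, hw⟩ := e.surjective (π (e (.inl q)))
    rcases w with q' | y
    · exact ⟨q', hw.symm⟩
    · obtain ⟨y', rfl⟩ := hsb.2 y
      rw [← hs y'] at hw
      simp at hw
  choose p hp using h2
  have hpinj : Function.Injective p := fun q q' h => by
    have := (hp q).trans (h ▸ (hp q').symm)
    simpa using this
  exact ⟨Equiv.ofBijective s hsb, Equiv.ofBijective p (Finite.injective_iff_bijective.mp hpinj),
    hs, hp⟩

/-- The slots are rearranged inside their blocks. -/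
theorem blk_of_good {B d : ℕ} {blk : Fin n → Fin B} {sb : Fin k → Fin B}
    (hcorner : ∀ z, (∃ y, e (.inr y) = z) ↔ colOf T z + (T z : ℕ) < d)
    (hblk : ∀ p, blk (T (e (.inl p))) = sb p.1)
    (hS : ∀ x y, sb x < sb y → colOf T (e (.inl (y, false))) + colOf T (e (.inl (y, true))) <
      colOf T (e (.inl (x, false))) + colOf T (e (.inl (x, true))))
    {π : Perm (Fin n)} (hπ : π ∈ goodPerms T e) :
    (∀ q, blk (T (π (e (.inl q)))) = sb q.1) ∧
      ∃ σ : Perm (Fin k), (∀ x, sb (σ x) = sb x) ∧
        ∀ x, pairType T e 1 (σ x) = pairType T e π x := by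
  obtain ⟨hcs, hty, -⟩ := mem_filter.mp hπ
  obtain ⟨s, p, -, hp⟩ := exists_split hcorner hπ
  let σ : Perm (Fin k) := Equiv.ofFiberEquiv (f := pairType T e π) (g := pairType T e 1) fun t =>
    Fintype.equivOfCardEq (by rw [Fintype.card_subtype, Fintype.card_subtype]; exact hty t)
  have hσ : ∀ x, pairType T e 1 (σ x) = pairType T e π x := fun x =>
    Equiv.ofFiberEquiv_map _ x
  have hb : ∀ q, blk (T (π (e (.inl q)))) = sb (σ q.1) := by
    rintro ⟨x, b⟩
    have h := hσ x
    simp only [pairType, Perm.one_apply] at h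
    rcases Sym2.eq_iff.mp h with ⟨h1, h2⟩ | ⟨h1, h2⟩ <;> cases b
    · rw [← h1, hblk]
    · rw [← h2, hblk]
    · rw [← h2, hblk]
    · rw [← h1, hblk]
  suffices heq : ∀ x, sb (σ x) = sb x from ⟨fun q => by rw [hb, heq], σ, heq, hσ⟩
  let g : Fin k → ℕ := fun x => sb x
  let S : Fin k → ℕ := fun x =>
    colOf T (e (.inl (x, false))) + colOf T (e (.inl (x, true)))
  have hsum : ∑ x, S x * g (σ x) = ∑ x, S x * g x := by
    have h1 : ∀ u : Fin k → ℕ,
        ∑ x, S x * u x = ∑ q : Fin k × Bool, colOf T (e (.inl q)) * u q.1 := fun u => by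
      rw [Fintype.sum_prod_type]
      simp only [Fintype.sum_bool, S]
      exact sum_congr rfl fun x _ => by ring
    rw [h1, h1, ← Equiv.sum_comp p (fun q : Fin k × Bool => colOf T (e (.inl q)) * g q.1)]
    refine sum_congr rfl fun q _ => ?_
    rw [← hp, colOf_perm hcs]
    congr 1
    show ((sb (σ q.1) : Fin B) : ℕ) = (sb (p q).1 : ℕ)
    rw [← hb, hp, hblk]
  have hanti : Antivary S g := fun x y h => (hS x y h).le
  have hanti' := (Antivary.sum_mul_eq_sum_mul_comp_perm_iff hanti).mp hsum
  have hmono : Monovary g (g ∘ σ) := fun x y h => by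
    by_contra hc
    push Not at hc
    exact absurd (hanti' h) (not_le.mpr (hS y x hc))
  have hsq := (Monovary.sum_mul_comp_perm_eq_sum_mul_iff (σ := σ) (monovary_self g)).mpr hmono
  intro x
  have hzero : ∑ x, ((g (σ x) : ℤ) - g x) ^ 2 = 0 := by
    have h1 : (∑ x, (g x : ℤ) * g (σ x)) = ∑ x, (g x : ℤ) * g x := by exact_mod_cast hsq
    have h2 := Equiv.sum_comp σ (fun x => (g x : ℤ) * g x)
    have h3 : ∑ x, ((g (σ x) : ℤ) - g x) ^ 2 = ∑ x, (g (σ x) : ℤ) * g (σ x) +
        ∑ x, (g x : ℤ) * g x - 2 * ∑ x, (g x : ℤ) * g (σ x) := by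
      rw [mul_sum, ← sum_add_distrib, ← sum_sub_distrib]
      exact sum_congr rfl fun x _ => by ring
    rw [h3, h2, h1]; ring
  have h4 := (sum_eq_zero_iff_of_nonneg fun x _ => sq_nonneg _).mp hzero x (mem_univ x)
  have h5 := pow_eq_zero_iff (n := 2) (by norm_num) |>.mp h4
  exact Fin.ext (show g (σ x) = g x by omega)

/-- **Splitting.** -/
theorem sum_goodPerms {B d : ℕ} (T : Fin n → Fin n) (Td : Fin f → Fin f)
    (e : (Fin k × Bool) ⊕ Fin f ≃ Fin n) (blk : Fin n → Fin B) (sb : Fin k → Fin B)
    (hcorner : ∀ z, (∃ y, e (.inr y) = z) ↔ colOf T z + (T z : ℕ) < d)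
    (hcol : ∀ y y', colOf T (e (.inr y)) = colOf T (e (.inr y')) ↔ colOf Td y = colOf Td y')
    (hblk : ∀ p, blk (T (e (.inl p))) = sb p.1)
    (hS : ∀ x y, sb x < sb y → colOf T (e (.inl (y, false))) + colOf T (e (.inl (y, true))) <
      colOf T (e (.inl (x, false))) + colOf T (e (.inl (x, true))))
    {R : Type*} [CommSemiring R] {M M' M'' : Type*} [AddCommMonoid M] [Module R M]
    [AddCommMonoid M'] [Module R M'] [AddCommMonoid M''] [Module R M'']
    (μ : M →ₗ[R] M' →ₗ[R] M'') (U : (Fin f → Fin n) → M) (V : (Fin k → Sym2 (Fin n)) → M') :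
    ∑ π ∈ goodPerms T e, μ (U fun y => T (π (e (.inr y)))) (V (pairType T e π)) =
      μ (∑ s ∈ colStab Td, U fun y => T (e (.inr (s y))))
        (∑ c ∈ Fintype.piFinset (blockSols T e sb), V (colType (glueBlocks sb c))) := by
  classical
  simp only [map_sum, LinearMap.sum_apply]
  rw [sum_comm, ← sum_product']
  refine sum_bij (fun π hπ => ((exists_split hcorner hπ).choose,
      fun b (q : BCell sb b) => T (π (e (.inl q.1))))) (fun π hπ => ?_) (fun π hπ π' hπ' h => ?_)
    (fun sc hsc => ?_) fun π hπ => ?_
  · -- the pieces of a good rearrangement are admissible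
    obtain ⟨p, hs, hp⟩ := (exists_split hcorner hπ).choose_spec
    obtain ⟨hb, σ, hσb, hσ⟩ := blk_of_good hcorner hblk hS hπ
    obtain ⟨hcs, -⟩ := mem_filter.mp hπ
    rw [mem_product]
    refine ⟨?_, Fintype.mem_piFinset.mpr fun b => ?_⟩
    · simp only [colStab, mem_filter, mem_univ, true_and]
      funext y
      exact (hcol _ _).mp (by rw [← hs, colOf_perm hcs])
    · simp only [blockSols, mem_filter, mem_univ, true_and]
      refine ⟨fun q q' h1 h2 => ?_, fun q => ?_, fun t => ?_⟩
      · have := π.injective (row_col_injective T h2 (by rw [colOf_perm hcs, colOf_perm hcs, h1]))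
        exact Subtype.ext (by simpa using this)
      · refine ⟨⟨p q.1, ?_⟩, by rw [← hp, colOf_perm hcs], by rw [← hp]⟩
        rw [← hblk, ← hp, hb, q.2]
      · refine card_equiv (σ.subtypeEquiv (p := fun x => sb x = b) (q := fun x => sb x = b)
          fun x => by rw [hσb]) fun x => ?_
        simp only [mem_filter, mem_univ, true_and, Equiv.subtypeEquiv_apply, hσ]
        rfl
  · -- injectivity
    simp only [Prod.mk.injEq] at h
    obtain ⟨h1, h2⟩ := h
    obtain ⟨-, hs, -⟩ := (exists_split hcorner hπ).choose_spec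
    obtain ⟨-, hs', -⟩ := (exists_split hcorner hπ').choose_spec
    refine Equiv.ext fun z => ?_
    obtain ⟨w, rfl⟩ := e.surjective z
    rcases w with q | y
    · refine row_col_injective T ?_ (by
        rw [colOf_perm (mem_filter.mp hπ).1, colOf_perm (mem_filter.mp hπ').1])
      exact congrFun (congrFun h2 (sb q.1)) ⟨q, rfl⟩
    · rw [hs, hs', h1]
  · -- surjectivity
    obtain ⟨s, c⟩ := sc
    simp only [mem_product, Fintype.mem_piFinset, blockSols, mem_filter, mem_univ, true_and,
      colStab] at hsc
    obtain ⟨hs, hc⟩ := hsc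
    choose q' hq' using fun q : Fin k × Bool => (hc (sb q.1)).2.1 ⟨q, rfl⟩
    let p : Fin k × Bool → Fin k × Bool := fun q => (q' q).1
    have hpb : ∀ q, sb (p q).1 = sb q.1 := fun q => (q' q).2
    have hpinj : Function.Injective p := by
      intro q r h
      have hb : sb r.1 = sb q.1 := by rw [← hpb q, ← hpb r, h]
      have := (hc (sb q.1)).1 ⟨q, rfl⟩ ⟨r, hb⟩
        (by rw [← (hq' q).1, ← (hq' r).1]; exact congrArg (fun x => colOf T (e (.inl x))) h)
        (by
          rw [← glueBlocks_apply c (⟨q, rfl⟩ : BCell sb (sb q.1)),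
            ← glueBlocks_apply c (⟨r, hb⟩ : BCell sb (sb q.1)), glueBlocks, glueBlocks,
            ← (hq' q).2, ← (hq' r).2]
          exact congrArg (fun x => T (e (.inl x))) h)
      exact congrArg Subtype.val this
    let π : Perm (Fin n) := e.permCongr (Perm.sumCongr
      (Equiv.ofBijective p (Finite.injective_iff_bijective.mp hpinj)) s)
    have hπl : ∀ q, π (e (.inl q)) = e (.inl (p q)) := fun q => by
      simp [π, Equiv.permCongr_apply]
    have hπr : ∀ y, π (e (.inr y)) = e (.inr (s y)) := fun y => by
      simp [π, Equiv.permCongr_apply]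
    have hmem : π ∈ goodPerms T e := by
      simp only [goodPerms, colStab, mem_filter, mem_univ, true_and]
      refine ⟨funext fun z => ?_, fun t => ?_, ?_⟩
      · obtain ⟨w, rfl⟩ := e.surjective z
        rcases w with q | y
        · simp only [Function.comp_apply, hπl]
          exact (hq' q).1
        · simp only [Function.comp_apply, hπr]
          exact (hcol _ _).mpr (congrFun hs y)
      · rw [card_eq_sum_card_fiberwise (f := sb) (t := univ) fun x _ => mem_univ _,
          card_eq_sum_card_fiberwise (f := sb) (t := univ) fun x _ => mem_univ _]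
        refine sum_congr rfl fun b _ => ?_
        refine Eq.trans ?_ (((hc b).2.2 t).trans ?_)
        · refine (card_bij (fun x _ => x.1) (fun x hx => ?_) (fun x _ y _ h => Subtype.ext h)
            fun x hx => ?_).symm
          · simp only [mem_filter, mem_univ, true_and, pairType, hπl] at hx ⊢
            obtain ⟨x, rfl⟩ := x
            refine ⟨?_, rfl⟩
            rw [← hx]
            show s(T (e (.inl (q' (x, false)).1)), T (e (.inl (q' (x, true)).1))) = _
            rw [(hq' (x, false)).2, (hq' (x, true)).2]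
          · simp only [mem_filter, mem_univ, true_and, pairType, hπl] at hx
            obtain ⟨hx, rfl⟩ := hx
            refine ⟨⟨x, rfl⟩, ?_, rfl⟩
            simp only [mem_filter, mem_univ, true_and]
            rw [← hx]
            show _ = s(T (e (.inl (q' (x, false)).1)), T (e (.inl (q' (x, true)).1)))
            rw [(hq' (x, false)).2, (hq' (x, true)).2]
        · refine card_bij (fun x _ => x.1) (fun x hx => ?_) (fun x _ y _ h => Subtype.ext h)
            fun x hx => ?_
          · simp only [mem_filter, mem_univ, true_and] at hx ⊢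
            exact ⟨hx, x.2⟩
          · simp only [mem_filter, mem_univ, true_and] at hx
            exact ⟨⟨x, hx.2⟩, by simp [hx.1], rfl⟩
      · funext i
        refine card_equiv s fun y => ?_
        simp [hπr]
    refine ⟨π, hmem, Prod.ext ?_ ?_⟩
    · obtain ⟨-, hs', -⟩ := (exists_split hcorner hmem).choose_spec
      exact Equiv.ext fun y => by simpa using (hs' y).symm.trans (hπr y)
    · funext b
      funext q
      obtain ⟨q, rfl⟩ := q
      show T (π (e (.inl q))) = _
      rw [hπl]
      exact (hq' q).2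
  · obtain ⟨p, hs, -⟩ := (exists_split hcorner hπ).choose_spec
    exact congrArg (fun u => μ (U u) (V (pairType T e π))) (funext fun y => congrArg T (hs y))

end Vale.Agent.P197.Colour
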