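import Vale.Agent.P197.Colour.Product
import Vale.Agent.P197.Colour.Split
import Vale.Agent.P197.Covering.Defs

/-!
# Layout data

A layout splits the cells of the staircase tableau into the corner, left for the core, and pairs
grouped in blocks, with a merging of pair types into three labels per block.  The block vectors
reduce to a standard labelling, whose classes match a list of pieces.
-/

open Finset Equiv

namespace Vale.Agent.P197.Colour

open SymChar Criterion Covering

/-- The vector of a block: its solutions, read as labellings of its slots. -/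
noncomputable def blockVec {n k f B : ℕ} (T : Fin n → Fin n)
    (e : (Fin k × Bool) ⊕ Fin f ≃ Fin n) (sb : Fin k → Fin B)
    (merge : Fin B → Sym2 (Fin n) → Fin 3) (b : Fin B) : Vec {x // sb x = b} (Fin 3) :=
  ∑ c ∈ blockSols T e sb b, Finsupp.single
    (fun x => merge b s(c ⟨(x.1, false), x.2⟩, c ⟨(x.1, true), x.2⟩)) 1

/-- Everything needed to turn a good vector for `ps` into a functional on colourings. -/
structure LayoutData {n : ℕ} (T : Fin n → Fin n) (d : ℕ) (ps : List Piece) where
  /-- Number of blocks. -/
  B : ℕ
  /-- The cells. -/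
  e : (Fin (total ps) × Bool) ⊕ Fin (tri d) ≃ Fin n
  /-- The block of a row, for paired cells. -/
  blk : Fin n → Fin B
  /-- The block of a pair. -/
  sb : Fin (total ps) → Fin B
  hrow : ∀ y, (T (e (.inr y)) : ℕ) = tableau (staircase d) y
  hcorner : ∀ z, (∃ y, e (.inr y) = z) ↔ colOf T z + (T z : ℕ) < d
  hcol : ∀ y y', colOf T (e (.inr y)) = colOf T (e (.inr y')) ↔
    colOf (tableau (staircase d)) y = colOf (tableau (staircase d)) y'
  hblk : ∀ p : Fin (total ps) × Bool, blk (T (e (.inl p))) = sb p.1
  hS : ∀ x y, sb x < sb y →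
    colOf T (e (.inl (y, false))) + colOf T (e (.inl (y, true))) <
      colOf T (e (.inl (x, false))) + colOf T (e (.inl (x, true)))
  /-- The label of a pair type inside a block. -/
  merge : Fin B → Sym2 (Fin n) → Fin 3
  /-- The labelling to which the block vectors reduce. -/
  E : Fin (total ps) → Fin 3
  /-- The gadget blocks. -/
  G : Finset (Fin B)
  /-- The chain of each block. -/
  Q : Fin B → List (Fin 3)
  hQ : ∀ b, Q b = [] ∨ (b ∈ G ∧ (∃ s, Starts s (Q b)) ∧
    ∀ c c', #{x : {x // sb x = b} | E x.1 = c} = #{x : {x // sb x = b} | E x.1 = c'})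
  hgen : ∀ b, qop (Q b) (fun x : {x // sb x = b} => E x.1) ∈ gen (blockVec T e sb merge b)
  /-- The position of a label among the pieces. -/
  κ : Fin B × Fin 3 → ℕ × ℕ
  hκ : Function.Injective κ
  /-- The slots as points of the pieces. -/
  ψ : Perm (Fin (total ps))
  hψ : ∀ x, layCls ps (ψ x) = κ (sb x, E x)
  hG : ∀ b ∈ G, ∃ g ∈ layGs ps, ∀ x,
    layCls ps (g (ψ x)) = κ (onBlock b (· + 1) (sb x, E x))

end Vale.Agent.P197.Colour
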