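import Vale.Agent.P197.Colour.Reduce

/-!
# The layout of a staircase

The corner of side `d` holds the core; the rows outside it form blocks whose local models transport
to the block vectors of the layout.
-/

open Finset Equiv

namespace Vale.Agent.P197.Colour

open SymChar Criterion Covering

/-- A block vector is the vector of its local model. -/
lemma blockVec_eq {n k f B : ℕ} {T : Fin n → Fin n} {e : (Fin k × Bool) ⊕ Fin f ≃ Fin n}
    {sb : Fin k → Fin B} {merge : Fin B → Sym2 (Fin n) → Fin 3} {b : Fin B} (M : Model)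
    (φ : M.S ≃ {x // sb x = b}) (r : Fin M.R → Fin n) (hr : Function.Injective r) (c₀ : ℕ)
    (hT : ∀ s β, T (e (.inl ((φ s).1, β))) = r (M.row (s, β)))
    (hC : ∀ s β, colOf T (e (.inl ((φ s).1, β))) = c₀ + M.col (s, β))
    (hm : ∀ t, merge b (Sym2.map r t) = M.mrg t) :
    blockVec T e sb merge b = reindex φ.symm M.vec := by
  classical
  let ψ : BCell sb b ≃ M.S × Bool :=
    { toFun := fun p => (φ.symm ⟨p.1.1, p.2⟩, p.1.2)
      invFun := fun z => ⟨((φ z.1).1, z.2), (φ z.1).2⟩
      left_inv := fun p => by simp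
      right_inv := fun z => by simp }
  have hT' : ∀ p : BCell sb b, T (e (.inl p.1)) = r (M.row (ψ p)) := fun p => by
    obtain ⟨z, rfl⟩ := ψ.symm.surjective p
    rw [Equiv.apply_symm_apply]
    exact hT z.1 z.2
  have hC' : ∀ p : BCell sb b, colOf T (e (.inl p.1)) = c₀ + M.col (ψ p) := fun p => by
    obtain ⟨z, rfl⟩ := ψ.symm.surjective p
    rw [Equiv.apply_symm_apply]
    exact hC z.1 z.2
  -- the type counts correspond
  have hcount : ∀ (c : M.S × Bool → Fin M.R) t,
      #{x : {x // sb x = b} | s(r (c (ψ ⟨(x.1, false), x.2⟩)), r (c (ψ ⟨(x.1, true), x.2⟩))) =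
        Sym2.map r t} = #{x | M.type c x = t} := by
    intro c t
    refine card_equiv φ.symm fun x => ?_
    rw [mem_filter, mem_filter]
    exact ⟨fun h => ⟨mem_univ _, Sym2.map.injective hr h.2⟩,
      fun h => ⟨mem_univ _, (congrArg (Sym2.map r) h.2 :)⟩⟩
  have href : ∀ x : {x // sb x = b}, pairType T e 1 x.1 =
      s(r (M.row (ψ ⟨(x.1, false), x.2⟩)), r (M.row (ψ ⟨(x.1, true), x.2⟩))) := fun x => by
    simp only [pairType, Perm.one_apply]
    rw [hT' ⟨(x.1, false), x.2⟩, hT' ⟨(x.1, true), x.2⟩]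
  rw [blockVec, Model.vec, map_sum]
  simp only [reindex_single]
  symm
  refine Finset.sum_bij (fun c _ => fun p => r (c (ψ p))) (fun c hc => ?_) (fun c _ c' _ h => ?_)
    (fun c hc => ?_) fun c _ => ?_
  · simp only [Model.sols, mem_filter, mem_univ, true_and] at hc
    simp only [blockSols, mem_filter, mem_univ, true_and]
    refine ⟨fun p q h h' => ψ.injective (hc.1.1 _ _ ?_ (hr h')), fun p => ?_, fun t => ?_⟩
    · rw [hC', hC'] at h; omega
    · obtain ⟨z, h1, h2⟩ := hc.1.2 (ψ p)
      refine ⟨ψ.symm z, ?_, ?_⟩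
      · rw [hC', hC', Equiv.apply_symm_apply, h1]
      · rw [hT', Equiv.apply_symm_apply, h2]
    · simp only [href]
      by_cases ht : ∃ t' : Sym2 (Fin M.R), Sym2.map r t' = t
      · obtain ⟨t', rfl⟩ := ht
        rw [hcount, hcount, hc.2]
      · have h0 : ∀ g : M.S × Bool → Fin M.R, #{x : {x // sb x = b} |
            s(r (g (ψ ⟨(x.1, false), x.2⟩)), r (g (ψ ⟨(x.1, true), x.2⟩))) = t} = 0 := by
          intro g
          rw [card_eq_zero, filter_eq_empty_iff]
          exact fun x _ h => ht ⟨s(g (ψ ⟨(x.1, false), x.2⟩), g (ψ ⟨(x.1, true), x.2⟩)), h⟩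
        rw [h0, h0]
  · funext z
    have := congrFun h (ψ.symm z)
    simp only [Equiv.apply_symm_apply] at this
    exact hr this
  · simp only [blockSols, mem_filter, mem_univ, true_and] at hc
    choose q hq1 hq2 using hc.2.1
    let g : M.S × Bool → Fin M.R := fun z => M.row (ψ (q (ψ.symm z)))
    have hg : (fun p => r (g (ψ p))) = c := funext fun p => by
      show r (M.row (ψ (q (ψ.symm (ψ p))))) = c p
      rw [Equiv.symm_apply_apply, ← hT', hq2]
    refine ⟨g, ?_, hg⟩
    simp only [Model.sols, mem_filter, mem_univ, true_and]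
    refine ⟨⟨fun z z' h h' => ψ.symm.injective (hc.1 _ _ ?_ ?_), fun z => ⟨_, ?_, rfl⟩⟩, fun t => ?_⟩
    · rw [hC', hC', Equiv.apply_symm_apply, Equiv.apply_symm_apply, h]
    · rw [← hg]; simp only [Equiv.apply_symm_apply, h']
    · have := hq1 (ψ.symm z)
      rw [hC', hC', Equiv.apply_symm_apply] at this
      omega
    · have := hc.2.2 (Sym2.map r t)
      rw [← hg] at this
      simp only [href] at this
      rwa [hcount, hcount] at this
  · congr 1
    funext x
    show M.mrg s(c (φ.symm x, false), c (φ.symm x, true)) =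
      merge b s(r (c (ψ ⟨(x.1, false), x.2⟩)), r (c (ψ ⟨(x.1, true), x.2⟩)))
    rw [← hm]
    rfl

/-- Lower bound for the column sum of a slot. -/
def Kind.low : Kind → ℕ
  | .none => 0
  | .single q => 2 * q - 1
  | .eq p => 2 * p
  | .gad p => 2 * p - 2

/-- Upper bound for the column sum of a slot. -/
def Kind.high : Kind → ℕ
  | .none => 0
  | .single q => 2 * q - 1
  | .eq p => 2 * p + 2
  | .gad p => 2 * p

/-- The column sums of the slots. -/
lemma Kind.sum_bounds : ∀ (K : Kind) (s : K.model.S),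
    K.low ≤ K.model.col (s, false) + K.model.col (s, true) ∧
      K.model.col (s, false) + K.model.col (s, true) ≤ K.high ∧ K ≠ .none ∧
        (∀ q, K = .single q → 1 ≤ q)
  | .none, s => s.elim
  | .single q, (s : Fin q) => by
    have := s.isLt
    refine ⟨?_, ?_, nofun, fun q' h => by cases h; omega⟩ <;>
      · show _ ≤ _
        simp [Kind.low, Kind.high]
        omega
  | .eq p, (s : ESlot p) => by
    refine ⟨?_, ?_, nofun, nofun⟩ <;> rcases s with i | i <;>
      have := i.isLt <;> simp only [Kind.low, Kind.high, eCol, eEnd] <;> (try split_ifs) <;>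
      (try simp at *) <;> omega
  | .gad p, (s : GSlot p) => by
    refine ⟨?_, ?_, nofun, nofun⟩ <;> rcases s with i | i | i <;>
      have := i.isLt <;> simp only [Kind.low, Kind.high, gEnd] <;> (try split_ifs) <;>
      (try simp at *) <;> omega

/-- Lower blocks have smaller column sums. -/
lemma sum_lt {m d u u' : ℕ} (hd : d ≤ m) (h : Even (tri m - tri d)) (hu : u < u')
    (h1 : kind m d u ≠ .none) (h1' : kind m d u' ≠ .none)
    (h2 : ∀ q, kind m d u = .single q → 1 ≤ q) :
    2 * base m d u' + (kind m d u').high < 2 * base m d u + (kind m d u).low := by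
  obtain ⟨K, E, G, hK, hE, hG, g1, g2, g3, g4, g5, g6⟩ := params hd h
  rcases kind_spec hd h u with e | ⟨q, e, hb, a1, a2, a3⟩ | ⟨p, e, hb, a1, a2, a3, a4, a5⟩ |
    ⟨p, e, hb, a1, a2, a3, a4, a5⟩ <;> rw [e] <;>
  rcases kind_spec hd h u' with e' | ⟨q', e', hb', b1, b2, b3⟩ |
    ⟨p', e', hb', b1, b2, b3, b4, b5⟩ | ⟨p', e', hb', b1, b2, b3, b4, b5⟩ <;>
  first
  | exact absurd e h1
  | exact absurd e' h1'
  | (have := fun h' => h2 q h'; rw [e', hb, hb']; simp only [Kind.low, Kind.high, hE, hG] at *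
     have := this e; omega)
  | (rw [e', hb, hb']; simp only [Kind.low, Kind.high, hE, hG] at *; omega)

lemma slot_class_lt (K : Kind) (c : Fin 3) {o a s : ℕ} (h : K.slot c = some (o, a, s)) : a < 3 := by
  cases K <;> simp only [Kind.slot] at h <;> (try split_ifs at h) <;>
    (try simp only [Option.some.injEq, Prod.mk.injEq] at h) <;>
    first | simp at h | (have := c.isLt; omega)

/-- The position of a label among the pieces. -/
def key (m d : ℕ) (x : Fin (m + 1) × Fin 3) : ℕ × ℕ :=
  match (kind m d x.1).slot x.2 with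
  | some t => (pos m d x.1 + t.1, t.2.1)
  | none => (3 * x.1 + x.2, 7)

lemma key_injective {m d : ℕ} (hd : d ≤ m) (h : Even (tri m - tri d)) :
    Function.Injective (key m d) := by
  rintro ⟨u, c⟩ ⟨u', c'⟩ he
  simp only [key] at he
  rcases h1 : (kind m d u).slot c with _ | ⟨o, a, s⟩ <;>
    rcases h2 : (kind m d u').slot c' with _ | ⟨o', a', s'⟩ <;>
    rw [h1, h2] at he <;> simp only [Prod.mk.injEq] at he
  · have := c.isLt
    have := c'.isLt
    exact Prod.ext (Fin.ext (show (u : ℕ) = u' by omega))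
      (Fin.ext (show (c : ℕ) = c' by omega))
  · have := slot_class_lt _ _ h2; omega
  · have := slot_class_lt _ _ h1; omega
  · obtain ⟨e1, e2⟩ := slot_inj hd h h1 h2 he.1
    exact Prod.ext (Fin.ext e1) (e2 he.2)

/-- **The layout.** -/
theorem exists_layoutData {n m d : ℕ} {r : n.Partition} (hr : ∀ i, row r i = m - i) (hm : m ≤ n)
    (hd : d ≤ m) (hpar : Even (tri m - tri d)) :
    Nonempty (LayoutData (tableau r) d (pieces (topList m d) (layK m d))) ∧
      total (pieces (topList m d) (layK m d)) * 2 + tri d = n := by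
  classical
  set T := tableau r
  set Td := tableau (staircase d)
  set ps := pieces (topList m d) (layK m d)
  have hT : IsTableau r T := (exists_isTableau r).choose_spec
  have hTd : IsTableau (staircase d) Td := (exists_isTableau (staircase d)).choose_spec
  have hcell : ∀ z, (T z : ℕ) + colOf T z < m := fun z => by
    have := (exists_cell hT (T z) (colOf T z)).mp ⟨z, rfl, rfl⟩
    rw [hr] at this; omega
  have hTd_lt : ∀ y, (Td y : ℕ) + colOf Td y < d := fun y => by
    have := (exists_cell hTd (Td y) (colOf Td y)).mp ⟨y, rfl, rfl⟩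
    rw [row_staircase] at this; omega
  have hex : ∀ v j, v + j < m → ∃ z, (T z : ℕ) = v ∧ colOf T z = j := fun v j hvj => by
    obtain ⟨z, h1, h2⟩ := (exists_cell hT (⟨v, by omega⟩ : Fin n) j).mpr (by rw [hr]; show j < m - v; omega)
    exact ⟨z, congrArg Fin.val h1, h2⟩
  choose cell hcellT hcellC using hex
  -- the local data
  let Kd : Fin (m + 1) → Kind := fun u => kind m d u
  have hok : ∀ u, (Kd u).Ok := fun u => kind_ok hd hpar u
  have hcells := fun u => Kind.cells (Kd u) (hok u)
  choose Eu Qu hgen hcnt hQ using fun u => Kind.exists_reduce (Kd u) (hok u)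
  -- slots and points
  let lab : (Σ u, (Kd u).model.S) → Fin (m + 1) × Fin 3 := fun x => (x.1, Eu x.1 x.2)
  have hfib : ∀ u c, #{x | lab x = (u, c)} = #{s | Eu u s = c} := by
    intro u c
    symm
    refine card_bij (fun s _ => ⟨u, s⟩) (fun s hs => ?_) (fun s _ s' _ h => ?_) fun x hx => ?_
    · simp only [mem_filter, mem_univ, true_and] at hs ⊢
      exact Prod.ext rfl hs
    · simpa using h
    · obtain ⟨u', s⟩ := x
      simp only [mem_filter, mem_univ, true_and, lab, Prod.mk.injEq] at hx
      obtain ⟨rfl, hx⟩ := hx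
      exact ⟨s, by simpa using hx, rfl⟩
  have hslot : ∀ x, ∃ o a s, (Kd (lab x).1).slot (lab x).2 = some (o, a, s) := by
    intro x
    have hpos : 0 < #{s | Eu x.1 s = (lab x).2} := card_pos.mpr ⟨x.2, by simp [lab]⟩
    rw [hcnt] at hpos
    rcases hs : (Kd (lab x).1).slot (lab x).2 with _ | ⟨o, a, s⟩
    · rw [show (Kd x.1).slot (lab x).2 = none from hs] at hpos; simp at hpos
    · exact ⟨o, a, s, rfl⟩
  have hkey : ∀ v, #{x | key m d (lab x) = v} = clsAt ps v.1 v.2 := by
    intro v
    by_cases hv : ∃ uc, key m d uc = v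
    · obtain ⟨⟨u, c⟩, rfl⟩ := hv
      have : #{x | key m d (lab x) = key m d (u, c)} = #{x | lab x = (u, c)} :=
        congrArg card (filter_congr fun x _ => (key_injective hd hpar).eq_iff)
      rw [this, hfib, hcnt]
      simp only [key]
      rcases hs : (Kd u).slot c with _ | ⟨o, a, s⟩
      · simp only [Option.elim, clsAt]
        rcases ps[3 * (u : ℕ) + (c : ℕ)]? with _ | (q | p) <;> simp [Option.elim, clsSize]
      · exact (slot_size hd hpar hs).symm
    · have h0 : #{x | key m d (lab x) = v} = 0 := by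
        rw [card_eq_zero, filter_eq_empty_iff]
        exact fun x _ h => hv ⟨_, h⟩
      rw [h0]
      by_contra hne
      obtain ⟨u, hu, c, o, s, hs, hi⟩ := slot_surj hd hpar (Ne.symm hne)
      refine hv ⟨(⟨u, by omega⟩, c), ?_⟩
      simp only [key, hs]
      exact Prod.ext hi.symm rfl
  let idx : Fin (total ps) ≃ Σ u, (Kd u).model.S :=
    Equiv.ofFiberEquiv (f := layCls ps) (g := fun x => key m d (lab x)) fun v =>
      Fintype.equivOfCardEq (by
        rw [Fintype.card_subtype, Fintype.card_subtype, hkey, ← card_layCls])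
  have hidx : ∀ x, key m d (lab (idx x)) = layCls ps x := fun x => Equiv.ofFiberEquiv_map (f := layCls ps) (g := fun x => key m d (lab x)) _ x
  -- the cells
  have hcl : ∀ (x : Σ u, (Kd u).model.S) (β : Bool),
      (x.1 : ℕ) + ((Kd x.1).model.row (x.2, β) : ℕ) +
          (base m d x.1 + (Kd x.1).model.col (x.2, β)) < m ∧
        d ≤ (x.1 : ℕ) + ((Kd x.1).model.row (x.2, β) : ℕ) +
          (base m d x.1 + (Kd x.1).model.col (x.2, β)) ∧
        start m d ((x.1 : ℕ) + ((Kd x.1).model.row (x.2, β) : ℕ)) = x.1 :=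
    fun x β => shape_cell hd hpar ((hcells x.1).1 (x.2, β))
  let Fl : (Σ u, (Kd u).model.S) × Bool → Fin n := fun z =>
    cell ((z.1.1 : ℕ) + ((Kd z.1.1).model.row (z.1.2, z.2) : ℕ))
      (base m d z.1.1 + (Kd z.1.1).model.col (z.1.2, z.2)) (hcl z.1 z.2).1
  let Fr : Fin (tri d) → Fin n := fun y =>
    cell (Td y) (colOf Td y) (by have := hTd_lt y; omega)
  have hFlT : ∀ z, (T (Fl z) : ℕ) = (z.1.1 : ℕ) + ((Kd z.1.1).model.row (z.1.2, z.2) : ℕ) :=
    fun z => hcellT _ _ _
  have hFlC : ∀ z, colOf T (Fl z) = base m d z.1.1 + (Kd z.1.1).model.col (z.1.2, z.2) :=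
    fun z => hcellC _ _ _
  have hFrT : ∀ y, (T (Fr y) : ℕ) = Td y := fun y => hcellT _ _ _
  have hFrC : ∀ y, colOf T (Fr y) = colOf Td y := fun y => hcellC _ _ _
  have hFl_inj : Function.Injective Fl := by
    rintro ⟨⟨u, s⟩, β⟩ ⟨⟨u', s'⟩, β'⟩ h
    have h1 := hFlT (⟨u, s⟩, β)
    have h2 := hFlC (⟨u, s⟩, β)
    rw [h, hFlT] at h1
    rw [h, hFlC] at h2
    have e1 := (hcl ⟨u, s⟩ β).2.2
    have e2 := (hcl ⟨u', s'⟩ β').2.2
    simp only at h1 h2 e1 e2
    rw [← h1, e2] at e1
    obtain rfl : u' = u := Fin.ext e1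
    have := (hcells u').2.2 (s', β') (s, β) (Fin.ext (by omega)) (by omega)
    simp only [Prod.mk.injEq] at this
    rw [this.1, this.2]
  let F : (Fin (total ps) × Bool) ⊕ Fin (tri d) → Fin n :=
    Sum.elim (fun q => Fl (idx q.1, q.2)) Fr
  have hFinj : Function.Injective F := by
    rintro (⟨x, β⟩ | y) (⟨x', β'⟩ | y') h <;> simp only [F, Sum.elim_inl, Sum.elim_inr] at h
    · have := hFl_inj h
      simp only [Prod.mk.injEq, EmbeddingLike.apply_eq_iff_eq] at this
      rw [this.1, this.2]
    · have h1 := (hcl (idx x) β).2.1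
      have h2 := hTd_lt y'
      rw [← hFlT (idx x, β), ← hFlC (idx x, β), h, hFrT, hFrC] at h1
      omega
    · have h1 := (hcl (idx x') β').2.1
      have h2 := hTd_lt y
      rw [← hFlT (idx x', β'), ← hFlC (idx x', β'), ← h, hFrT, hFrC] at h1
      omega
    · refine congrArg _ (row_col_injective Td ?_ ?_)
      · exact Fin.ext (by rw [← hFrT, ← hFrT, h])
      · rw [← hFrC, ← hFrC, h]
  have hFsurj : Function.Surjective F := by
    intro z
    have hz := hcell z
    rcases lt_or_ge ((T z : ℕ) + colOf T z) d with hlt | hge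
    · have hv : (T z : ℕ) < tri d := by have := le_tri d; omega
      obtain ⟨y, h1, h2⟩ := (exists_cell hTd ⟨T z, hv⟩ (colOf T z)).mpr
        (by rw [row_staircase]; show colOf T z < d - (T z : ℕ); omega)
      refine ⟨.inr y, row_col_injective T (Fin.ext ?_) ?_⟩
      · show (T (Fr y) : ℕ) = _
        rw [hFrT, h1]
      · show colOf T (Fr y) = _
        rw [hFrC, h2]
    · obtain ⟨h1, h2, h3⟩ := shape_cover hd hpar hz hge
      let u : Fin (m + 1) := ⟨start m d (T z), by omega⟩
      obtain ⟨⟨s, β⟩, h4, h5⟩ := (hcells u).2.1 _ _ h3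
      refine ⟨.inl (idx.symm ⟨u, s⟩, β), row_col_injective T (Fin.ext ?_) ?_⟩
      · show (T (Fl (idx (idx.symm ⟨u, s⟩), β)) : ℕ) = _
        rw [Equiv.apply_symm_apply, hFlT]
        show start m d (T z) + _ = _
        rw [h4]
        omega
      · show colOf T (Fl (idx (idx.symm ⟨u, s⟩), β)) = _
        rw [Equiv.apply_symm_apply, hFlC]
        show base m d (start m d (T z)) + _ = _
        rw [h5]
        omega
  let e : (Fin (total ps) × Bool) ⊕ Fin (tri d) ≃ Fin n := Equiv.ofBijective F ⟨hFinj, hFsurj⟩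
  have hel : ∀ q : Fin (total ps) × Bool, e (.inl q) = Fl (idx q.1, q.2) := fun q => rfl
  have her : ∀ y, e (.inr y) = Fr y := fun y => rfl
  refine ⟨⟨?_⟩, by simpa [Fintype.card_sum, Fintype.card_prod] using Fintype.card_congr e⟩
  -- the blocks
  let sb : Fin (total ps) → Fin (m + 1) := fun x => (idx x).1
  let merge : Fin (m + 1) → Sym2 (Fin n) → Fin 3 := fun u t =>
    if h : ∃ t' : Sym2 (Fin (Kd u).model.R),
      Sym2.map (fun i : Fin (Kd u).model.R => (u : ℕ) + (i : ℕ)) t' = Sym2.map Fin.val t then (Kd u).model.mrg h.choose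
    else 0
  let φ : ∀ u, (Kd u).model.S ≃ {x // sb x = u} := fun u => Equiv.ofBijective
    (fun s => ⟨idx.symm ⟨u, s⟩, by simp [sb]⟩)
    ⟨fun s s' h => by simpa using congrArg Subtype.val h, fun x => by
      obtain ⟨x, rfl⟩ := x
      exact ⟨(idx x).2, Subtype.ext (idx.symm_apply_apply x)⟩⟩
  have hφ : ∀ u s, idx (φ u s).1 = ⟨u, s⟩ := fun u s => idx.apply_symm_apply _
  have hEφ : ∀ u, (fun x : {x // sb x = u} => (lab (idx x.1)).2) = Eu u ∘ (φ u).symm := by
    intro u
    funext x
    obtain ⟨s, rfl⟩ := (φ u).surjective x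
    rw [Function.comp_apply, Equiv.symm_apply_apply]
    show (lab (idx (φ u s).1)).2 = _
    rw [hφ]
  have hcountE : ∀ u c, #{x : {x // sb x = u} | (lab (idx x.1)).2 = c} = #{s | Eu u s = c} := by
    intro u c
    refine card_equiv (φ u).symm fun x => ?_
    simp only [mem_filter, mem_univ, true_and]
    rw [show (lab (idx x.1)).2 = _ from congrFun (hEφ u) x]
    rfl
  refine
    { B := m + 1
      e := e
      blk := fun v => ⟨min (start m d v) m, by omega⟩
      sb := sb
      hrow := fun y => by rw [her, hFrT]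
      hcorner := fun z => ?_
      hcol := fun y y' => by rw [her, her, hFrC, hFrC]
      hblk := fun p => ?_
      hS := fun x y hxy => ?_
      merge := merge
      E := fun x => (lab (idx x)).2
      G := {u | ∃ p, Kd u = .gad p}
      Q := Qu
      hQ := fun u => ?_
      hgen := fun u => ?_
      κ := key m d
      hκ := key_injective hd hpar
      ψ := 1
      hψ := fun x => (hidx x).symm
      hG := fun u hu => ?_ }
  · constructor
    · rintro ⟨y, rfl⟩
      rw [her, hFrC, hFrT]
      have := hTd_lt y; omega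
    · intro hz
      obtain ⟨w, rfl⟩ := e.surjective z
      rcases w with q | y
      · exfalso
        rw [hel, hFlC, hFlT] at hz
        have := (hcl (idx q.1) q.2).2.1
        simp only at hz
        omega
      · exact ⟨y, rfl⟩
  · apply Fin.ext
    show min (start m d (T (e (.inl p)) : ℕ)) m = ((idx p.1).1 : ℕ)
    rw [hel, hFlT, (hcl (idx p.1) p.2).2.2]
    have := (idx p.1).1.isLt
    omega
  · obtain ⟨hx1, hx2, hx3, hx4⟩ := Kind.sum_bounds (Kd (idx x).1) (idx x).2
    obtain ⟨hy1, hy2, hy3, -⟩ := Kind.sum_bounds (Kd (idx y).1) (idx y).2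
    have hlt := sum_lt hd hpar (u := (idx x).1) (u' := (idx y).1) hxy hx3 hy3 hx4
    rw [hel, hel, hel, hel, hFlC, hFlC, hFlC, hFlC]
    simp only [Kd] at *
    omega
  · rcases hQ u with hQ0 | ⟨p, hp, s, hs⟩
    · exact Or.inl hQ0
    · refine Or.inr ⟨mem_filter.mpr ⟨mem_univ _, p, hp⟩, ⟨s, hs⟩, fun c c' => ?_⟩
      rw [hcountE, hcountE, hcnt, hcnt, hp]
      rfl
  · show qop (Qu u) (fun x : {x // sb x = u} => (lab (idx x.1)).2) ∈ gen (blockVec T e sb merge u)
    have hR : ∀ i : Fin (Kd u).model.R, (u : ℕ) + (i : ℕ) < n := fun i => by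
      have := rows_lt hd hpar (u := u) i.isLt; omega
    rw [hEφ, blockVec_eq (Kd u).model (φ u) (fun i => ⟨_, hR i⟩)
      (fun i j h => Fin.ext (by simpa using congrArg Fin.val h)) (base m d u)
      (fun s β => Fin.ext (by rw [hel, hFlT]; show _ = (u : ℕ) + _; rw [hφ]))
      (fun s β => by rw [hel, hFlC]; show _ = base m d u + _; rw [hφ]) (fun t => ?_),
      ← qop_reindex]
    · exact reindex_mem_gen _ (hgen u)
    · have h : ∃ t' : Sym2 (Fin (Kd u).model.R), Sym2.map (fun i : Fin (Kd u).model.R => (u : ℕ) + (i : ℕ)) t' =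
          Sym2.map Fin.val (Sym2.map (fun i => (⟨_, hR i⟩ : Fin n)) t) :=
        ⟨t, by rw [Sym2.map_map]; rfl⟩
      simp only [merge, dif_pos h]
      congr 1
      refine Sym2.map.injective (fun i j hij => Fin.ext (by simpa using hij)) (h.choose_spec.trans ?_)
      rw [Sym2.map_map]
      rfl
  · obtain ⟨p, hp⟩ := (mem_filter.mp hu).2
    have hp' : kind m d u = .gad p := hp
    have hp0 : 0 < p := by have := hok u; rw [hp] at this; exact this
    have hsz : ∀ c : Fin 3, clsAt ps (pos m d u) c = p := fun c => by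
      have := slot_size hd hpar (u := u) (c := c) (o := 0) (a := c) (s := p) (by rw [hp']; rfl)
      simpa using this
    obtain hps : ps[pos m d u]? = some (.gadget p) := by
      have h0 := hsz 0
      have h1 := hsz 1
      simp only [clsAt] at h0 h1
      rcases hq : ps[pos m d u]? with _ | (q | p') <;> rw [hq] at h0 h1 <;>
        simp [clsSize] at h0 h1 <;> first | omega | (rw [h0])
    obtain ⟨g, hg, hg'⟩ := exists_gadget_perm ps _ p hps
    refine ⟨g, hg, fun x => ?_⟩
    rw [Perm.one_apply, hg', ← hidx]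
    show (if (key m d (lab (idx x))).1 = pos m d u then _ else _) =
      key m d (onBlock u (· + 1) (lab (idx x)))
    obtain ⟨o, a, s, hs⟩ := hslot (idx x)
    generalize lab (idx x) = uc at hs
    obtain ⟨u', c⟩ := uc
    have hk : key m d (u', c) = (pos m d u' + o, a) := by
      simp only [key, show (kind m d u').slot c = _ from hs]
    by_cases huu : u' = u
    · subst huu
      have h2 : some (0, (c : ℕ), p) = some (o, a, s) := by
        rw [← hs, hp]; rfl
      simp only [Option.some.injEq, Prod.mk.injEq] at h2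
      rw [hk, ← h2.1, ← h2.2.1, if_pos (by simp)]
      simp [onBlock, key, hp', Kind.slot, Fin.val_add]
    · rw [hk, if_neg ?_]
      · simp [onBlock, huu, hk]
      · intro he
        refine huu (Fin.ext (slot_inj hd hpar hs (c' := 0) (o' := 0) (a' := 0) (s' := p)
          (by rw [hp']; rfl) (by simpa using he)).1)

end Vale.Agent.P197.Colour
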