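import Vale.Agent.P197.Colour.Blocks
import Vale.Agent.P197.Colour.Layout

/-!
# Local models of the blocks

A block is one of four shapes: empty, one row of even length, two rows of length `2 p + 1`, or
three rows of lengths `2 p + 1, 2 p, 2 p - 1`.  Its slots have two ends each, with a row and a
column inside the block.
-/

open Finset Equiv

namespace Vale.Agent.P197.Colour

open SymChar Criterion Covering

/-- A block shape with its slots. -/
structure Model where
  /-- Number of rows. -/
  R : ℕ
  /-- The slots. -/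
  S : Type
  [fintypeS : Fintype S]
  [decEqS : DecidableEq S]
  /-- The row of an end. -/
  row : S × Bool → Fin R
  /-- The column of an end. -/
  col : S × Bool → ℕ
  /-- The label of a type. -/
  mrg : Sym2 (Fin R) → Fin 3

attribute [instance] Model.fintypeS Model.decEqS

namespace Model

variable (M : Model)

/-- Colourings injective on columns using in each column only rows present there. -/
def Valid (c : M.S × Bool → Fin M.R) : Prop :=
  (∀ z z', M.col z = M.col z' → c z = c z' → z = z') ∧
    ∀ z, ∃ z', M.col z' = M.col z ∧ M.row z' = c z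

instance (c : M.S × Bool → Fin M.R) : Decidable (M.Valid c) := by unfold Valid; infer_instance

/-- The type of a slot. -/
def type (c : M.S × Bool → Fin M.R) (x : M.S) : Sym2 (Fin M.R) := s(c (x, false), c (x, true))

/-- The colourings with the type counts of the rows. -/
def sols : Finset (M.S × Bool → Fin M.R) :=
  {c | M.Valid c ∧ ∀ t, #{x | M.type c x = t} = #{x | M.type M.row x = t}}

/-- The vector of the block. -/
noncomputable def vec : Vec M.S (Fin 3) :=
  ∑ c ∈ M.sols, Finsupp.single (fun x => M.mrg (M.type c x)) 1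

end Model

/-- The kinds of blocks. -/
inductive Kind
  | none
  | single (q : ℕ)
  | eq (p : ℕ)
  | gad (p : ℕ)

/-- No slots. -/
abbrev noneModel : Model :=
  { R := 0
    S := Empty
    row := fun z => z.1.elim
    col := fun z => z.1.elim
    mrg := fun _ => 0 }

/-- One row of length `2 q`. -/
abbrev singleModel (q : ℕ) : Model :=
  { R := 1
    S := Fin q
    row := fun _ => 0
    col := fun z => if z.2 then 2 * q - 1 - z.1 else z.1
    mrg := fun _ => 0 }

/-- Two rows of length `2 p + 1`. -/
abbrev eqModel (p : ℕ) : Model :=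
  { R := 2
    S := ESlot p
    row := fun z => (eEnd p z.1 z.2).1
    col := fun z => eCol p (eEnd p z.1 z.2)
    mrg := fun t => Fin.castSucc (eMerge t) }

/-- Three rows of lengths `2 p + 1, 2 p, 2 p - 1`. -/
abbrev gadModel (p : ℕ) : Model :=
  { R := 3
    S := GSlot p
    row := fun z => (gEnd p z.1 z.2).1.1
    col := fun z => (gEnd p z.1 z.2).1.2
    mrg := gMerge }

/-- The model of a kind. -/
abbrev Kind.model : Kind → Model
  | .none => noneModel
  | .single q => singleModel q
  | .eq p => eqModel p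
  | .gad p => gadModel p

/-- The gadget shapes need a positive parameter. -/
def Kind.Ok : Kind → Prop
  | .gad p => 0 < p
  | _ => True

/-- The cells of a block: row and column inside the block. -/
def Kind.InShape : Kind → ℕ → ℕ → Prop
  | .none, _, _ => False
  | .single q, r, j => r = 0 ∧ j < 2 * q
  | .eq p, r, j => r = 0 ∧ 1 ≤ j ∧ j ≤ 2 * p + 1 ∨ r = 1 ∧ j ≤ 2 * p
  | .gad p, r, j => r ≤ 2 ∧ j + r < 2 * p + 1

lemma gEnd_bijective {p : ℕ} (hp : 0 < p) :
    Function.Bijective fun z : GSlot p × Bool => gEnd p z.1 z.2 := by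
  constructor
  · rintro ⟨x, b⟩ ⟨x', b'⟩ h
    have h1 := congrArg (fun z : GCell p => (z.1.1 : ℕ)) h
    have h2 := congrArg (fun z : GCell p => (z.1.2 : ℕ)) h
    clear h
    rcases x with i | i | i <;> rcases x' with i' | i' | i' <;> cases b <;> cases b' <;>
      have := i.isLt <;> have := i'.isLt <;> simp only [gEnd] at h1 h2 <;>
      (try split_ifs at h1 h2) <;>
      (try simp only [Fin.val_zero, Fin.val_one, Fin.val_two, Prod.mk.injEq, Sum.inl.injEq,
        Sum.inr.injEq, reduceCtorEq, Fin.ext_iff, Bool.false_eq_true, Bool.true_eq_false,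
        and_true, and_false] at h1 h2 ⊢) <;> omega
  · rintro ⟨⟨r, j⟩, hj⟩
    simp only at hj
    fin_cases r <;> simp only [Fin.zero_eta, Fin.mk_one, Fin.reduceFinMk, Fin.val_zero,
      Fin.val_one, Fin.val_two] at hj
    · rcases lt_or_ge (j : ℕ) (p + 1) with h | h
      · exact ⟨(.inl ⟨j, h⟩, false), Subtype.ext (Prod.ext (by simp [gEnd]) (by simp [gEnd]))⟩
      · refine ⟨(.inl ⟨2 * p - j, by omega⟩, true), Subtype.ext ?_⟩
        simp only [gEnd]
        rw [dif_pos (show (2 * p - (j : ℕ)) < p by omega)]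
        exact Prod.ext (by simp) (Fin.ext (show 2 * p - (2 * p - (j : ℕ)) = j by omega))
    · rcases lt_or_ge (j : ℕ) p with h | h
      · exact ⟨(.inr (.inl ⟨j, h⟩), false), Subtype.ext (Prod.ext (by simp [gEnd]) (by simp [gEnd]))⟩
      · refine ⟨(.inr (.inl ⟨2 * p - 1 - j, by omega⟩), true), Subtype.ext ?_⟩
        exact Prod.ext (by simp [gEnd])
          (Fin.ext (show 2 * p - 1 - (2 * p - 1 - (j : ℕ)) = j by omega))
    · rcases lt_trichotomy (j : ℕ) (p - 1) with h | h | h
      · exact ⟨(.inr (.inr ⟨j, h⟩), false), Subtype.ext (Prod.ext (by simp [gEnd]) (by simp [gEnd]))⟩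
      · refine ⟨(.inl ⟨p, by omega⟩, true), Subtype.ext ?_⟩
        simp only [gEnd, lt_irrefl, dif_neg, not_false_eq_true]
        rw [dif_pos hp]
        exact Prod.ext (by simp) (Fin.ext (show p - 1 = (j : ℕ) by omega))
      · refine ⟨(.inr (.inr ⟨2 * p - 2 - j, by omega⟩), true), Subtype.ext ?_⟩
        exact Prod.ext (by simp [gEnd])
          (Fin.ext (show 2 * p - 2 - (2 * p - 2 - (j : ℕ)) = j by omega))

lemma eEnd_bijective (p : ℕ) : Function.Bijective fun z : ESlot p × Bool => eEnd p z.1 z.2 := by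
  constructor
  · rintro ⟨x, b⟩ ⟨x', b'⟩ h
    have h1 := congrArg (fun z : ECell p => (z.1 : ℕ)) h
    have h2 := congrArg (fun z : ECell p => (z.2 : ℕ)) h
    clear h
    rcases x with i | i <;> rcases x' with i' | i' <;> cases b <;> cases b' <;>
      have := i.isLt <;> have := i'.isLt <;> simp only [eEnd] at h1 h2 <;>
      (try split_ifs at h1 h2) <;>
      (try simp only [Fin.val_zero, Fin.val_one, Prod.mk.injEq, Sum.inl.injEq,
        Sum.inr.injEq, reduceCtorEq, Fin.ext_iff, Bool.false_eq_true, Bool.true_eq_false,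
        and_true, and_false] at h1 h2 ⊢) <;> omega
  · rintro ⟨r, j⟩
    fin_cases r <;> simp only [Fin.zero_eta, Fin.mk_one]
    · rcases lt_or_ge (j : ℕ) (p + 1) with h | h
      · exact ⟨(.inl ⟨j, h⟩, false), by simp [eEnd]⟩
      · refine ⟨(.inl ⟨2 * p - j, by omega⟩, true), ?_⟩
        simp only [eEnd]
        rw [if_pos (show 2 * p - (j : ℕ) < p by omega)]
        exact Prod.ext rfl (Fin.ext (show 2 * p - (2 * p - (j : ℕ)) = j by omega))
    · rcases lt_trichotomy (j : ℕ) p with h | h | h
      · exact ⟨(.inr ⟨j, h⟩, false), by simp [eEnd]⟩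
      · refine ⟨(.inl ⟨p, by omega⟩, true), ?_⟩
        simp only [eEnd, lt_irrefl, if_false]
        exact Prod.ext rfl (Fin.ext h.symm)
      · refine ⟨(.inr ⟨2 * p - j, by omega⟩, true), ?_⟩
        exact Prod.ext rfl (Fin.ext (show 2 * p - (2 * p - (j : ℕ)) = j by omega))

/-- The ends of a block are its cells, each once. -/
theorem Kind.cells (K : Kind) (hK : K.Ok) :
    (∀ z, K.InShape (K.model.row z) (K.model.col z)) ∧
    (∀ r j, K.InShape r j → ∃ z, (K.model.row z : ℕ) = r ∧ K.model.col z = j) ∧
    ∀ z z', K.model.row z = K.model.row z' → K.model.col z = K.model.col z' → z = z' := by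
  cases K with
  | none => exact ⟨fun z => z.1.elim, fun r j h => h.elim, fun z => z.1.elim⟩
  | single q =>
    refine ⟨fun z => ⟨rfl, ?_⟩, fun r j ⟨hr, hj⟩ => ?_, fun z z' _ h => ?_⟩
    · obtain ⟨x, b⟩ := z
      have := x.isLt
      show (if b then 2 * q - 1 - x.val else x.val) < 2 * q
      split <;> omega
    · rcases lt_or_ge j q with h | h
      · exact ⟨(⟨j, h⟩, false), hr.symm, rfl⟩
      · exact ⟨(⟨2 * q - 1 - j, by omega⟩, true), hr.symm,
          show 2 * q - 1 - (2 * q - 1 - j) = j by omega⟩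
    · obtain ⟨x, b⟩ := z
      obtain ⟨x', b'⟩ := z'
      have := x.isLt
      have := x'.isLt
      cases b <;> cases b' <;> simp only [Bool.false_eq_true, if_false, if_true] at h <;>
        simp only [Prod.mk.injEq, Fin.ext_iff, Bool.false_eq_true, Bool.true_eq_false, and_true,
          and_false] <;> omega
  | eq p =>
    refine ⟨fun z => ?_, fun r j h => ?_, fun z z' h h' => ?_⟩
    · show (((eEnd p z.1 z.2).1 : Fin 2) : ℕ) = 0 ∧ _ ∨ _
      generalize hw : eEnd p z.1 z.2 = w
      obtain ⟨a, j⟩ := w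
      show _ ∨ _
      simp only [hw, eCol]
      fin_cases a <;> simp <;> omega
    · obtain ⟨a, b, hab⟩ : ∃ (a : Fin 2) (b : Fin (2 * p + 1)),
          (a : ℕ) = r ∧ eCol p (a, b) = j := by
        rcases h with ⟨rfl, h1, h2⟩ | ⟨rfl, h2⟩
        · exact ⟨0, ⟨j - 1, by omega⟩, rfl, by simp [eCol]; omega⟩
        · exact ⟨1, ⟨j, by omega⟩, rfl, by simp [eCol]⟩
      obtain ⟨z, hz⟩ := (eEnd_bijective p).2 (a, b)
      exact ⟨z, by show (((eEnd p z.1 z.2).1 : Fin 2) : ℕ) = r; rw [show eEnd p z.1 z.2 = _ from hz];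
                   exact hab.1, by show eCol p (eEnd p z.1 z.2) = j
                                   rw [show eEnd p z.1 z.2 = _ from hz]; exact hab.2⟩
    · refine (eEnd_bijective p).1 ?_
      change (eEnd p z.1 z.2).1 = (eEnd p z'.1 z'.2).1 at h
      change eCol p (eEnd p z.1 z.2) = eCol p (eEnd p z'.1 z'.2) at h'
      refine Prod.ext h (Fin.ext ?_)
      show ((eEnd p z.1 z.2).2 : ℕ) = ((eEnd p z'.1 z'.2).2 : ℕ)
      simp only [eCol, ← h] at h'
      split_ifs at h' <;> omega
  | gad p =>
    refine ⟨fun z => ⟨?_, (gEnd p z.1 z.2).2⟩, fun r j ⟨hr, hj⟩ => ?_, fun z z' h h' => ?_⟩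
    · have := (gEnd p z.1 z.2).1.1.isLt
      show ((gEnd p z.1 z.2).1.1 : ℕ) ≤ 2
      omega
    · obtain ⟨z, hz⟩ := (gEnd_bijective hK).2 ⟨(⟨r, by omega⟩, ⟨j, by omega⟩), hj⟩
      exact ⟨z, congrArg (fun w : GCell p => (w.1.1 : ℕ)) hz,
        congrArg (fun w : GCell p => (w.1.2 : ℕ)) hz⟩
    · exact (gEnd_bijective hK).1 (Subtype.ext (Prod.ext h (Fin.ext h')))

/-- The gadget model has the vector of `Blocks`. -/
theorem vec_gad {p : ℕ} (hp : 0 < p) : (gadModel p).vec = gadVec p := by
  let ε : GSlot p × Bool ≃ GCell p := Equiv.ofBijective _ (gEnd_bijective hp)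
  have hε : ∀ z, gEnd p z.1 z.2 = ε z := fun z => rfl
  have hε' : ∀ x b, ε.symm (gEnd p x b) = (x, b) := fun x b => ε.symm_apply_apply (x, b)
  refine Finset.sum_bij' (fun c _ => c ∘ ε.symm) (fun c _ => c ∘ ε) (fun c hc => ?_)
    (fun c hc => ?_) (fun c _ => by funext z; simp) (fun c _ => by funext z; simp) fun c _ => ?_
  · simp only [Model.sols, mem_filter, mem_univ, true_and] at hc
    simp only [gSols, mem_filter, mem_univ, true_and]
    refine ⟨⟨fun z z' h h' => ?_, fun z => ?_⟩, fun t => ?_⟩
    · refine ε.symm.injective (hc.1.1 _ _ ?_ h')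
      show ((gEnd p _ _).1.2 : ℕ) = (gEnd p _ _).1.2
      rw [hε, hε]
      simpa using congrArg Fin.val h
    · obtain ⟨z', h1, h2⟩ := hc.1.2 (ε.symm z)
      change ((gEnd p z'.1 z'.2).1.2 : ℕ) = ((gEnd p _ _).1.2 : ℕ) at h1
      change (gEnd p z'.1 z'.2).1.1 = _ at h2
      rw [hε, hε, Equiv.apply_symm_apply] at h1
      rw [hε] at h2
      have := (ε z').2
      show (z.1.2 : ℕ) + (c (ε.symm z) : Fin 3) < _
      rw [← h2]
      omega
    · have := hc.2 t
      simp only [Model.type, gType, Function.comp_apply, hε'] at this ⊢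
      convert this using 1 <;> exact congrArg card (by congr!)
  · simp only [gSols, mem_filter, mem_univ, true_and] at hc
    simp only [Model.sols, mem_filter, mem_univ, true_and]
    refine ⟨⟨fun z z' h h' => ?_, fun z => ?_⟩, fun t => ?_⟩
    · refine ε.injective (hc.1.1 _ _ ?_ h')
      exact Fin.ext (by rw [← hε, ← hε]; exact h)
    · refine ⟨ε.symm ⟨(c (ε z), (ε z).1.2), hc.1.2 _⟩, ?_, ?_⟩
      · show ((gEnd p _ _).1.2 : ℕ) = ((gEnd p z.1 z.2).1.2 : ℕ)
        rw [hε, hε, Equiv.apply_symm_apply]
      · show (gEnd p _ _).1.1 = _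
        rw [hε, Equiv.apply_symm_apply]
        rfl
    · have := hc.2 t
      simp only [Model.type, gType, Function.comp_apply, ← hε] at this ⊢
      convert this using 1 <;> exact congrArg card (by congr!)
  · congr 1
    funext x
    simp [Model.type, gType, hε']

/-- The row pair model has the vector of `Blocks`. -/
theorem vec_eq (p : ℕ) :
    (eqModel p).vec = Finsupp.mapDomain (fun f => Fin.castSucc ∘ f) (eqVec p) := by
  let ε : ESlot p × Bool ≃ ECell p := Equiv.ofBijective _ (eEnd_bijective p)
  have hε : ∀ z, eEnd p z.1 z.2 = ε z := fun z => rfl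
  have hε' : ∀ x b, ε.symm (eEnd p x b) = (x, b) := fun x b => ε.symm_apply_apply (x, b)
  simp only [eqVec, Finsupp.mapDomain_finsetSum, Finsupp.mapDomain_single]
  refine Finset.sum_bij' (fun c _ => c ∘ ε.symm) (fun c _ => c ∘ ε) (fun c hc => ?_)
    (fun c hc => ?_) (fun c _ => by funext z; simp) (fun c _ => by funext z; simp) fun c _ => ?_
  · simp only [Model.sols, mem_filter, mem_univ, true_and] at hc
    simp only [eSols, mem_filter, mem_univ, true_and]
    refine ⟨⟨fun z z' h h' => ?_, fun z => ?_⟩, fun t => ?_⟩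
    · refine ε.symm.injective (hc.1.1 _ _ ?_ h')
      show eCol p (eEnd p _ _) = eCol p (eEnd p _ _)
      rwa [hε, hε, Equiv.apply_symm_apply, Equiv.apply_symm_apply]
    · obtain ⟨z', h1, h2⟩ := hc.1.2 (ε.symm z)
      change eCol p (eEnd p z'.1 z'.2) = eCol p (eEnd p _ _) at h1
      change (eEnd p z'.1 z'.2).1 = _ at h2
      rw [hε, hε, Equiv.apply_symm_apply] at h1
      rw [hε] at h2
      show (c (ε.symm z) = (0 : Fin 2) → 1 ≤ eCol p z) ∧ (c (ε.symm z) = (1 : Fin 2) → eCol p z ≤ 2 * p)
      rw [← h2, ← h1]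
      have := (ε z').2.isLt
      constructor <;> intro hz <;> simp [eCol, hz]
      omega
    · have := hc.2 t
      simp only [Model.type, eType, Function.comp_apply, hε'] at this ⊢
      convert this using 1 <;> exact congrArg card (by congr!)
  · simp only [eSols, mem_filter, mem_univ, true_and] at hc
    simp only [Model.sols, mem_filter, mem_univ, true_and]
    refine ⟨⟨fun z z' h h' => ?_, fun z => ?_⟩, fun t => ?_⟩
    · refine ε.injective (hc.1.1 _ _ ?_ h')
      rw [← hε, ← hε]; exact h
    · obtain ⟨b, hb⟩ : ∃ b : Fin (2 * p + 1), eCol p (c (ε z), b) = eCol p (ε z) := by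
        obtain ⟨h0, h1⟩ := hc.1.2 (ε z)
        have hlt : eCol p (ε z) ≤ 2 * p + 1 := by
          have := (ε z).2.isLt
          simp only [eCol]; split <;> omega
        generalize c (ε z) = v at h0 h1
        fin_cases v
        · have := h0 rfl
          exact ⟨⟨eCol p (ε z) - 1, by omega⟩, by simp [eCol] at this ⊢; omega⟩
        · have := h1 rfl
          exact ⟨⟨eCol p (ε z), by omega⟩, by simp [eCol]⟩
      refine ⟨ε.symm (c (ε z), b), ?_, ?_⟩
      · show eCol p (eEnd p _ _) = eCol p (eEnd p z.1 z.2)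
        rw [hε, hε, Equiv.apply_symm_apply, hb]
      · show (eEnd p _ _).1 = _
        rw [hε, Equiv.apply_symm_apply]
        rfl
    · have := hc.2 t
      simp only [Model.type, eType, Function.comp_apply, ← hε] at this ⊢
      convert this using 1 <;> exact congrArg card (by congr!)
  · congr 1
    funext x
    simp [Model.type, eType, hε']

lemma vec_none : noneModel.vec = Finsupp.single (fun x => x.elim) 1 := by
  rw [Model.vec]
  have : noneModel.sols = {fun z => z.1.elim} := by
    refine Finset.ext fun c => ?_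
    simp only [Model.sols, mem_filter, mem_univ, true_and, mem_singleton]
    exact ⟨fun _ => funext fun z => z.1.elim,
      fun _ => ⟨⟨fun z => z.1.elim, fun z => z.1.elim⟩, fun t => congrArg card
        (Finset.ext fun x => x.elim)⟩⟩
  rw [this, sum_singleton]
  exact congrArg (fun f => Finsupp.single f 1) (funext fun x => x.elim)

lemma vec_single (q : ℕ) : (singleModel q).vec = Finsupp.single (fun _ => 0) 1 := by
  rw [Model.vec]
  have : (singleModel q).sols = {fun _ => (0 : Fin 1)} := by
    refine Finset.ext fun c => ?_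
    simp only [Model.sols, mem_filter, mem_univ, true_and, mem_singleton]
    constructor
    · intro _
      funext z
      exact Subsingleton.elim (α := Fin 1) _ _
    · rintro rfl
      refine ⟨⟨fun z z' h _ => (Kind.cells (.single q) trivial).2.2 z z' rfl h,
        fun z => ⟨z, rfl, rfl⟩⟩, fun t => rfl⟩
  rw [this, sum_singleton]

end Vale.Agent.P197.Colour
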