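import Vale.Agent.P197.Colour.TopList
import Vale.Agent.P197.Colour.Models

/-!
# The blocks of the staircase and their pieces

Each row starts a block of one of the four kinds or belongs to an earlier one; the labels of a
block correspond to classes of the pieces `pieces (topList m d) (layK m d)`.
-/

open Finset Equiv

namespace Vale.Agent.P197.Colour

open SymChar Criterion Covering Littlewood

/-- The size of a class of a piece. -/
def clsSize : Piece → ℕ → ℕ
  | .single q, a => if a = 0 then q else 0
  | .gadget p, a => if a < 3 then p else 0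

/-- The size of a class in a list of pieces. -/
def clsAt (ps : List Piece) (i a : ℕ) : ℕ := (ps[i]?).elim 0 fun P => clsSize P a

lemma card_cls : ∀ (P : Piece) (a : ℕ), #{x | P.cls x = a} = clsSize P a
  | .single q, a => by
    by_cases ha : a = 0
    · subst ha
      show #{x : Fin q | (0 : ℕ) = 0} = _
      simp [clsSize]
    · show #{x : Fin q | (0 : ℕ) = a} = _
      simp [clsSize, ha, Ne.symm ha]
  | .gadget p, a => by
    have h : #{x | (Piece.gadget p).cls x = a} = #{z : Fin 3 × Fin p | (z.1 : ℕ) = a} := by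
      refine card_equiv finProdFinEquiv.symm fun x => ?_
      simp only [mem_filter, mem_univ, true_and]
      rfl
    rw [h, clsSize]
    split_ifs with ha
    · rw [show ({z : Fin 3 × Fin p | (z.1 : ℕ) = a} : Finset _) = {(⟨a, ha⟩ : Fin 3)} ×ˢ univ by
        ext z; simp only [mem_filter, mem_univ, true_and, mem_product, mem_singleton, and_true,
          Fin.ext_iff]]
      simp
    · rw [card_eq_zero, filter_eq_empty_iff]
      exact fun z _ hz => ha (hz ▸ z.1.isLt)

/-- The number of points of a class. -/
theorem card_layCls : ∀ (ps : List Piece) (i a : ℕ),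
    #{y | layCls ps y = (i, a)} = clsAt ps i a
  | [], i, a => by
    have : IsEmpty (Fin (total [])) := inferInstanceAs (IsEmpty (Fin 0))
    simp [clsAt]
  | P :: ps, i, a => by
    have h : #{y | layCls (P :: ps) y = (i, a)} =
        #{z : Fin P.size ⊕ Fin (total ps) | layCls (P :: ps) (finSumFinEquiv z) = (i, a)} := by
      refine card_equiv finSumFinEquiv.symm fun x => ?_
      simp only [mem_filter, mem_univ, true_and]
      exact (Eq.congr_left (congrArg _ (Equiv.apply_symm_apply finSumFinEquiv x))).symm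
    rw [h, card_filter, Fintype.sum_sum_type]
    simp only [layCls_cons_inl, layCls_cons_inr]
    rw [← card_filter, ← card_filter]
    cases i with
    | zero =>
      simp only [Prod.mk.injEq, true_and, Nat.succ_ne_zero, false_and, filter_false, card_empty,
        add_zero, card_cls, clsAt, List.getElem?_cons_zero, Option.elim]
    | succ i =>
      simp only [Prod.mk.injEq, Nat.succ_ne_zero, (Nat.succ_ne_zero i).symm, false_and,
        filter_false, card_empty, zero_add, Nat.add_right_cancel_iff, clsAt,
        List.getElem?_cons_succ]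
      refine Eq.trans ?_ (card_layCls ps i a)
      exact congrArg card (filter_congr fun y _ => by rw [Prod.ext_iff])

lemma youngHom_apply {ka kb : ℕ} (u : Perm (Fin ka)) (v : Perm (Fin kb)) (z : Fin ka ⊕ Fin kb) :
    youngHom ka kb (u, v) (finSumFinEquiv z) = finSumFinEquiv (Sum.map u v z) := by
  cases z <;> simp [youngHom, Equiv.permCongr_apply, -finSumFinEquiv_apply_left,
    -finSumFinEquiv_apply_right]

/-- The permutation of a gadget shifts its classes and fixes all other classes. -/
theorem exists_gadget_perm : ∀ (ps : List Piece) (i p : ℕ), ps[i]? = some (.gadget p) →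
    ∃ g ∈ layGs ps, ∀ y, layCls ps (g y) =
      if (layCls ps y).1 = i then (i, ((layCls ps y).2 + 1) % 3) else layCls ps y
  | [], i, p, h => by simp at h
  | P :: ps, 0, p, h => by
    obtain rfl : P = .gadget p := by simpa using h
    refine ⟨_, mem_layGs_cons.mpr (Or.inl ⟨_, List.mem_singleton_self _, rfl⟩), fun y => ?_⟩
    obtain ⟨z, rfl⟩ := finSumFinEquiv.surjective y
    refine (congrArg (layCls _) (youngHom_apply _ _ z)).trans ?_
    rcases z with x | x
    · rw [Sum.map_inl, layCls_cons_inl, layCls_cons_inl, if_pos rfl]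
      refine Prod.ext rfl ?_
      show (Piece.gadget p).cls _ = _
      have hp : ∀ w : Fin (3 * p), ((finProdFinEquiv.symm (finProdFinEquiv.permCongr
          (Equiv.prodCongr (finRotate 3) (Equiv.refl (Fin p))) w)).1 : ℕ) =
          (((finProdFinEquiv.symm w).1 : ℕ) + 1) % 3 := by
        intro w
        rw [Equiv.permCongr_apply, Equiv.symm_apply_apply]
        simp [finRotate_apply, Fin.val_add]
      exact hp x
    · rw [Sum.map_inr, layCls_cons_inr, layCls_cons_inr, if_neg (Nat.succ_ne_zero _)]
      simp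
  | P :: ps, i + 1, p, h => by
    obtain ⟨g, hg, hg'⟩ := exists_gadget_perm ps i p (by simpa using h)
    refine ⟨_, mem_layGs_cons.mpr (Or.inr ⟨g, hg, rfl⟩), fun y => ?_⟩
    obtain ⟨z, rfl⟩ := finSumFinEquiv.surjective y
    refine (congrArg (layCls _) (youngHom_apply _ _ z)).trans ?_
    rcases z with x | x
    · rw [Sum.map_inl, layCls_cons_inl, layCls_cons_inl, if_neg (Nat.succ_ne_zero i).symm]
      simp
    · rw [Sum.map_inr, layCls_cons_inr, layCls_cons_inr, hg']
      simp only [Nat.add_right_cancel_iff]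
      split_ifs <;> rfl

lemma getElem?_tail : ∀ K t, (Covering.tail K)[2 * t]? =
      (if t < K then some (Piece.gadget (2 * (K - t) - 1)) else none) ∧
    (Covering.tail K)[2 * t + 1]? =
      (if t + 1 < K then some (Piece.single (2 * (K - t) - 2)) else none)
  | 0, t => by simp [Covering.tail]
  | 1, t => by
    rcases t with _ | t
    · simp [Covering.tail]
    · simp [Covering.tail, Nat.mul_succ]
  | K + 2, 0 => by
    simp [Covering.tail]
    omega
  | K + 2, t + 1 => by
    obtain ⟨h1, h2⟩ := getElem?_tail (K + 1) t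
    rw [show 2 * (t + 1) = 2 * t + 1 + 1 by omega, show 2 * t + 1 + 1 + 1 = (2 * t + 1) + 1 + 1 by rfl]
    simp only [Covering.tail, List.getElem?_cons_succ, h1, h2]
    constructor <;> split_ifs <;> first | rfl | omega | (congr 2; omega)

variable {m d : ℕ}

/-- The kind of the block starting at a row. -/
def kind (m d u : ℕ) : Kind :=
  if u < eqRows m d then (if u % 2 = 0 then .eq (winLen m d u / 2) else .none)
  else if u < topRows m d then .single (winLen m d u / 2)
  else if u < m then
    (if (u - topRows m d) % 4 = 0 then .gad (winLen m d u / 2)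
     else if (u - topRows m d) % 4 = 3 then .single (winLen m d u / 2) else .none)
  else .none

/-- The first column of the window of a block. -/
def base (m d u : ℕ) : ℕ := if u < eqRows m d then d - (u + 1) else d - u

/-- The first row of the block of a row. -/
def start (m d v : ℕ) : ℕ :=
  if v < eqRows m d then v - v % 2 else if v < topRows m d then v
  else topRows m d + 4 * ((v - topRows m d) / 4) + (if (v - topRows m d) % 4 = 3 then 3 else 0)

/-- The position of the first piece of a block. -/
def pos (m d u : ℕ) : ℕ :=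
  if u < topRows m d then u
  else topRows m d + 2 * ((u - topRows m d) / 4) + (if (u - topRows m d) % 4 = 3 then 1 else 0)

/-- The piece offset, class and size of a label. -/
def Kind.slot : Kind → Fin 3 → Option (ℕ × ℕ × ℕ)
  | .none, _ => Option.none
  | .single q, c => if c = 0 then some (0, 0, q) else Option.none
  | .eq p, c => if c = 0 then some (0, 0, p + 1) else if c = 1 then some (1, 0, p) else Option.none
  | .gad p, c => some (0, c, p)

/-- The parameters. -/
lemma params (hd : d ≤ m) (h : Even (tri m - tri d)) :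
    ∃ K E G, layK m d = K ∧ eqRows m d = E ∧ topRows m d = G ∧ E ≤ G ∧ G ≤ m ∧ d ≤ G ∧
      (K = 0 → G = m) ∧ (1 ≤ K → G + 4 * K = m + 1) ∧
      (m = d + 4 * K ∧ E = 0 ∧ (1 ≤ K → G = d + 1) ∨
        m + 1 = d + 4 * K ∧ d % 2 = 0 ∧ E = d ∧ G = d ∨
        m = d + 4 * K + 1 ∧ d % 2 = 1 ∧ E = d + 1 ∧ (1 ≤ K → G = d + 2)) := by
  refine ⟨_, _, _, rfl, rfl, rfl, ?_⟩
  have := parity_cases hd h
  rcases Nat.eq_zero_or_pos (layK m d) with hK | hK <;>
    [rw [topRows, if_pos hK]; rw [topRows, if_neg hK.ne']] <;>
    simp only [layK, eqRows] at * <;> split_ifs <;>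
    refine ⟨by omega, by omega, by omega, fun _ => by first | trivial | omega,
      fun _ => by omega, ?_⟩ <;>
    rcases this with t | t | t <;>
    first | (left; omega) | (right; left; omega) | (right; right; omega)

/-- The four kinds. -/
lemma kind_spec (hd : d ≤ m) (h : Even (tri m - tri d)) (u : ℕ) :
    kind m d u = .none ∨
    (∃ q, kind m d u = .single q ∧ base m d u = d - u ∧
      (eqRows m d ≤ u ∧ u < topRows m d ∨
        topRows m d ≤ u ∧ (u - topRows m d) % 4 = 3) ∧ u < m ∧
      (u ≤ d ∧ 2 * q + d = m ∨ d < u ∧ 2 * q + u = m)) ∨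
    (∃ p, kind m d u = .eq p ∧ base m d u = d - (u + 1) ∧ u + 1 < eqRows m d ∧ u % 2 = 0 ∧
      u + 1 ≤ d ∧ u + 2 ≤ m ∧ 2 * p + 1 + d = m) ∨
    (∃ p, kind m d u = .gad p ∧ base m d u = 0 ∧ topRows m d ≤ u ∧
      (u - topRows m d) % 4 = 0 ∧ d ≤ u ∧ 0 < p ∧ 2 * p + 1 + u = m) := by
  obtain ⟨K, E, G, hK, hE, hG, h1, h2, h3, h4, h5, h6⟩ := params hd h
  simp only [kind, base, winLen, hE, hG]
  split_ifs with a b c e g g'
  · refine Or.inr (Or.inr (Or.inl ⟨_, rfl, rfl, ?_⟩))
    rw [max_eq_right (show u ≤ d by omega)]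
    omega
  · exact Or.inl rfl
  · refine Or.inr (Or.inl ⟨_, rfl, rfl, ?_⟩)
    rcases le_or_gt u d with hu | hu
    · rw [max_eq_right hu]; omega
    · rw [max_eq_left hu.le]; omega
  · refine Or.inr (Or.inr (Or.inr ⟨_, rfl, by omega, ?_⟩))
    rw [max_eq_left (show d ≤ u by omega)]
    omega
  · refine Or.inr (Or.inl ⟨_, rfl, rfl, ?_⟩)
    rw [max_eq_left (show d ≤ u by omega)]
    omega
  · exact Or.inl rfl
  · exact Or.inl rfl

lemma kind_ok (hd : d ≤ m) (h : Even (tri m - tri d)) (u : ℕ) : (kind m d u).Ok := by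
  rcases kind_spec hd h u with e | ⟨q, e, -⟩ | ⟨p, e, -⟩ | ⟨p, e, -, -, -, -, hp, -⟩ <;> rw [e]
  exacts [trivial, trivial, trivial, hp]

lemma rows_lt (hd : d ≤ m) (h : Even (tri m - tri d)) {u r : ℕ}
    (hr : r < (kind m d u).model.R) : u + r < m := by
  rcases kind_spec hd h u with e | ⟨q, e, -, -, h1, -⟩ | ⟨p, e, -, -, -, -, h1, -⟩ |
    ⟨p, e, -, -, -, -, hp, h1⟩ <;> rw [e] at hr <;> simp only at hr <;> omega

/-- A cell of a block lies outside the corner, in the rows of the block. -/
lemma shape_cell (hd : d ≤ m) (h : Even (tri m - tri d)) {u r j : ℕ}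
    (hs : (kind m d u).InShape r j) :
    u + r + (base m d u + j) < m ∧ d ≤ u + r + (base m d u + j) ∧ start m d (u + r) = u := by
  obtain ⟨K, E, G, hK, hE, hG, h1, h2, h3, h4, h5, h6⟩ := params hd h
  rcases kind_spec hd h u with e | ⟨q, e, hb, hu, h7, h8⟩ | ⟨p, e, hb, hu, h7, h8, h9, h10⟩ |
    ⟨p, e, hb, hu, h7, h8, hp, h10⟩ <;> rw [e] at hs <;>
    simp only [Kind.InShape] at hs <;> rw [hb] <;>
    simp only [start, hE, hG] at hu h7 ⊢
  · obtain ⟨rfl, hj⟩ := hs
    refine ⟨by omega, by omega, ?_⟩
    split_ifs <;> omega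
  · refine ⟨by omega, by omega, ?_⟩
    split_ifs <;> omega
  · refine ⟨by omega, by omega, ?_⟩
    split_ifs <;> omega

/-- Every cell outside the corner lies in the block of its row. -/
lemma shape_cover (hd : d ≤ m) (h : Even (tri m - tri d)) {v j : ℕ} (hv : v + j < m)
    (hj : d ≤ v + j) :
    start m d v ≤ v ∧ base m d (start m d v) ≤ j ∧
      (kind m d (start m d v)).InShape (v - start m d v) (j - base m d (start m d v)) := by
  obtain ⟨K, E, G, hK, hE, hG, h1, h2, h3, h4, h5, h6⟩ := params hd h
  rcases lt_or_ge v E with a | a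
  · have hs : start m d v = v - v % 2 := by simp [start, hE, a]
    rw [hs]
    rcases kind_spec hd h (v - v % 2) with e | ⟨q, e, hb, hu, h7, h8⟩ |
      ⟨p, e, hb, hu, h7, h8, h9, h10⟩ | ⟨p, e, hb, hu, h7, h8, hp, h10⟩
    · simp only [kind, hE, hG, show v - v % 2 < E by omega,
        show (v - v % 2) % 2 = 0 by omega, if_true] at e
      exact absurd e (by simp)
    · rw [hE, hG] at hu; omega
    · rw [e, hb]
      simp only [Kind.InShape]
      omega
    · rw [hG] at hu; omega
  rcases lt_or_ge v G with b | b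
  · have hs : start m d v = v := by simp [start, hE, hG, show ¬ v < E by omega, b]
    rw [hs]
    rcases kind_spec hd h v with e | ⟨q, e, hb, hu, h7, h8⟩ |
      ⟨p, e, hb, hu, h7, h8, h9, h10⟩ | ⟨p, e, hb, hu, h7, h8, hp, h10⟩
    · simp only [kind, hE, hG, show ¬ v < E by omega, b, if_true, if_false] at e
      exact absurd e (by simp)
    · rw [e, hb]
      simp only [Kind.InShape]
      omega
    · rw [hE] at hu; omega
    · rw [hG] at hu; omega
  · have hs : start m d v = G + 4 * ((v - G) / 4) + (if (v - G) % 4 = 3 then 3 else 0) := by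
      simp [start, hE, hG, show ¬ v < E by omega, show ¬ v < G by omega]
    rw [hs]
    generalize hw : G + 4 * ((v - G) / 4) + (if (v - G) % 4 = 3 then 3 else 0) = w
    have hw' : G ≤ w ∧ w ≤ v ∧ ((w - G) % 4 = 0 ∧ v ≤ w + 2 ∨ (w - G) % 4 = 3 ∧ v = w) := by
      split_ifs at hw <;> omega
    rcases kind_spec hd h w with e | ⟨q, e, hb, hu, h7, h8⟩ |
      ⟨p, e, hb, hu, h7, h8, h9, h10⟩ | ⟨p, e, hb, hu, h7, h8, hp, h10⟩
    · simp only [kind, hE, hG, show ¬ w < E by omega, show ¬ w < G by omega, if_false,
        show w < m by omega, if_true] at e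
      split_ifs at e
      omega
    · rw [hE, hG] at hu
      rw [e, hb]
      simp only [Kind.InShape]
      omega
    · rw [hE] at hu; omega
    · rw [hG] at hu h7
      rw [e, hb]
      simp only [Kind.InShape]
      omega

lemma getElem?_pieces (i : ℕ) :
    (pieces (topList m d) (layK m d))[i]? =
      if i < topRows m d then some (Piece.single (rowPairs m d i))
      else (Covering.tail (layK m d))[i - topRows m d]? := by
  have hlen : ((topList m d).map Piece.single).length = topRows m d := by
    rw [List.length_map, length_topList]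
  rw [pieces]
  split_ifs with hi
  · rw [List.getElem?_append_left (hlen ▸ hi)]
    simp [topList, hi]
  · rw [List.getElem?_append_right (by omega), hlen]

/-- The label classes have the sizes of the slots. -/
lemma slot_size (hd : d ≤ m) (h : Even (tri m - tri d)) {u : ℕ} {c : Fin 3} {o a s : ℕ}
    (hs : (kind m d u).slot c = some (o, a, s)) :
    clsAt (pieces (topList m d) (layK m d)) (pos m d u + o) a = s := by
  obtain ⟨K, E, G, hK, hE, hG, h1, h2, h3, h4, h5, h6⟩ := params hd h
  rcases kind_spec hd h u with e | ⟨q, e, hb, hu, h7, h8⟩ | ⟨p, e, hb, hu, h7, h8, h9, h10⟩ |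
    ⟨p, e, hb, hu, h7, h8, hp, h10⟩ <;> rw [e] at hs <;> simp only [Kind.slot] at hs
  · simp at hs
  · split_ifs at hs
    simp only [Option.some.injEq, Prod.mk.injEq] at hs
    obtain ⟨rfl, rfl, rfl⟩ := hs
    rw [hE, hG] at hu
    simp only [clsAt, getElem?_pieces]
    simp only [hG, hK, add_zero, pos]
    rcases hu with hu | hu
    · rw [if_pos hu.2, if_pos hu.2]
      simp only [Option.elim, clsSize, if_true, rowPairs, hE]
      rw [if_neg (by omega)]
      simp only [winLen]
      rcases le_or_gt u d with hu' | hu'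
      · rw [max_eq_right hu']; omega
      · rw [max_eq_left hu'.le]; omega
    · rw [if_neg (show ¬ u < G by omega), if_pos hu.2, if_neg (by omega),
        show G + 2 * ((u - G) / 4) + 1 - G = 2 * ((u - G) / 4) + 1 by omega,
        (getElem?_tail K _).2, if_pos (by omega)]
      simp only [Option.elim, clsSize, if_true]
      omega
  · rw [hE] at hu
    have hp : ∀ i, i < G → clsAt (pieces (topList m d) (layK m d)) i 0 = rowPairs m d i := by
      intro i hi
      simp [clsAt, getElem?_pieces, hG, hi, clsSize]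
    have hu' : pos m d u = u := by simp [pos, hG, show u < G by omega]
    rw [hu']
    split_ifs at hs <;> simp only [Option.some.injEq, Prod.mk.injEq] at hs <;>
      obtain ⟨rfl, rfl, rfl⟩ := hs <;> rw [hp _ (by omega)] <;> simp only [rowPairs, hE, winLen] <;>
      [rw [max_eq_right (show u + 0 ≤ d by omega)]; rw [max_eq_right (show u + 1 ≤ d by omega)]] <;>
      split_ifs <;> omega
  · simp only [Option.some.injEq, Prod.mk.injEq] at hs
    obtain ⟨rfl, rfl, rfl⟩ := hs
    rw [hG] at hu h7
    simp only [clsAt, getElem?_pieces]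
    simp only [hG, hK, pos, add_zero]
    rw [if_neg (show ¬ u < G by omega), if_neg (show ¬ (u - G) % 4 = 3 by omega), if_neg (by omega),
      show G + 2 * ((u - G) / 4) + 0 - G = 2 * ((u - G) / 4) by omega, (getElem?_tail K _).1,
      if_pos (by omega)]
    simp only [Option.elim, clsSize, c.isLt, if_true]
    omega

/-- Every nonempty class is the class of a label. -/
lemma slot_surj (hd : d ≤ m) (h : Even (tri m - tri d)) {i a : ℕ}
    (hne : clsAt (pieces (topList m d) (layK m d)) i a ≠ 0) :
    ∃ u, u < m ∧ ∃ c o s, (kind m d u).slot c = some (o, a, s) ∧ i = pos m d u + o := by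
  obtain ⟨K, E, G, hK, hE, hG, h1, h2, h3, h4, h5, h6⟩ := params hd h
  simp only [clsAt, getElem?_pieces] at hne
  simp only [hG, hK] at hne
  rcases lt_or_ge i G with hi | hi
  · simp only [if_pos hi, Option.elim, clsSize] at hne
    split_ifs at hne with ha
    · subst ha
      by_cases hodd : i < E ∧ i % 2 = 1
      · refine ⟨i - 1, by omega, 1, 1, ?_⟩
        simp [kind, pos, hE, hG, show i - 1 < E by omega, show (i - 1) % 2 = 0 by omega,
          show i - 1 < G by omega, Kind.slot]
        omega
      · refine ⟨i, by omega, 0, 0, ?_⟩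
        rcases lt_or_ge i E with he | he
        · simp [kind, pos, hE, hG, he, show i % 2 = 0 by omega, hi, Kind.slot]
        · simp [kind, pos, hE, hG, show ¬ i < E by omega, hi, Kind.slot]
    · exact absurd rfl hne
  · rw [if_neg (by omega)] at hne
    obtain ⟨t, rfl | rfl⟩ : ∃ t, i = G + 2 * t ∨ i = G + 2 * t + 1 :=
      ⟨(i - G) / 2, by omega⟩
    · rw [show G + 2 * t - G = 2 * t by omega, (getElem?_tail K t).1] at hne
      split_ifs at hne with ht
      · simp only [Option.elim, clsSize] at hne
        split_ifs at hne with ha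
        · refine ⟨G + 4 * t, by omega, ⟨a, ha⟩, 0, ?_⟩
          simp [kind, pos, hE, hG, show ¬ G + 4 * t < E by omega, show G + 4 * t < m by omega,
            Kind.slot]
        · exact absurd rfl hne
      · exact absurd rfl hne
    · rw [show G + 2 * t + 1 - G = 2 * t + 1 by omega, (getElem?_tail K t).2] at hne
      split_ifs at hne with ht
      · simp only [Option.elim, clsSize] at hne
        split_ifs at hne with ha
        · subst ha
          refine ⟨G + 4 * t + 3, by omega, 0, 0, ?_⟩
          simp [kind, pos, hE, hG, show ¬ G + 4 * t + 3 < E by omega,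
            show G + 4 * t + 3 < m by omega, show ¬ G + 4 * t + 3 < G by omega,
            show (G + 4 * t + 3 - G) % 4 = 3 by omega,
            show (G + 4 * t + 3 - G) / 4 = t by omega, Kind.slot]
        · exact absurd rfl hne
      · exact absurd rfl hne

/-- The position determines the block. -/
lemma slot_inj (hd : d ≤ m) (h : Even (tri m - tri d)) {u u' : ℕ} {c c' : Fin 3}
    {o a s o' a' s' : ℕ} (hs : (kind m d u).slot c = some (o, a, s))
    (hs' : (kind m d u').slot c' = some (o', a', s')) (he : pos m d u + o = pos m d u' + o') :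
    u = u' ∧ (a = a' → c = c') := by
  obtain ⟨K, E, G, hK, hE, hG, h1, h2, h3, h4, h5, h6⟩ := params hd h
  have key : ∀ {u c o a s}, (kind m d u).slot c = some (o, a, s) →
      (∃ q, kind m d u = .single q ∧ o = 0 ∧ a = 0 ∧ c = 0 ∧
        (E ≤ u ∧ u < G ∧ pos m d u = u ∨
          G ≤ u ∧ (u - G) % 4 = 3 ∧ pos m d u = G + 2 * ((u - G) / 4) + 1)) ∨
      (∃ p, kind m d u = .eq p ∧ (o = 0 ∧ c = 0 ∨ o = 1 ∧ c = 1) ∧ a = 0 ∧ u + 1 < E ∧
        u % 2 = 0 ∧ pos m d u = u) ∨
      (∃ p, kind m d u = .gad p ∧ o = 0 ∧ a = c ∧ G ≤ u ∧ (u - G) % 4 = 0 ∧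
        pos m d u = G + 2 * ((u - G) / 4)) := by
    intro u c o a s hs
    rcases kind_spec hd h u with e | ⟨q, e, hb, hu, h7, h8⟩ | ⟨p, e, hb, hu, h7, h8, h9, h10⟩ |
      ⟨p, e, hb, hu, h7, h8, hp, h10⟩ <;> rw [e] at hs <;> simp only [Kind.slot] at hs
    · simp at hs
    · split_ifs at hs with hc
      simp only [Option.some.injEq, Prod.mk.injEq] at hs
      rw [hE, hG] at hu
      refine Or.inl ⟨q, e, hs.1.symm, hs.2.1.symm, hc, ?_⟩
      simp only [pos, hG]
      split_ifs <;> omega
    · rw [hE] at hu
      refine Or.inr (Or.inl ⟨p, e, ?_, ?_, hu, h7, by simp [pos, hG, show u < G by omega]⟩)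
      · split_ifs at hs with c0 c1 <;> simp only [Option.some.injEq, Prod.mk.injEq] at hs
        exacts [Or.inl ⟨hs.1.symm, c0⟩, Or.inr ⟨hs.1.symm, c1⟩]
      · split_ifs at hs <;> simp only [Option.some.injEq, Prod.mk.injEq] at hs <;> exact hs.2.1.symm
    · simp only [Option.some.injEq, Prod.mk.injEq] at hs
      rw [hG] at hu h7
      refine Or.inr (Or.inr ⟨p, e, hs.1.symm, hs.2.1.symm, hu, h7, ?_⟩)
      simp only [pos, hG]
      split_ifs <;> omega
  rcases key hs with ⟨q, e, k1, k2, k3, k4⟩ | ⟨q, e, k1, k2, k3, k4, k5⟩ |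
      ⟨q, e, k1, k2, k3, k4, k5⟩ <;>
    rcases key hs' with ⟨q', e', l1, l2, l3, l4⟩ | ⟨q', e', l1, l2, l3, l4, l5⟩ |
      ⟨q', e', l1, l2, l3, l4, l5⟩ <;>
    simp only [Fin.ext_iff, Fin.val_zero, Fin.val_one] at * <;> omega

end Vale.Agent.P197.Colour
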