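import Vale.Agent.P197.Colour.Gadget

/-!
# Products of block vectors

Blocks `b` have slots `S b` and three labels each.  The product of block vectors is a vector of
labellings of all slots.  If every block vector generates either a single labelling or, for the
blocks in `G`, a chain product of `1 + flip3 c`, then some equivariant functional satisfying the
relations `Φ + Φ ∘ c + Φ ∘ c² = 0` on `G` does not vanish on the product.
-/

open Finset

namespace Vale.Agent.P197.Colour

variable {B : Type} [Fintype B] [DecidableEq B] {S : B → Type} [∀ b, Fintype (S b)]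
  [∀ b, DecidableEq (S b)] {M : Type*} [AddCommGroup M] [Module (ZMod 2) M]

/-- The labelling of all slots given by labellings of the blocks. -/
def join (f : ∀ b, S b → Fin 3) : (Σ b, S b) → B × Fin 3 := fun x => (x.1, f x.1 x.2)

/-- The product of block vectors. -/
noncomputable def piVec (v : ∀ b, Vec (S b) (Fin 3)) : Vec (Σ b, S b) (B × Fin 3) :=
  ∑ f : ∀ b, S b → Fin 3, Finsupp.single (join f) (∏ b, v b (f b))

/-- Apply `π` to the labels of the block `b`. -/
def onBlock (b : B) (π : Fin 3 → Fin 3) (x : B × Fin 3) : B × Fin 3 :=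
  (x.1, if x.1 = b then π x.2 else x.2)

/-- The product as a linear map in one of the factors. -/
noncomputable def piVecAt (v : ∀ b, Vec (S b) (Fin 3)) (b : B) :
    Vec (S b) (Fin 3) →ₗ[ZMod 2] Vec (Σ b, S b) (B × Fin 3) where
  toFun x := piVec (Function.update v b x)
  map_add' x y := by
    simp only [piVec, ← sum_add_distrib, ← Finsupp.single_add]
    refine sum_congr rfl fun f _ => congrArg _ ?_
    rw [← mul_prod_erase univ _ (mem_univ b), ← mul_prod_erase univ _ (mem_univ b),
      ← mul_prod_erase univ _ (mem_univ b)]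
    simp only [Function.update_self, Finsupp.add_apply, add_mul]
    have h : ∀ z, ∏ x ∈ univ.erase b, (Function.update v b z x) (f x) =
        ∏ x ∈ univ.erase b, v x (f x) := fun z =>
      prod_congr rfl fun x hx => by rw [Function.update_of_ne (mem_erase.mp hx).1]
    rw [h, h, h]
  map_smul' a x := by
    simp only [piVec, smul_sum, Finsupp.smul_single, RingHom.id_apply, smul_eq_mul]
    refine sum_congr rfl fun f _ => congrArg _ ?_
    rw [← mul_prod_erase univ _ (mem_univ b), ← mul_prod_erase univ _ (mem_univ b)]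
    simp only [Function.update_self, Finsupp.smul_apply, smul_eq_mul, mul_assoc]
    congr 2
    exact prod_congr rfl fun x hx => by
      rw [Function.update_of_ne (mem_erase.mp hx).1, Function.update_of_ne (mem_erase.mp hx).1]

lemma piVecAt_self (v : ∀ b, Vec (S b) (Fin 3)) (b : B) : piVecAt v b (v b) = piVec v :=
  congrArg piVec (Function.update_eq_self b v)

lemma piVec_single (f : ∀ b, S b → Fin 3) :
    piVec (fun b => Finsupp.single (f b) 1) = Finsupp.single (join f) 1 := by
  rw [piVec, sum_eq_single f]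
  · simp
  · intro g _ hg
    obtain ⟨b, hb⟩ := Function.ne_iff.mp hg
    refine Finsupp.single_eq_zero.mpr ?_
    exact prod_eq_zero (mem_univ b) (Finsupp.single_eq_of_ne hb)
  · simp

/-- A perm of one block, extended to all slots. -/
def blockPerm (b : B) (g : Equiv.Perm (S b)) : Equiv.Perm (Σ b, S b) :=
  Equiv.sigmaCongrRight (Function.update (fun b => (1 : Equiv.Perm (S b))) b g)

lemma piVecAt_act (v : ∀ b, Vec (S b) (Fin 3)) (b : B) (g : Equiv.Perm (S b))
    (x : Vec (S b) (Fin 3)) : piVecAt v b (act g x) = act (blockPerm b g) (piVecAt v b x) := by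
  induction x using Finsupp.induction_linear with
  | zero => simp
  | add x y hx hy => simp only [map_add, hx, hy]
  | single h a =>
    rw [act_single]
    show piVec _ = act _ (piVec _)
    simp only [piVec, map_sum, act_single]
    let e : (∀ b, S b → Fin 3) ≃ (∀ b, S b → Fin 3) :=
      Equiv.piCongrRight fun c => Equiv.arrowCongr
        ((Function.update (fun b => (1 : Equiv.Perm (S b))) b g) c).symm (Equiv.refl _)
    refine (Fintype.sum_equiv e _ _ fun f => ?_).symm
    have he : ∀ c, e f c = f c ∘ (Function.update (fun b => (1 : Equiv.Perm (S b))) b g) c :=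
      fun c => funext fun x => by simp [e]
    refine congrArg₂ Finsupp.single ?_ ?_
    · funext x
      obtain ⟨c, x⟩ := x
      simp [join, blockPerm, he]
      rfl
    · refine prod_congr rfl fun c _ => ?_
      rcases eq_or_ne c b with rfl | hc
      · rw [he, Function.update_self, Function.update_self, Function.update_self,
          Finsupp.single_apply, Finsupp.single_apply]
        exact if_congr ⟨fun h => by rw [h], fun h =>
          g.surjective.injective_comp_right h⟩ rfl rfl
      · rw [he, Function.update_of_ne hc, Function.update_of_ne hc, Function.update_of_ne hc]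
        rfl

lemma piVecAt_relabel (v : ∀ b, Vec (S b) (Fin 3)) (b : B) (π : Equiv.Perm (Fin 3))
    (x : Vec (S b) (Fin 3)) :
    piVecAt v b (relabel π x) = relabel (onBlock b π) (piVecAt v b x) := by
  induction x using Finsupp.induction_linear with
  | zero => simp
  | add x y hx hy => simp only [map_add, hx, hy]
  | single h a =>
    rw [relabel_single]
    show piVec _ = relabel _ (piVec _)
    simp only [piVec, map_sum, relabel_single]
    let e : (∀ b, S b → Fin 3) ≃ (∀ b, S b → Fin 3) :=
      Equiv.piCongrRight fun c => Equiv.arrowCongr (Equiv.refl _) (if c = b then π else 1)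
    refine (Fintype.sum_equiv e _ _ fun f => ?_).symm
    have he : ∀ c, e f c = (if c = b then π else 1 : Equiv.Perm (Fin 3)) ∘ f c :=
      fun c => funext fun x => by simp [e]
    refine congrArg₂ Finsupp.single ?_ ?_
    · funext x
      obtain ⟨c, x⟩ := x
      simp only [join, Function.comp_apply, he, onBlock]
      split_ifs with hc <;> simp [hc]
    · refine prod_congr rfl fun c _ => ?_
      rcases eq_or_ne c b with rfl | hc
      · rw [he, if_pos rfl, Function.update_self, Function.update_self, Finsupp.single_apply,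
          Finsupp.single_apply]
        exact if_congr ⟨fun h => by rw [h], fun h => π.injective.comp_left h⟩ rfl rfl
      · rw [he, if_neg hc, Function.update_of_ne hc, Function.update_of_ne hc]
        rfl

variable (G : Finset B)

/-- Equivariant functions with the cyclic relations on `G`. -/
def IsCyclic (A : Equiv.Perm (Σ b, S b) → M →ₗ[ZMod 2] M)
    (Φ : ((Σ b, S b) → B × Fin 3) → M) : Prop :=
  (∀ (σ : Equiv.Perm (Σ b, S b)) g, Φ (g ∘ σ) = A σ (Φ g)) ∧
    ∀ b ∈ G, ∀ g, Φ g + Φ (onBlock b (· + 1) ∘ g) + Φ (onBlock b (· + 2) ∘ g) = 0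

/-- `Φ + Φ ∘ flip3 c` on the block `b`. -/
def symOp (b : B) (c : Fin 3) (Φ : ((Σ b, S b) → B × Fin 3) → M) :
    ((Σ b, S b) → B × Fin 3) → M :=
  fun g => Φ g + Φ (onBlock b (flip3 c) ∘ g)

/-- The operators of a chain, the head applied first. -/
def dop (b : B) : List (Fin 3) → (((Σ b, S b) → B × Fin 3) → M) → ((Σ b, S b) → B × Fin 3) → M
  | [], Φ => Φ
  | c :: Q, Φ => dop b Q (symOp b c Φ)

variable {G} {A : Equiv.Perm (Σ b, S b) → M →ₗ[ZMod 2] M}

lemma onBlock_comp (b : B) (π π' : Fin 3 → Fin 3) :
    onBlock b π ∘ onBlock b π' = onBlock b (π ∘ π') := by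
  funext x; simp only [onBlock, Function.comp_apply]; split_ifs <;> rfl

lemma onBlock_comm {b b' : B} (h : b ≠ b') (π π' : Fin 3 → Fin 3) :
    onBlock b π ∘ onBlock b' π' = onBlock b' π' ∘ onBlock b π := by
  funext x
  simp only [onBlock, Function.comp_apply]
  split_ifs <;> first | rfl | simp_all

lemma IsCyclic.comp {Φ : ((Σ b, S b) → B × Fin 3) → M} (hΦ : IsCyclic G A Φ) (b : B) {π : Fin 3 → Fin 3}
    (hπ : (π ∘ (· + 1) = (· + 1) ∘ π ∧ π ∘ (· + 2) = (· + 2) ∘ π) ∨
      (π ∘ (· + 1) = (· + 2) ∘ π ∧ π ∘ (· + 2) = (· + 1) ∘ π)) :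
    IsCyclic G A fun g => Φ (onBlock b π ∘ g) := by
  refine ⟨fun σ g => hΦ.1 σ (onBlock b π ∘ g), fun b' hb' g => ?_⟩
  simp only [← Function.comp_assoc]
  rcases eq_or_ne b' b with rfl | hne
  · simp only [onBlock_comp]
    have h := hΦ.2 b' hb' (onBlock b' π ∘ g)
    simp only [← Function.comp_assoc, onBlock_comp] at h
    rcases hπ with ⟨h1, h2⟩ | ⟨h1, h2⟩ <;> rw [h1, h2]
    · exact h
    · rw [add_right_comm]; exact h
  · simp only [onBlock_comm hne.symm]
    simpa only [← Function.comp_assoc] using hΦ.2 b' hb' (onBlock b π ∘ g)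

lemma IsCyclic.symOp {Φ : ((Σ b, S b) → B × Fin 3) → M} (hΦ : IsCyclic G A Φ) (b : B) (c : Fin 3) :
    IsCyclic G A (symOp b c Φ) := by
  have h := hΦ.comp b (π := flip3 c) (Or.inr (by revert c; decide))
  refine ⟨fun σ g => ?_, fun b' hb' g => ?_⟩
  · show Φ (g ∘ σ) + Φ (onBlock b (flip3 c) ∘ (g ∘ σ)) = A σ (Φ g + Φ (onBlock b (flip3 c) ∘ g))
    rw [map_add, ← hΦ.1, ← hΦ.1]
    rfl
  · have h1 := hΦ.2 b' hb' g
    have h2 := h.2 b' hb' g
    show (_ + _) + (_ + _) + (_ + _) = (0 : M)
    calc _ = (Φ g + Φ (onBlock b' (· + 1) ∘ g) + Φ (onBlock b' (· + 2) ∘ g)) +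
          (Φ (onBlock b (flip3 c) ∘ g) + Φ (onBlock b (flip3 c) ∘ (onBlock b' (· + 1) ∘ g)) +
            Φ (onBlock b (flip3 c) ∘ (onBlock b' (· + 2) ∘ g))) := by abel
      _ = 0 := by rw [h1, h2, add_zero]

lemma dop_apply (b : B) (v : ∀ b, Vec (S b) (Fin 3)) (E : S b → Fin 3) :
    ∀ (Q : List (Fin 3)) (Φ : ((Σ b, S b) → B × Fin 3) → M),
      Finsupp.linearCombination (ZMod 2) Φ (piVecAt v b (qop Q E)) =
        Finsupp.linearCombination (ZMod 2) (dop b Q Φ) (piVecAt v b (Finsupp.single E 1))
  | [], Φ => rfl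
  | c :: Q, Φ => by
    have h : piVecAt v b (relabel (flip3 c) (qop Q E)) =
        relabel (onBlock b (flip3 c)) (piVecAt v b (qop Q E)) :=
      piVecAt_relabel v b (Equiv.swap (c + 1) (c + 2)) _
    rw [qop, map_add, h, dop, ← dop_apply b v E Q]
    induction piVecAt v b (qop Q E) using Finsupp.induction_linear with
    | zero => simp
    | add x y hx hy => simp only [map_add] at hx hy ⊢; rw [← hx, ← hy]; abel
    | single f a => simp [symOp]

lemma flip3_comp : ∀ a b : Fin 3, flip3 a ∘ flip3 b = (· + (2 * a + b)) := by decide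

lemma shift_flip3 : ∀ a : Fin 3, (· + 1) ∘ flip3 a = flip3 (a + 2) ∧
    (· + 2) ∘ flip3 a = flip3 (a + 1) := by decide

lemma flip3_comp3 : ∀ a b : Fin 3, flip3 a ∘ flip3 b ∘ flip3 a = flip3 (2 * a + 2 * b) := by decide

lemma rot_flip3 : ∀ c : Fin 3, (· + 2) ∘ flip3 c ∘ (· + 1) = flip3 (c + 2) := by decide

lemma shift_cover : ∀ c s : Fin 3, c = s ∨ c = s + 2 ∨ c = s + 2 + 2 := by decide

lemma shift_cancel : ((· + 2) ∘ (· + 1) : Fin 3 → Fin 3) = id := by decide

lemma onBlock_id (b : B) : onBlock b (id : Fin 3 → Fin 3) = id := by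
  funext x; simp [onBlock]

/-- A set of values on `G`-cyclic functions closed under the two-sided moves is everything. -/
lemma dop_ne_zero (b : B) (hb : b ∈ G) {val : (((Σ b, S b) → B × Fin 3) → M) → M}
    (hadd : ∀ Φ Ψ, val (fun g => Φ g + Ψ g) = val Φ + val Ψ)
    (hrot : ∀ Φ, IsCyclic G A Φ → val Φ = 0 → val (fun g => Φ (onBlock b (· + 1) ∘ g)) = 0) :
    ∀ (Q : List (Fin 3)) (s : Fin 3), Starts s Q →
      (∀ Φ, IsCyclic G A Φ → val (dop b Q Φ) = 0) → ∀ Φ, IsCyclic G A Φ → val Φ = 0 := by
  intro Q s hQ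
  induction hQ with
  | one s =>
    intro h Φ hΦ
    have hnext : ∀ c, (∀ Ψ, IsCyclic G A Ψ → val (symOp b c Ψ) = 0) →
        ∀ Ψ, IsCyclic G A Ψ → val (symOp b (c + 2) Ψ) = 0 := by
      intro c hc Ψ hΨ
      have h1 : IsCyclic G A fun g => Ψ (onBlock b (· + 2) ∘ g) :=
        hΨ.comp b (Or.inl (by decide))
      refine Eq.trans (congrArg val ?_) (hrot _ (h1.symOp b c) (hc _ h1))
      funext g
      simp only [symOp, ← Function.comp_assoc, onBlock_comp]
      rw [shift_cancel, onBlock_id, Function.id_comp, Function.comp_assoc _ (flip3 c),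
        rot_flip3]
    have hall : ∀ c Ψ, IsCyclic G A Ψ → val (symOp b c Ψ) = 0 := by
      intro c
      have h1 := hnext s h
      have h2 := hnext (s + 2) h1
      have : c = s ∨ c = s + 2 ∨ c = s + 2 + 2 := shift_cover c s
      rcases this with rfl | rfl | rfl
      exacts [h, h1, h2]
    have hid : Φ = fun g => symOp b 0 (symOp b 1 Φ) g + symOp b 1 (symOp b 0 Φ) g := by
      funext g
      simp only [symOp, ← Function.comp_assoc, onBlock_comp, flip3_comp]
      have h2 := hΦ.2 b hb g
      have two : ∀ a : M, a + a = 0 := ZModModule.add_self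
      have e1 : (2 * (1 : Fin 3) + 0) = 2 ∧ (2 * (0 : Fin 3) + 1) = 1 := by decide
      rw [e1.1, e1.2]
      refine eq_of_sub_eq_zero ?_
      rw [ZModModule.sub_eq_add]
      calc Φ g + (Φ g + Φ (onBlock b (flip3 1) ∘ g) + (Φ (onBlock b (flip3 0) ∘ g) +
            Φ (onBlock b (· + 2) ∘ g)) + (Φ g + Φ (onBlock b (flip3 0) ∘ g) +
            (Φ (onBlock b (flip3 1) ∘ g) + Φ (onBlock b (· + 1) ∘ g))))
          = (Φ g + Φ (onBlock b (· + 1) ∘ g) + Φ (onBlock b (· + 2) ∘ g)) + ((Φ g + Φ g) +
            (Φ (onBlock b (flip3 1) ∘ g) + Φ (onBlock b (flip3 1) ∘ g)) +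
            (Φ (onBlock b (flip3 0) ∘ g) + Φ (onBlock b (flip3 0) ∘ g))) := by abel
        _ = 0 := by simp only [h2, two]
    rw [hid, hadd, hall 0 _ (hΦ.symOp b 1), hall 1 _ (hΦ.symOp b 0), add_zero]
  | @cons s s' Q hne hQ ih =>
    intro h
    refine ih fun Φ hΦ => ?_
    -- absorb `symOp s` between two copies of `symOp s'`
    obtain ⟨Q', rfl⟩ : ∃ Q', Q = s' :: Q' := by cases hQ <;> exact ⟨_, rfl⟩
    have key : symOp b s' (symOp b s (symOp b s' Φ)) = symOp b s' Φ := by
      funext g
      simp only [symOp, ← Function.comp_assoc, onBlock_comp]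
      simp only [Function.comp_assoc (flip3 s') (flip3 s), flip3_comp3]
      have haa : flip3 s' ∘ flip3 s' = id := funext fun x => flip3_flip3 s' x
      simp only [flip3_comp, haa, onBlock_id, Function.id_comp]
      have two : ∀ a : M, a + a = 0 := ZModModule.add_self
      have h1 := hΦ.2 b hb g
      have h2 := hΦ.2 b hb (onBlock b (flip3 s') ∘ g)
      simp only [← Function.comp_assoc, onBlock_comp, (shift_flip3 s').1, (shift_flip3 s').2] at h2
      have e : ∀ s s' : Fin 3, s ≠ s' →
          ((2 * s + s' = 1 ∧ 2 * s' + s = 2) ∨ (2 * s + s' = 2 ∧ 2 * s' + s = 1)) ∧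
          ((s = s' + 1 ∧ 2 * s' + 2 * s = s' + 2) ∨ (s = s' + 2 ∧ 2 * s' + 2 * s = s' + 1)) ∧
          2 * s' + s' = 0 := by decide
      obtain ⟨e1, e2, -⟩ := e s s' hne
      refine eq_of_sub_eq_zero ?_
      rw [ZModModule.sub_eq_add]
      rcases e1 with ⟨p, q⟩ | ⟨p, q⟩ <;> rcases e2 with ⟨u, v⟩ | ⟨u, v⟩ <;>
        simp only [p, q, v] <;> subst u <;>
        refine Eq.trans (b := (Φ g + Φ (onBlock b (· + 1) ∘ g) + Φ (onBlock b (· + 2) ∘ g)) +
          (Φ (onBlock b (flip3 s') ∘ g) + Φ (onBlock b (flip3 (s' + 2)) ∘ g) +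
            Φ (onBlock b (flip3 (s' + 1)) ∘ g)) + ((Φ g + Φ g) +
              (Φ (onBlock b (flip3 s') ∘ g) + Φ (onBlock b (flip3 s') ∘ g)))) (by abel) ?_ <;>
        simp only [h1, h2, two, add_zero]
    have := h (symOp b s' Φ) (hΦ.symOp b s')
    simp only [dop] at this ⊢
    rwa [key] at this

/-- Two labellings with the same counts differ by a rearrangement. -/
lemma exists_rearrange {ι ω : Type} [Fintype ι] [DecidableEq ι] [DecidableEq ω] (f g : ι → ω)
    (h : ∀ c, #{x | f x = c} = #{x | g x = c}) : ∃ σ : Equiv.Perm ι, f ∘ σ = g := by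
  have e : ∀ c, {x // g x = c} ≃ {x // f x = c} := fun c =>
    Fintype.equivOfCardEq (by rw [Fintype.card_subtype, Fintype.card_subtype, h])
  exact ⟨Equiv.ofFiberEquiv e, funext fun x => Equiv.ofFiberEquiv_map e x⟩

lemma linearCombination_act {Φ : ((Σ b, S b) → B × Fin 3) → M} (hΦ : IsCyclic G A Φ)
    (σ : Equiv.Perm (Σ b, S b)) (x : Vec (Σ b, S b) (B × Fin 3)) :
    Finsupp.linearCombination (ZMod 2) Φ (act σ x) =
      A σ (Finsupp.linearCombination (ZMod 2) Φ x) := by
  induction x using Finsupp.induction_linear with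
  | zero => simp
  | add x y hx hy => simp only [map_add, hx, hy]
  | single f a => simp [hΦ.1]

/-- Some cyclic function does not vanish on the product. -/
theorem exists_ne_zero (v : ∀ b, Vec (S b) (Fin 3)) (E : ∀ b, S b → Fin 3)
    (Q : B → List (Fin 3))
    (hQ : ∀ b, Q b = [] ∨ (b ∈ G ∧ (∃ s, Starts s (Q b)) ∧
      ∀ c c', #{x | E b x = c} = #{x | E b x = c'}))
    (hgen : ∀ b, qop (Q b) (E b) ∈ gen (v b))
    {Φ : ((Σ b, S b) → B × Fin 3) → M} (hΦ : IsCyclic G A Φ) (hne : Φ (join E) ≠ 0) :
    ∃ Φ', IsCyclic G A Φ' ∧ Finsupp.linearCombination (ZMod 2) Φ' (piVec v) ≠ 0 := by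
  suffices H : ∀ s : Finset B, ∃ Φ', IsCyclic G A Φ' ∧ Finsupp.linearCombination (ZMod 2) Φ'
      (piVec fun b => if b ∈ s then v b else Finsupp.single (E b) 1) ≠ 0 by
    simpa using H univ
  intro s
  induction s using Finset.induction_on with
  | empty =>
    refine ⟨Φ, hΦ, ?_⟩
    simp only [notMem_empty, if_false, piVec_single, Finsupp.linearCombination_single, one_smul]
    exact hne
  | @insert b s hb ih =>
    obtain ⟨Ψ, hΨ, hΨne⟩ := ih
    set w := fun b => if b ∈ s then v b else Finsupp.single (E b) (1 : ZMod 2) with hw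
    by_contra hcon
    push Not at hcon
    have hupd : (fun c => if c ∈ insert b s then v c else Finsupp.single (E c) (1 : ZMod 2)) =
        Function.update w b (v b) := by
      funext c
      rcases eq_or_ne c b with rfl | hc
      · simp
      · simp [hc, w]
    have hsingle : piVec w = piVecAt w b (Finsupp.single (E b) 1) := by
      conv_lhs => rw [← piVecAt_self w b]
      simp [w, hb]
    have hzero : ∀ Φ', IsCyclic G A Φ' →
        Finsupp.linearCombination (ZMod 2) Φ' (piVecAt w b (qop (Q b) (E b))) = 0 := by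
      intro Φ' hΦ'
      have key : ∀ x ∈ gen (v b),
          Finsupp.linearCombination (ZMod 2) Φ' (piVecAt w b x) = 0 := by
        intro x hx
        induction hx using Submodule.span_induction with
        | mem x hx =>
          obtain ⟨g, rfl⟩ := hx
          rw [piVecAt_act, linearCombination_act hΦ']
          have h := hcon Φ' hΦ'
          rw [hupd] at h
          show A _ (Finsupp.linearCombination (ZMod 2) Φ' (piVec (Function.update w b (v b)))) = 0
          rw [h, map_zero]
        | zero => simp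
        | add x y _ _ hx hy => rw [map_add, map_add, hx, hy, add_zero]
        | smul a x _ hx => rw [map_smul, map_smul, hx, smul_zero]
      exact key _ (hgen b)
    simp only [dop_apply] at hzero
    let val : (((Σ b, S b) → B × Fin 3) → M) → M := fun Φ' =>
      Finsupp.linearCombination (ZMod 2) Φ' (piVecAt w b (Finsupp.single (E b) 1))
    refine hΨne ?_
    rw [hsingle]
    rcases hQ b with hQ0 | ⟨hbG, ⟨t, hQt⟩, hbal⟩
    · simpa [hQ0, dop] using hzero Ψ hΨ
    · refine dop_ne_zero b hbG (val := val) (fun Φ₁ Φ₂ => ?_) (fun Φ₁ h₁ h0 => ?_) _ t hQt hzero Ψ hΨ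
      · simp only [val]
        induction piVecAt w b (Finsupp.single (E b) 1) using Finsupp.induction_linear with
        | zero => simp
        | add x y hx hy => simp only [map_add, hx, hy]; abel
        | single f a => simp [smul_add]
      · simp only [val] at h0 ⊢
        obtain ⟨σ, hσ⟩ := exists_rearrange (E b) ((· + 1) ∘ E b) fun c => by
          rw [hbal c (c + 2)]
          refine congrArg Finset.card (filter_congr fun x _ => ?_)
          show E b x = c + 2 ↔ E b x + 1 = c
          generalize E b x = y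
          revert y c; decide
        have hrel : relabel (onBlock b (· + 1)) (piVecAt w b (Finsupp.single (E b) 1)) =
            act (blockPerm b σ) (piVecAt w b (Finsupp.single (E b) 1)) := by
          rw [← piVecAt_act, act_single, hσ, ← relabel_single]
          exact (piVecAt_relabel w b (Equiv.addRight 1) _).symm
        have h2 := congrArg (Finsupp.linearCombination (ZMod 2) Φ₁) hrel
        rw [linearCombination_act h₁, h0, map_zero] at h2
        refine Eq.trans ?_ h2
        generalize piVecAt w b (Finsupp.single (E b) 1) = x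
        induction x using Finsupp.induction_linear with
        | zero => simp
        | add x y hx hy => simp only [map_add, hx, hy]
        | single f a => simp

end Vale.Agent.P197.Colour
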