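import Vale.Agent.P197.Colour.Chain
import Vale.Agent.P197.Colour.LayoutPieces

/-!
# The reductions of the local models
-/

open Finset Equiv

namespace Vale.Agent.P197.Colour

open Covering

lemma gen_single_self {ι : Type} (E : ι → Fin 3) :
    qop [] E ∈ gen (Finsupp.single E 1 : Vec ι (Fin 3)) := by
  rw [qop]; exact mem_gen_self _

/-- The reduction of a gadget. -/
lemma gad_reduce (k : ℕ) : ∃ (E : GSlot (k + 1) → Fin 3) (Q : List (Fin 3)),
    qop Q E ∈ gen (gadModel (k + 1)).vec ∧ (∀ c, #{x | E x = c} = k + 1) ∧ Starts 1 Q := by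
  obtain ⟨ε, hε⟩ := gadVec_eq k
  have hP : ∀ c : Fin 3, #{x : Fin 1 | (![0] : Fin 1 → Fin 3) x = c} =
      if c = 0 then 0 + 1 else 0 := by
    intro c
    rcases eq_or_ne c 0 with rfl | h <;> simp [*, Ne.symm]
  obtain ⟨E, Q, hQ, hcnt, hmem⟩ := walk_reduce k (Fin 1) (![0] : Fin 1 → Fin 3) 0 0 hP
  have h1 := map_mem_gen (LinearMap.id + relabel (flip3 1))
    (fun g x => by simp only [LinearMap.add_apply, LinearMap.id_coe, id_eq, relabel_act, map_add])
    hmem
  simp only [LinearMap.add_apply, LinearMap.id_coe, id_eq] at h1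
  rw [← qop] at h1
  have h2 := reindex_mem_gen ε h1
  rw [qop_reindex, ← hε, ← vec_gad (Nat.succ_pos k)] at h2
  refine ⟨E ∘ ε, 1 :: Q, h2, fun c => ?_, Starts.cons (show (1 : Fin 3) ≠ 0 by decide) hQ⟩
  have h3 := hcnt c
  rw [Nat.zero_add] at h3
  exact (card_equiv ε (fun x => by simp)).trans h3

/-- Every block vector reduces to a chain over a labelling with the class sizes of its pieces. -/
theorem Kind.exists_reduce : ∀ (K : Kind), K.Ok →
    ∃ (E : K.model.S → Fin 3) (Q : List (Fin 3)), qop Q E ∈ gen K.model.vec ∧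
      (∀ c, #{x | E x = c} = (K.slot c).elim 0 fun t => t.2.2) ∧
      (Q = [] ∨ ∃ p, K = .gad p ∧ ∃ s, Starts s Q)
  | .none, _ => by
    refine ⟨fun x => x.elim, [], by rw [vec_none]; exact gen_single_self _, fun c => ?_, Or.inl rfl⟩
    simp [Kind.slot]
  | .single q, _ => by
    refine ⟨fun _ => 0, [], by rw [vec_single]; exact gen_single_self _, fun c => ?_, Or.inl rfl⟩
    by_cases hc : c = 0
    · subst hc; simp [Kind.slot]
    · simp [Kind.slot, hc, Ne.symm hc]
  | .eq p, _ => by
    obtain ⟨E, hE, hcnt⟩ : ∃ E : ESlot p → Fin 2, eqVec p = Finsupp.single E 1 ∧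
        ∀ c, #{x | E x = c} = if c = 0 then p + 1 else p := by
      rcases Nat.eq_zero_or_pos p with rfl | hp
      · refine ⟨fun _ => 0, ?_, by decide⟩
        have h : eSols 0 = {fun z => z.1} := by decide
        rw [eqVec, h, sum_singleton]
        congr 1
        funext x
        revert x
        decide
      · exact eqVec_eq p hp
    refine ⟨Fin.castSucc ∘ E, [], ?_, fun c => ?_, Or.inl rfl⟩
    · rw [vec_eq, hE, Finsupp.mapDomain_single]; exact gen_single_self _
    · fin_cases c
      · show #{x | Fin.castSucc (E x) = Fin.castSucc (0 : Fin 2)} = p + 1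
        simp only [Fin.castSucc_inj]
        exact hcnt 0
      · show #{x | Fin.castSucc (E x) = Fin.castSucc (1 : Fin 2)} = p
        simp only [Fin.castSucc_inj]
        exact hcnt 1
      · show #{x | Fin.castSucc (E x) = (2 : Fin 3)} = 0
        rw [card_eq_zero, filter_eq_empty_iff]
        intro x _ h
        have h4 := congrArg Fin.val h
        have h5 : (E x : ℕ) < 2 := (E x).isLt
        change (E x : ℕ) = 2 at h4
        omega
  | .gad 0, h => absurd h (lt_irrefl 0)
  | .gad (k + 1), _ => by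
    obtain ⟨E, Q, h1, h2, h3⟩ := gad_reduce k
    exact ⟨E, Q, h1, fun c => h2 c, Or.inr ⟨k + 1, rfl, 1, h3⟩⟩

end Vale.Agent.P197.Colour
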